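import Mathlib

/-! Shannon entropy of random variables on finite uniform probability spaces. -/

namespace Vale.Agent.P015

open Finset
open scoped BigOperators

variable {Ω Ω' Ω'' α α' β β' γ : Type} [Fintype Ω] [Fintype Ω'] [Fintype Ω'']

open Classical in
/-- Indicator of a proposition. -/
noncomputable def ind (p : Prop) : ℝ := if p then 1 else 0

lemma ind_pos {p : Prop} (h : p) : ind p = 1 := by simp [ind, h]
lemma ind_neg {p : Prop} (h : ¬ p) : ind p = 0 := by simp [ind, h]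
@[simp] lemma ind_true : ind True = 1 := ind_pos trivial
@[simp] lemma ind_false : ind False = 0 := ind_neg not_false
lemma ind_nonneg (p : Prop) : 0 ≤ ind p := by unfold ind; split_ifs <;> norm_num
lemma ind_le_one (p : Prop) : ind p ≤ 1 := by unfold ind; split_ifs <;> norm_num
lemma ind_and (p q : Prop) : ind (p ∧ q) = ind p * ind q := by
  by_cases hp : p <;> by_cases hq : q <;> simp [ind, hp, hq]
lemma ind_mono {p q : Prop} (h : p → q) : ind p ≤ ind q := by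
  by_cases hp : p
  · rw [ind_pos hp, ind_pos (h hp)]
  · rw [ind_neg hp]; exact ind_nonneg _
lemma ind_congr {p q : Prop} (h : p ↔ q) : ind p = ind q := by rw [propext h]
lemma ind_not (p : Prop) : ind (¬ p) = 1 - ind p := by
  by_cases hp : p <;> simp [ind, hp]
lemma ind_or_le (p q : Prop) : ind (p ∨ q) ≤ ind p + ind q := by
  by_cases hp : p <;> by_cases hq : q <;> simp [ind, hp, hq]
lemma ind_mul_self (p : Prop) : ind p * ind p = ind p := by
  by_cases hp : p <;> simp [ind, hp]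
lemma ind_eq_ite (p : Prop) [Decidable p] : ind p = if p then 1 else 0 := by
  by_cases hp : p <;> simp [ind, hp]
lemma sum_ind {ι : Type} (s : Finset ι) (p : ι → Prop) [DecidablePred p] :
    ∑ i ∈ s, ind (p i) = ((s.filter p).card : ℝ) := by
  simp only [ind_eq_ite]; rw [sum_boole]
lemma ind_exists_le {ι : Type} (s : Finset ι) (p : ι → Prop) :
    ind (∃ i ∈ s, p i) ≤ ∑ i ∈ s, ind (p i) := by
  by_cases h : ∃ i ∈ s, p i
  · obtain ⟨i, hi, hp⟩ := h
    refine (ind_le_one _).trans ?_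
    rw [← ind_pos hp]
    exact single_le_sum (f := fun i => ind (p i)) (fun j _ => ind_nonneg _) hi
  · rw [ind_neg h]; exact sum_nonneg fun _ _ => ind_nonneg _
lemma sum_ind_eq {ι : Type} {s : Finset ι} {a : ι} (ha : a ∈ s) (f : ι → ℝ) :
    ∑ i ∈ s, ind (a = i) * f i = f a := by
  rw [sum_eq_single a]
  · simp
  · intro b _ hb; rw [ind_neg (Ne.symm hb), zero_mul]
  · intro h; exact absurd ha h

lemma E_mono {f g : Ω → ℝ} (h : ∀ ω, f ω ≤ g ω) : 𝔼 ω, f ω ≤ 𝔼 ω, g ω :=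
  expect_le_expect fun ω _ => h ω
lemma E_nonneg {f : Ω → ℝ} (h : ∀ ω, 0 ≤ f ω) : 0 ≤ 𝔼 ω, f ω := expect_nonneg fun ω _ => h ω
lemma E_congr {f g : Ω → ℝ} (h : ∀ ω, f ω = g ω) : 𝔼 ω, f ω = 𝔼 ω, g ω := by
  rw [funext h]
lemma E_add (f g : Ω → ℝ) : 𝔼 ω, (f ω + g ω) = (𝔼 ω, f ω) + 𝔼 ω, g ω := expect_add_distrib _ _ _
lemma E_sub (f g : Ω → ℝ) : 𝔼 ω, (f ω - g ω) = (𝔼 ω, f ω) - 𝔼 ω, g ω := expect_sub_distrib _ _ _
lemma E_const [Nonempty Ω] (c : ℝ) : 𝔼 _ω : Ω, c = c := Fintype.expect_const c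
lemma E_mul_left (c : ℝ) (f : Ω → ℝ) : 𝔼 ω, c * f ω = c * 𝔼 ω, f ω := (mul_expect _ _ _).symm
lemma E_mul_right (c : ℝ) (f : Ω → ℝ) : 𝔼 ω, f ω * c = (𝔼 ω, f ω) * c := (expect_mul _ _ _).symm
lemma E_div (c : ℝ) (f : Ω → ℝ) : 𝔼 ω, f ω / c = (𝔼 ω, f ω) / c := (expect_div _ _ _).symm
lemma E_sum {ι : Type} (s : Finset ι) (f : Ω → ι → ℝ) :
    𝔼 ω, ∑ i ∈ s, f ω i = ∑ i ∈ s, 𝔼 ω, f ω i := expect_sum_comm _ _ _
lemma E_comm (f : Ω → Ω' → ℝ) : 𝔼 ω, 𝔼 ω', f ω ω' = 𝔼 ω', 𝔼 ω, f ω ω' := expect_comm _ _ _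
lemma E_prod (f : Ω × Ω' → ℝ) : 𝔼 x, f x = 𝔼 ω, 𝔼 ω', f (ω, ω') := by
  rw [← univ_product_univ, expect_product]
lemma E_le [Nonempty Ω] {f : Ω → ℝ} {c : ℝ} (h : ∀ ω, f ω ≤ c) : 𝔼 ω, f ω ≤ c :=
  expect_le univ_nonempty fun ω _ => h ω
lemma le_E [Nonempty Ω] {f : Ω → ℝ} {c : ℝ} (h : ∀ ω, c ≤ f ω) : c ≤ 𝔼 ω, f ω :=
  le_expect univ_nonempty fun ω _ => h ω
lemma E_eq (f : Ω → ℝ) : 𝔼 ω, f ω = (∑ ω, f ω) / Fintype.card Ω :=
  Fintype.expect_eq_sum_div_card f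
lemma E_bool (f : Bool → ℝ) : 𝔼 b, f b = (f true + f false) / 2 := by
  rw [E_eq]; simp
lemma E_pi {ι S : Type} [Fintype ι] [DecidableEq ι] [Fintype S] (f : ι → S → ℝ) :
    𝔼 g : ι → S, ∏ i, f i (g i) = ∏ i, 𝔼 s, f i s := by
  simp only [E_eq]
  rw [prod_div_distrib, prod_univ_sum, Fintype.piFinset_univ]
  simp

/-- Probability of an event. -/
noncomputable def pr (A : Ω → Prop) : ℝ := 𝔼 ω, ind (A ω)

lemma pr_nonneg (A : Ω → Prop) : 0 ≤ pr A := E_nonneg fun _ => ind_nonneg _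
lemma pr_le_one [Nonempty Ω] (A : Ω → Prop) : pr A ≤ 1 := E_le fun _ => ind_le_one _
lemma pr_mono {A B : Ω → Prop} (h : ∀ ω, A ω → B ω) : pr A ≤ pr B :=
  E_mono fun ω => ind_mono (h ω)
lemma pr_congr {A B : Ω → Prop} (h : ∀ ω, A ω ↔ B ω) : pr A = pr B :=
  E_congr fun ω => ind_congr (h ω)
lemma pr_pos {A : Ω → Prop} {ω : Ω} (h : A ω) : 0 < pr A :=
  expect_pos' (fun _ _ => ind_nonneg _) ⟨ω, mem_univ _, by rw [ind_pos h]; norm_num⟩
lemma pr_fib_pos (X : Ω → α) (ω : Ω) : 0 < pr fun ω' => X ω' = X ω := pr_pos (ω := ω) rfl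
lemma pr_fib2_pos (X : Ω → α) (Y : Ω → β) (ω : Ω) :
    0 < pr fun ω' => X ω' = X ω ∧ Y ω' = Y ω := pr_pos (ω := ω) ⟨rfl, rfl⟩
lemma pr_eq_card (A : Ω → Prop) [DecidablePred A] :
    pr A = ((univ.filter A).card : ℝ) / Fintype.card Ω := by
  rw [pr, E_eq, sum_ind]

/-- Entropy. -/
noncomputable def ent (X : Ω → α) : ℝ := 𝔼 ω, -Real.log (pr fun ω' => X ω' = X ω)

/-- Conditional entropy. -/
noncomputable def cent (X : Ω → α) (Y : Ω → β) : ℝ := ent (fun ω => (X ω, Y ω)) - ent Y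

lemma ent_nonneg (X : Ω → α) : 0 ≤ ent X := E_nonneg fun ω => by
  have : Nonempty Ω := ⟨ω⟩
  exact neg_nonneg.2 (Real.log_nonpos (pr_nonneg _) (pr_le_one _))

lemma ent_le_of_det {X : Ω → α} {Y : Ω → β} (h : ∀ ω ω', X ω = X ω' → Y ω = Y ω') :
    ent Y ≤ ent X := E_mono fun ω =>
  neg_le_neg (Real.log_le_log (pr_pos (ω := ω) rfl) (pr_mono fun ω' => h ω' ω))

lemma ent_congr {X : Ω → α} {Y : Ω → β} (h : ∀ ω ω', X ω = X ω' ↔ Y ω = Y ω') :
    ent X = ent Y :=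
  le_antisymm (ent_le_of_det fun ω ω' => (h ω ω').2) (ent_le_of_det fun ω ω' => (h ω ω').1)

lemma ent_const {X : Ω → α} (h : ∀ ω ω', X ω = X ω') : ent X = 0 := by
  refine (E_congr fun ω => ?_).trans (expect_const_zero _)
  have : Nonempty Ω := ⟨ω⟩
  have : (pr fun ω' => X ω' = X ω) = 1 := by
    rw [pr, E_congr fun ω' => ind_pos (h ω' ω), E_const]
  rw [this]; simp

lemma cent_eq (X : Ω → α) (Y : Ω → β) : cent X Y =
    𝔼 ω, -Real.log ((pr fun ω' => X ω' = X ω ∧ Y ω' = Y ω) / pr fun ω' => Y ω' = Y ω) := by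
  rw [cent, ent, ent, ← E_sub]
  refine E_congr fun ω => ?_
  rw [Real.log_div (pr_fib2_pos X Y ω).ne' (pr_fib_pos Y ω).ne']
  simp only [Prod.mk.injEq]; ring

lemma cent_nonneg (X : Ω → α) (Y : Ω → β) : 0 ≤ cent X Y :=
  sub_nonneg.2 (ent_le_of_det fun _ _ h => (Prod.mk.inj h).2)

/-- Lower bound for conditional entropy from an upper bound on conditional probabilities. -/
lemma le_cent {X : Ω → α} {Y : Ω → β} (c : Ω → ℝ)
    (h : ∀ ω, (pr fun ω' => X ω' = X ω ∧ Y ω' = Y ω) ≤ c ω * pr fun ω' => Y ω' = Y ω) :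
    𝔼 ω, -Real.log (c ω) ≤ cent X Y := by
  rw [cent_eq]
  refine E_mono fun ω => neg_le_neg (Real.log_le_log ?_ ?_)
  · exact div_pos (pr_pos (ω := ω) ⟨rfl, rfl⟩) (pr_pos (ω := ω) rfl)
  · rw [div_le_iff₀ (pr_fib_pos Y ω)]; exact h ω

/-- Gibbs inequality with slack. -/
lemma gibbs [Nonempty Ω] {X : Ω → α} {Y : Ω → β} (s : Finset α) (hs : ∀ ω, X ω ∈ s)
    (r : α → β → ℝ) (h0 : ∀ x y, 0 ≤ r x y) (hpos : ∀ ω, 0 < r (X ω) (Y ω)) :
    cent X Y ≤ (𝔼 ω, -Real.log (r (X ω) (Y ω))) + (𝔼 ω, ∑ x ∈ s, r x (Y ω)) - 1 := by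
  set P : α → β → ℝ := fun x y => pr fun ω' => X ω' = x ∧ Y ω' = y with hP
  have key : 𝔼 ω, r (X ω) (Y ω) * (pr fun ω' => Y ω' = Y ω) / P (X ω) (Y ω)
      ≤ 𝔼 ω, ∑ x ∈ s, r x (Y ω) := by
    calc 𝔼 ω, r (X ω) (Y ω) * (pr fun ω' => Y ω' = Y ω) / P (X ω) (Y ω)
        = 𝔼 ω, 𝔼 ω', ∑ x ∈ s, r x (Y ω') * (ind (X ω = x ∧ Y ω = Y ω') / P x (Y ω')) := by
          refine E_congr fun ω => ?_
          rw [pr, ← E_mul_left, ← E_div]
          refine E_congr fun ω' => ?_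
          by_cases h : Y ω' = Y ω
          · rw [h, ← sum_ind_eq (hs ω) fun x => r x (Y ω) * ind (Y ω = Y ω) / P x (Y ω)]
            refine sum_congr rfl fun x _ => ?_
            rw [ind_and]; ring
          · rw [ind_neg h, sum_eq_zero]
            · simp
            · intro x _
              rw [ind_neg fun h' => h h'.2.symm]; simp
      _ = 𝔼 ω', ∑ x ∈ s, r x (Y ω') * (P x (Y ω') / P x (Y ω')) := by
          rw [E_comm]
          refine E_congr fun ω' => ?_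
          rw [E_sum]
          refine sum_congr rfl fun x _ => ?_
          rw [E_mul_left, E_div]; rfl
      _ ≤ _ := E_mono fun ω' => sum_le_sum fun x _ =>
          mul_le_of_le_one_right (h0 _ _) (div_self_le_one _)
  have h2 : cent X Y ≤ 𝔼 ω, (-Real.log (r (X ω) (Y ω)) +
      (r (X ω) (Y ω) * (pr fun ω' => Y ω' = Y ω) / P (X ω) (Y ω) - 1)) := by
    rw [cent_eq]
    refine E_mono fun ω => ?_
    have h1 : 0 < P (X ω) (Y ω) := pr_pos (ω := ω) ⟨rfl, rfl⟩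
    have h3 : 0 < pr fun ω' => Y ω' = Y ω := pr_pos (ω := ω) rfl
    have h4 := Real.log_le_sub_one_of_pos (div_pos (mul_pos (hpos ω) h3) h1)
    rw [Real.log_div (mul_pos (hpos ω) h3).ne' h1.ne', Real.log_mul (hpos ω).ne' h3.ne'] at h4
    rw [Real.log_div h1.ne' h3.ne']
    linarith
  rw [E_add, E_sub, E_const] at h2
  linarith

lemma cent_le_of_det_left {X : Ω → α} {X' : Ω → α'} {Y : Ω → β}
    (h : ∀ ω ω', X ω = X ω' → Y ω = Y ω' → X' ω = X' ω') : cent X' Y ≤ cent X Y :=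
  sub_le_sub_right (ent_le_of_det fun ω ω' h' => by
    obtain ⟨h1, h2⟩ := Prod.mk.inj h'
    rw [h ω ω' h1 h2, h2]) _

lemma cent_pair_right_le (X : Ω → α) (Y : Ω → β) (Z : Ω → γ) :
    cent X (fun ω => (Y ω, Z ω)) ≤ cent X Y := by
  classical
  cases isEmpty_or_nonempty Ω
  · simp [cent, ent]
  refine (gibbs (univ.image X) (fun ω => mem_image_of_mem _ (mem_univ ω))
    (fun x (y : β × γ) => (pr fun ω' => X ω' = x ∧ Y ω' = y.1) / pr fun ω' => Y ω' = y.1)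
    (fun _ _ => div_nonneg (pr_nonneg _) (pr_nonneg _))
    (fun ω => div_pos (pr_pos (ω := ω) ⟨rfl, rfl⟩) (pr_pos (ω := ω) rfl))).trans ?_
  rw [← cent_eq]
  have : ∀ ω, ∑ x ∈ univ.image X, (pr fun ω' => X ω' = x ∧ Y ω' = Y ω) /
      (pr fun ω' => Y ω' = Y ω) = 1 := by
    intro ω
    rw [← sum_div, div_eq_one_iff_eq (pr_fib_pos Y ω).ne']
    simp only [pr]
    rw [← E_sum]
    refine E_congr fun ω' => ?_
    simp only [ind_and]
    exact sum_ind_eq (mem_image_of_mem _ (mem_univ ω')) fun _ => ind (Y ω' = Y ω)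
  rw [E_congr this, E_const]; simp

/-- Conditioning on more information decreases entropy. -/
lemma cent_le_of_det_right {X : Ω → α} {Y : Ω → β} {Z : Ω → γ}
    (h : ∀ ω ω', Z ω = Z ω' → Y ω = Y ω') : cent X Z ≤ cent X Y := by
  refine le_trans (le_of_eq ?_) (cent_pair_right_le X Y Z)
  unfold cent
  congr 1
  · refine ent_congr fun ω ω' => ?_
    simp only [Prod.mk.injEq]
    exact ⟨fun h' => ⟨h'.1, h _ _ h'.2, h'.2⟩, fun h' => ⟨h'.1, h'.2.2⟩⟩
  · refine ent_congr fun ω ω' => ?_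
    simp only [Prod.mk.injEq]
    exact ⟨fun h' => ⟨h _ _ h', h'⟩, fun h' => h'.2⟩

lemma cent_le_of_det {X : Ω → α} {X' : Ω → α'} {Y : Ω → β} {Z : Ω → γ}
    (h : ∀ ω ω', X ω = X ω' → Z ω = Z ω' → X' ω = X' ω')
    (h' : ∀ ω ω', Z ω = Z ω' → Y ω = Y ω') : cent X' Z ≤ cent X Y :=
  (cent_le_of_det_left h).trans (cent_le_of_det_right h')

lemma cent_unit (X : Ω → α) : cent X (fun _ => ()) = ent X := by
  rw [cent, ent_const (X := fun _ : Ω => ()) fun _ _ => rfl, sub_zero]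
  exact ent_congr fun _ _ => by simp

lemma cent_le_ent (X : Ω → α) (Y : Ω → β) : cent X Y ≤ ent X := by
  rw [← cent_unit]; exact cent_le_of_det_right fun _ _ _ => rfl

lemma ent_pair_le (X : Ω → α) (Y : Ω → β) : ent (fun ω => (X ω, Y ω)) ≤ ent X + ent Y := by
  have := cent_le_ent X Y
  unfold cent at this; linarith

lemma ent_le_add_of_det {X : Ω → α} {Y : Ω → β} {Z : Ω → γ}
    (h : ∀ ω ω', X ω = X ω' → Y ω = Y ω' → Z ω = Z ω') : ent Z ≤ ent X + ent Y :=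
  (ent_le_of_det fun ω ω' h' => h ω ω' (Prod.mk.inj h').1 (Prod.mk.inj h').2).trans
    (ent_pair_le X Y)

lemma ent_sub_le_cent (X : Ω → α) (Y : Ω → β) : ent X - ent Y ≤ cent X Y :=
  sub_le_sub_right (ent_le_of_det fun _ _ h => (Prod.mk.inj h).1) _

/-- Chain rule. -/
lemma cent_pair (X : Ω → α) (X' : Ω → α') (Y : Ω → β) :
    cent (fun ω => (X ω, X' ω)) Y = cent X (fun ω => (X' ω, Y ω)) + cent X' Y := by
  unfold cent
  have : ent (fun ω => ((X ω, X' ω), Y ω)) = ent (fun ω => (X ω, X' ω, Y ω)) :=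
    ent_congr fun _ _ => by simp [and_assoc]
  rw [this]; ring

lemma cent_pair_le (X : Ω → α) (X' : Ω → α') (Y : Ω → β) :
    cent (fun ω => (X ω, X' ω)) Y ≤ cent X Y + cent X' Y := by
  rw [cent_pair]
  have := cent_le_of_det_right (X := X) (Y := Y) (Z := fun ω => (X' ω, Y ω))
    fun _ _ h => (Prod.mk.inj h).2
  linarith

lemma cent_eq_zero_of_det {X : Ω → α} {Y : Ω → β} (h : ∀ ω ω', Y ω = Y ω' → X ω = X ω') :
    cent X Y = 0 := by
  rw [cent, sub_eq_zero]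
  exact ent_congr fun ω ω' => by
    simp only [Prod.mk.injEq]; exact ⟨fun h' => h'.2, fun h' => ⟨h _ _ h', h'⟩⟩

/-- Subadditivity over a finite family. -/
lemma cent_le_sum {ι : Type} {δ : ι → Type} (J : Finset ι) (Xs : ∀ i, Ω → δ i) (Y : Ω → β) :
    ∀ {α : Type} (X : Ω → α), (∀ ω ω', (∀ i ∈ J, Xs i ω = Xs i ω') → Y ω = Y ω' → X ω = X ω') →
      cent X Y ≤ ∑ i ∈ J, cent (Xs i) Y := by
  classical
  induction J using Finset.induction_on with
  | empty =>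
    intro α X h
    rw [cent_eq_zero_of_det fun ω ω' h' => h ω ω' (by simp) h']; simp
  | insert a J ha ih =>
    intro α X h
    rw [sum_insert ha]
    have h1 := ih (fun ω => fun i : J => Xs i ω) fun ω ω' h' _ => funext fun i => h' i i.2
    refine le_trans (cent_le_of_det_left (X := fun ω => (Xs a ω, fun i : J => Xs i ω)) ?_)
      ((cent_pair_le _ _ _).trans (by linarith))
    intro ω ω' h2 h3
    obtain ⟨h4, h5⟩ := Prod.mk.inj h2
    refine h ω ω' (fun i hi => ?_) h3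
    rcases mem_insert.1 hi with rfl | hi
    · exact h4
    · exact congrFun h5 ⟨i, hi⟩

lemma ent_le_sum {ι : Type} {δ : ι → Type} (J : Finset ι) (Xs : ∀ i, Ω → δ i) (X : Ω → α)
    (h : ∀ ω ω', (∀ i ∈ J, Xs i ω = Xs i ω') → X ω = X ω') : ent X ≤ ∑ i ∈ J, ent (Xs i) := by
  have := cent_le_sum J Xs (fun _ => ()) X fun ω ω' h' _ => h ω ω' h'
  simpa only [cent_unit] using this

lemma ent_le_log_card {X : Ω → α} (s : Finset α) (hs : ∀ ω, X ω ∈ s) :
    ent X ≤ Real.log s.card := by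
  cases isEmpty_or_nonempty Ω with
  | inl h => simp only [ent]; rw [expect_eq_zero fun i _ => h.elim i]; positivity
  | inr h =>
    have hc : (0 : ℝ) < s.card := by
      exact_mod_cast card_pos.2 ⟨_, hs (Classical.arbitrary Ω)⟩
    have := gibbs (Y := fun _ => ()) s hs (fun _ _ => (s.card : ℝ)⁻¹) (fun _ _ => by positivity)
      fun _ => by positivity
    rw [cent_unit, E_const, E_const] at this
    simpa [hc.ne'] using this

/-- Two random variables, possibly on different spaces, have the same law. -/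
def Law (X : Ω → α) (X' : Ω' → α) : Prop := ∀ f : α → ℝ, 𝔼 ω, f (X ω) = 𝔼 ω, f (X' ω)

lemma Law.refl (X : Ω → α) : Law X X := fun _ => rfl
lemma Law.symm {X : Ω → α} {X' : Ω' → α} (h : Law X X') : Law X' X := fun f => (h f).symm
lemma Law.trans {X : Ω → α} {X' : Ω' → α} {X'' : Ω'' → α} (h : Law X X') (h' : Law X' X'') :
    Law X X'' := fun f => (h f).trans (h' f)
lemma Law.map {X : Ω → α} {X' : Ω' → α} (h : Law X X') (g : α → β) :
    Law (fun ω => g (X ω)) (fun ω => g (X' ω)) := fun f => h fun x => f (g x)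
lemma Law.pr_eq {X : Ω → α} {X' : Ω' → α} (h : Law X X') (A : α → Prop) :
    (pr fun ω => A (X ω)) = pr fun ω => A (X' ω) := h fun x => ind (A x)
lemma Law.ent_eq {X : Ω → α} {X' : Ω' → α} (h : Law X X') : ent X = ent X' := by
  unfold ent
  rw [E_congr fun ω => congrArg (fun t => -Real.log t) (h.pr_eq fun x => x = X ω)]
  exact h fun x => -Real.log (pr fun ω' => X' ω' = x)
lemma Law.cent_eq {X : Ω → γ} {X' : Ω' → γ} (h : Law X X') (f : γ → α) (g : γ → β) :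
    cent (fun ω => f (X ω)) (fun ω => g (X ω)) = cent (fun ω => f (X' ω)) (fun ω => g (X' ω)) := by
  unfold cent
  rw [(h.map fun x => (f x, g x)).ent_eq, (h.map g).ent_eq]
lemma law_fst [Nonempty Ω'] (X : Ω → α) : Law (fun x : Ω × Ω' => X x.1) X := fun f => by
  rw [E_prod]; exact E_congr fun ω => E_const (Ω := Ω') (f (X ω))
lemma law_snd [Nonempty Ω] (X : Ω' → α) : Law (fun x : Ω × Ω' => X x.2) X := fun f => by
  rw [E_prod, E_comm]; exact E_congr fun ω => E_const (Ω := Ω) (f (X ω))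
lemma law_equiv (e : Ω ≃ Ω') (X : Ω' → α) : Law (fun ω => X (e ω)) X := fun _ =>
  Fintype.expect_equiv e _ _ fun _ => rfl
lemma Law.prod {S : Type} [Fintype S] {X : Ω → α} {X' : Ω' → α} (h : Law X X') :
    Law (fun x : Ω × S => (X x.1, x.2)) (fun x : Ω' × S => (X' x.1, x.2)) := fun f => by
  rw [E_prod, E_prod, E_comm, E_comm (Ω := Ω')]
  exact E_congr fun s => h fun x => f (x, s)

lemma ent_equiv (e : Ω ≃ Ω') (X : Ω' → α) : ent (fun ω => X (e ω)) = ent X :=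
  (law_equiv e X).ent_eq
lemma cent_equiv (e : Ω ≃ Ω') (X : Ω' → α) (Y : Ω' → β) :
    cent (fun ω => X (e ω)) (fun ω => Y (e ω)) = cent X Y := (law_equiv e id).cent_eq X Y
lemma ent_fst [Nonempty Ω'] (X : Ω → α) : ent (fun x : Ω × Ω' => X x.1) = ent X :=
  (law_fst X).ent_eq
lemma cent_fst [Nonempty Ω'] (X : Ω → α) (Y : Ω → β) :
    cent (fun x : Ω × Ω' => X x.1) (fun x => Y x.1) = cent X Y := (law_fst id).cent_eq X Y

lemma pr_prod_snd (A : Ω × Ω' → Prop) (s : Ω') :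
    (pr fun x : Ω × Ω' => A x ∧ x.2 = s) = (pr fun ω => A (ω, s)) / Fintype.card Ω' := by
  rw [pr, E_prod, pr, ← E_div]
  refine E_congr fun ω => ?_
  rw [E_eq, ← sum_ind_eq (mem_univ s) fun t => ind (A (ω, t))]
  congr 1
  refine sum_congr rfl fun t _ => ?_
  rw [ind_and, mul_comm, ind_congr eq_comm]

/-- Conditioning on an independent coordinate averages the conditional entropy. -/
lemma cent_prod_snd (X : Ω × Ω' → α) (Y : Ω × Ω' → β) :
    cent X (fun x => (Y x, x.2)) = 𝔼 s, cent (fun ω => X (ω, s)) (fun ω => Y (ω, s)) := by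
  simp only [cent_eq]
  rw [E_prod, E_comm]
  refine E_congr fun s => E_congr fun ω => ?_
  have : Nonempty Ω' := ⟨s⟩
  have hc : (Fintype.card Ω' : ℝ) ≠ 0 := by positivity
  simp only [Prod.mk.injEq, ← and_assoc]
  rw [pr_prod_snd fun x => X x = X (ω, s) ∧ Y x = Y (ω, s), pr_prod_snd fun x => Y x = Y (ω, s),
    div_div_div_cancel_right₀ hc]

lemma cent_prod_fst (X : Ω × Ω' → α) :
    cent X (fun x => x.1) = 𝔼 ω, ent (fun s => X (ω, s)) := by
  have h := cent_prod_snd (fun x : Ω' × Ω => X (x.2, x.1)) (fun _ => ())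
  simp only [cent_unit] at h
  rw [← h, ← cent_equiv (Equiv.prodComm Ω' Ω) X fun x => x.1]
  unfold cent
  congr 1 <;> exact ent_congr fun _ _ => by simp [Prod.swap]

lemma ent_of_injective [Nonempty Ω] {X : Ω → α} (h : Function.Injective X) :
    ent X = Real.log (Fintype.card Ω) := by
  classical
  rw [ent, ← E_const (Ω := Ω) (Real.log _)]
  refine E_congr fun ω => ?_
  rw [pr_congr fun ω' => h.eq_iff, pr_eq_card]
  have : (univ.filter fun ω' => ω' = ω) = {ω} := by ext; simp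
  rw [this]; simp

end Vale.Agent.P015
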