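import Vale.Agent.P015.Geo
import Vale.Agent.P015.Ent

/-! Random moves in time, residue vectors, deficiency, and the statements of the entropy steps. -/

namespace Vale.Agent.P015

open Finset
open scoped BigOperators

/-- A random jump forward in time by at most `T`, driven by a uniform seed in `S`. -/
structure Move where
  S : Type
  [fin : Fintype S]
  [ne : Nonempty S]
  f : ℕ → S → ℕ
  T : ℕ
  le : ∀ a s, a ≤ f a s
  le' : ∀ a s, f a s ≤ a + T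

instance (M : Move) : Fintype M.S := M.fin
instance (M : Move) : Nonempty M.S := M.ne

/-- The random time obtained by applying a move to a random time. -/
def Move.app {Ω : Type} (M : Move) (a : Ω → ℕ) : Ω × M.S → ℕ := fun x => M.f (a x.1) x.2

/-- Composition of moves. -/
def Move.comp (M M' : Move) : Move where
  S := M.S × M'.S
  f a s := M'.f (M.f a s.1) s.2
  T := M.T + M'.T
  le a s := (M.le a s.1).trans (M'.le _ _)
  le' a s := (M'.le' _ _).trans (by have := M.le' a s.1; omega)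

/-- Jump by `c * L` with `c` uniform below `R`. -/
def Move.shift (R L : ℕ) (h : 0 < R) : Move where
  S := Fin R
  ne := ⟨⟨0, h⟩⟩
  f a c := a + c.1 * L
  T := R * L
  le _ _ := Nat.le_add_right _ _
  le' _ s := Nat.add_le_add_left (Nat.mul_le_mul_right _ s.2.le) _

/-- The chain of enrichment moves and windows. -/
def chain (E W : ℕ → Move) : ℕ → Move
  | 0 => Move.shift 1 0 Nat.one_pos
  | i + 1 => (E i).comp ((W i).comp (chain E W i))

/-- Residues of `w n` modulo the elements of `S`. -/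
def Yv (w : ℕ → ℤ) (S : Finset ℕ) (n : ℕ) : (p : ℕ) → ZMod p :=
  fun p => if p ∈ S then (w n : ZMod p) else 0

/-- The block of `L` increments starting at time `n`. -/
def Xb (z : ℕ → ℤ × ℤ) (L n : ℕ) : ℕ → ℤ × ℤ :=
  fun t => if t < L then z (n + t + 1) - z (n + t) else 0

/-- The block of `P` with label `j`. -/
def blk (P : Finset ℕ) (β : ℕ → ℕ) (j : ℕ) : Finset ℕ := P.filter fun p => β p = j

/-- `β'` defines a finer partition of `P` than `β`. -/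
def Ref (P : Finset ℕ) (β β' : ℕ → ℕ) : Prop := ∀ p ∈ P, ∀ q ∈ P, β' p = β' q → β p = β q

/-- Total entropy deficiency over the blocks. -/
noncomputable def dfc {Ω : Type} [Fintype Ω] (w : ℕ → ℤ) (P : Finset ℕ) (β : ℕ → ℕ)
    (a : Ω → ℕ) : ℝ :=
  ∑ p ∈ P, Real.log p - ∑ j ∈ P.image β, ent fun ω => Yv w (blk P β j) (a ω)

/-- Logarithmic size of displacements in time `T`. -/
noncomputable def lg (D T : ℕ) : ℝ := Real.log (4 * D * T + 1)

/-- Number of residues rarely covered by the block of length `L` after the random time. -/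
noncomputable def low {Ω : Type} [Fintype Ω] (w : ℕ → ℤ) (n : Ω → ℕ) (L p : ℕ) (c : ℝ) : ℕ :=
  {y : ZMod p | (pr fun ω => ∃ t < L, (w (n ω + t) : ZMod p) = y) < c}.ncard

/-- A set of split primes in `(N, 2N]`. -/
def PSet (ι : ℤ) (N : ℕ) (P : Finset ℕ) : Prop :=
  ∀ p ∈ P, p.Prime ∧ (p : ℤ) ∣ ι ^ 2 + 1 ∧ N < p ∧ p ≤ 2 * N

/-- The move halves the deficiency, up to explicit losses. -/
def Enr (D : ℕ) (ι : ℤ) (w : ℕ → ℤ) (c : ℝ) (M : Move) : Prop :=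
  ∀ (Ω : Type) [Fintype Ω] [Nonempty Ω] (a : Ω → ℕ) (P : Finset ℕ) (β β' : ℕ → ℕ),
    (∀ p ∈ P, p.Prime ∧ (p : ℤ) ∣ ι ^ 2 + 1) → Ref P β β' →
    (∀ j, (∏ p ∈ blk P β' j, p) ^ 2 ≤ M.T) →
    dfc w P β' (M.app a) ≤ (dfc w P β a + (P.image β).card * (6 * lg D M.T)
      + (P.image β').card * c + 2 * lg D M.T) / 2

/-- Existence of enrichment moves. -/
def EnrStmt : Prop :=
  ∀ D : ℕ, ∃ c : ℝ, 0 ≤ c ∧ ∀ (ι : ℤ) (z : ℕ → ℤ × ℤ) (T : ℕ), IsPath D z → 1 ≤ T →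
    ∃ M : Move, M.T = T ∧ Enr D ι (fun n => rho ι (z n)) c M

/-- Small deficiency forces most residues to be covered, for most primes. -/
def TestStmt : Prop :=
  ∀ (D : ℕ) (ι : ℤ) (z : ℕ → ℤ × ℤ), IsPath D z →
    ∀ (Ω : Type) [Fintype Ω] [Nonempty Ω] (n : Ω → ℕ) (P : Finset ℕ) (β : ℕ → ℕ) (N L b : ℕ),
      0 < N → 0 < L → 0 < b → PSet ι N P → 2 * D ^ 2 * L ^ 2 < N ^ 3 →
      ((P.filter fun p => b ^ 2 ≤ low (fun n => rho ι (z n)) n L p (L / (16 * N))).card : ℝ)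
          * (L / (16 * N)) ≤
        3 * (dfc (fun n => rho ι (z n)) P β n + (P.image β).card * (4 * L / b * lg D L))
          + 4 * L ^ 2 / N

/-- The entropy decrement inequality. -/
def DecrStmt : Prop :=
  ∀ (D : ℕ) (ι : ℤ) (z : ℕ → ℤ × ℤ), Steps D z →
    ∀ (Ω : Type) [Fintype Ω] [Nonempty Ω] (a : Ω → ℕ) (M : Move) (P : Finset ℕ)
      (N L R I u : ℕ) (hR : 0 < R) (B c : ℝ),
      PSet ι N P → (∀ n, ∀ p ∈ P, ¬ (p : ℤ) ∣ rho ι (z n)) → c ≤ 1 →
      2 * N * (1 - c) ^ I ≤ 1 →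
      (∀ n₀, ((P.filter fun p => u ≤ low (fun n => rho ι (z n))
        ((M.comp (Move.shift R L hR)).f n₀) L p c).card : ℝ) ≤ B) →
      (ent fun ω => Yv (fun n => rho ι (z n)) P (a ω))
          - (P.card * Real.log (u + 1) + B * Real.log (2 * N)) ≤
        I * ((ent fun x => Xb z L ((M.comp (Move.shift R L hR)).app a x))
          + 2 * lg D (M.T + R * L)
          - ((ent fun x => Xb z (R * L) (M.app a x))
            - (P.card * Real.log (2 * N) + I * (2 * lg D (M.T + R * L) + L * (2 * lg D 1))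
              + 2 * lg D (M.T + R * L))) / R)

/-- The numerical conditions at level `j`. -/
def Level (D : ℕ) (c : ℝ) (e₀ e₁ Θ : ℕ) (Te Tw L : ℕ → ℕ) (j : ℕ) (g : ℝ) : Prop :=
  ∃ (e K R b I i₀ r : ℕ) (k : ℕ → ℕ) (δ : ℝ),
    j = i₀ + r ∧ e₀ ≤ e ∧ e ≤ e₁ ∧ 0 < e ∧ 4 * e * K ≤ 2 ^ e ∧ 2 ≤ R ∧ L (j + 1) = R * L j ∧
    0 < b ∧ 0 < I ∧ 0 ≤ δ ∧ L j ≤ 2 ^ e ∧
    2 * D ^ 2 * Tw j ^ 2 < (2 ^ e) ^ K ∧
    2 * D ^ 2 * L j ^ 2 < (2 ^ e) ^ 3 ∧
    (∀ i, 0 < k i) ∧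
    (∀ i, i₀ ≤ i → i < j → (2 * 2 ^ e) ^ (2 * k i) ≤ Te i ∧ k i ∣ k (i + 1) ∧
      ((K : ℝ) / k (i + 1) + 1) * (6 * lg D (Te i)) + ((K : ℝ) / k i + 1) * c + 2 * lg D (Te i)
        + ((K : ℝ) / k i + 1) * (4 * lg D (Tw i)) ≤ 2 * δ) ∧
    ((K : ℝ) / k i₀ + 1) * (2 * lg D (∑ i ∈ range i₀, (Te i + Tw i) + Θ)) ≤ δ ∧
    3 * (K * Real.log (2 * 2 ^ e) / 2 ^ r + (r + 1) * δ
        + ((K : ℝ) / k i₀ + 1) * (4 * L j / b * lg D (L j))) + 4 * L j ^ 2 / 2 ^ e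
      ≤ (K : ℝ) / 64 * (L j / (16 * 2 ^ e)) ∧
    2 * 2 ^ e * (1 - (L j : ℝ) / (16 * 2 ^ e)) ^ I ≤ 1 ∧
    I * (2 * lg D (∑ i ∈ range j, (Te i + Tw i) + Θ)
        + (K * Real.log (2 * 2 ^ e)
          + I * (2 * lg D (∑ i ∈ range j, (Te i + Tw i) + Θ) + L j * (2 * lg D 1))
          + 2 * lg D (∑ i ∈ range j, (Te i + Tw i) + Θ)) / R + L j * g)
      ≤ Real.log (Tw j) - (K * Real.log (b ^ 2 + 1) + (K : ℝ) / 64 * Real.log (2 * 2 ^ e))

/-- Existence of parameters. -/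
def ParamStmt : Prop :=
  ∀ (D : ℕ) (c : ℝ) (e₀ : ℕ), 0 ≤ c → ∃ (e₁ Θ j₀ J : ℕ) (Te Tw L : ℕ → ℕ) (g : ℕ → ℝ),
    j₀ ≤ J ∧ (∀ i, 1 ≤ Te i ∧ 1 ≤ Tw i) ∧ 0 < L j₀ ∧ 2 * L J ≤ Θ ∧
    (∀ j, j₀ ≤ j → j < J → Level D c e₀ e₁ Θ Te Tw L j (g j)) ∧
    2 * lg D 1 < ∑ j ∈ Ico j₀ J, g j

variable {Ω Ω' α : Type} [Fintype Ω] [Fintype Ω']

lemma Law.app {a : Ω → ℕ} {a' : Ω' → ℕ} (h : Law a a') (M : Move) : Law (M.app a) (M.app a') :=
  (h.prod (S := M.S)).map fun x => M.f x.1 x.2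

lemma law_app_comp (M M' : Move) (a : Ω → ℕ) : Law ((M.comp M').app a) (M'.app (M.app a)) :=
  (law_equiv (Equiv.prodAssoc Ω M.S M'.S) ((M.comp M').app a)).symm

lemma law_app_unit (M : Move) (n₀ : ℕ) : Law (M.app fun _ : Unit => n₀) (M.f n₀) :=
  law_snd (M.f n₀)

lemma Law.dfc_eq {a : Ω → ℕ} {a' : Ω' → ℕ} (h : Law a a') (w : ℕ → ℤ) (P : Finset ℕ)
    (β : ℕ → ℕ) : dfc w P β a = dfc w P β a' := by
  unfold dfc
  congr 1
  exact sum_congr rfl fun j _ => (h.map _).ent_eq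

lemma Law.low_eq {a : Ω → ℕ} {a' : Ω' → ℕ} (h : Law a a') (w : ℕ → ℤ) (L p : ℕ) (c : ℝ) :
    low w a L p c = low w a' L p c := by
  unfold low
  congr 1
  ext y
  simp only [Set.mem_ofPred_eq]
  rw [h.pr_eq fun n => ∃ t < L, (w (n + t) : ZMod p) = y]

lemma lg_nonneg (D T : ℕ) : 0 ≤ lg D T :=
  Real.log_nonneg (le_add_of_nonneg_left (by positivity))

lemma lg_mono (D : ℕ) {T T' : ℕ} (h : T ≤ T') : lg D T ≤ lg D T' := by
  unfold lg; gcongr

lemma Steps.disp {D : ℕ} {z : ℕ → ℤ × ℤ} (h : Steps D z) (a t : ℕ) :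
    |(z (a + t) - z a).1| ≤ D * t ∧ |(z (a + t) - z a).2| ≤ D * t := by
  induction t with
  | zero => simp
  | succ t ih =>
    obtain ⟨h1, h2⟩ := h (a + t)
    obtain ⟨h3, h4⟩ := ih
    simp only [Prod.fst_sub, Prod.snd_sub, abs_le, ← add_assoc] at *
    push_cast
    refine ⟨⟨?_, ?_⟩, ?_, ?_⟩ <;> linarith

lemma Steps.disp' {D : ℕ} {z : ℕ → ℤ × ℤ} (h : Steps D z) {a a' T : ℕ} (h1 : a ≤ a')
    (h2 : a' ≤ a + T) : |(z a' - z a).1| ≤ D * T ∧ |(z a' - z a).2| ≤ D * T := by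
  obtain ⟨t, rfl⟩ := Nat.exists_eq_add_of_le h1
  have ht : (D : ℤ) * t ≤ D * T := by
    have : t ≤ T := by omega
    gcongr
  exact ⟨(h.disp a t).1.trans ht, (h.disp a t).2.trans ht⟩

/-- Entropy of a bounded displacement. -/
lemma ent_disp_le {D : ℕ} {z : ℕ → ℤ × ℤ} (h : Steps D z) {a a' : Ω → ℕ} {T : ℕ}
    (h1 : ∀ ω, a ω ≤ a' ω) (h2 : ∀ ω, a' ω ≤ a ω + T) :
    (ent fun ω => z (a' ω) - z (a ω)) ≤ 2 * lg D T := by
  refine (ent_le_log_card (Icc (-((D : ℤ) * T)) (D * T) ×ˢ Icc (-((D : ℤ) * T)) (D * T))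
    fun ω => ?_).trans ?_
  · simpa only [mem_product, mem_Icc, ← abs_le] using h.disp' (h1 ω) (h2 ω)
  · rw [card_product, Int.card_Icc]
    have : ((D : ℤ) * T + 1 - -((D : ℤ) * T)).toNat = 2 * D * T + 1 := by
      have : ((D : ℤ) * T + 1 - -((D : ℤ) * T)) = ((2 * D * T + 1 : ℕ) : ℤ) := by push_cast; ring
      rw [this, Int.toNat_natCast]
    rw [this, Nat.cast_mul, Real.log_mul (by positivity) (by positivity), ← two_mul, lg]
    push_cast
    gcongr; norm_num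

lemma ent_Xb_le {D : ℕ} {z : ℕ → ℤ × ℤ} (h : Steps D z) (L : ℕ) (a : Ω → ℕ) :
    (ent fun ω => Xb z L (a ω)) ≤ L * (2 * lg D 1) := by
  refine (ent_le_sum (range L) (fun t ω => z (a ω + t + 1) - z (a ω + t)) _ ?_).trans ?_
  · intro ω ω' h'
    funext t
    unfold Xb
    split_ifs with ht
    · exact h' t (mem_range.2 ht)
    · rfl
  · refine (sum_le_card_nsmul _ _ (2 * lg D 1) fun t _ => ?_).trans (by simp)
    exact ent_disp_le h (fun _ => Nat.le_succ _) fun _ => le_rfl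

lemma Yv_eq_iff {w : ℕ → ℤ} {S : Finset ℕ} {n n' : ℕ} :
    Yv w S n = Yv w S n' ↔ ∀ p ∈ S, (w n : ZMod p) = w n' := by
  refine ⟨fun h p hp => by simpa [Yv, hp] using congrFun h p, fun h => funext fun p => ?_⟩
  unfold Yv
  split_ifs with hp
  · exact h p hp
  · rfl

lemma rho_sub (ι : ℤ) (u v : ℤ × ℤ) : rho ι (u - v) = rho ι u - rho ι v := by
  simp only [rho, Prod.fst_sub, Prod.snd_sub]; ring

lemma rho_add (ι : ℤ) (u v : ℤ × ℤ) : rho ι (u + v) = rho ι u + rho ι v := by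
  simp only [rho, Prod.fst_add, Prod.snd_add]; ring

lemma cent_res_le (X : Ω → ℤ) {p : ℕ} (hp : 0 < p) (σ : Ω → α) :
    cent (fun ω => (X ω : ZMod p)) σ ≤ Real.log p := by
  have : NeZero p := ⟨hp.ne'⟩
  refine (cent_le_ent _ _).trans ((ent_le_log_card univ fun _ => mem_univ _).trans_eq ?_)
  rw [card_univ, ZMod.card]

/-- Refining the partition increases the total conditional entropy. -/
lemma sum_cent_refine (w : ℕ → ℤ) {P : Finset ℕ} {β β' : ℕ → ℕ} (h : Ref P β β') (a : Ω → ℕ)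
    (σ : Ω → α) : ∑ j ∈ P.image β, cent (fun ω => Yv w (blk P β j) (a ω)) σ ≤
      ∑ j ∈ P.image β', cent (fun ω => Yv w (blk P β' j) (a ω)) σ := by
  classical
  have hf : ∀ j' : ℕ, ∃ j, ∀ p ∈ P, β' p = j' → β p = j := by
    intro j'
    by_cases h' : ∃ p ∈ P, β' p = j'
    · obtain ⟨p, hp, rfl⟩ := h'
      exact ⟨β p, fun q hq h'' => h q hq p hp h''⟩
    · exact ⟨0, fun p hp h'' => absurd ⟨p, hp, h''⟩ h'⟩
  choose f hf using hf
  rw [← sum_fiberwise_of_maps_to (s := P.image β') (t := P.image β) (g := f)]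
  · refine sum_le_sum fun j _ => cent_le_sum _ _ _ _ fun ω ω' h1 _ => ?_
    rw [Yv_eq_iff]
    intro p hp
    obtain ⟨hp1, hp2⟩ := mem_filter.1 hp
    have := h1 (β' p) (mem_filter.2 ⟨mem_image_of_mem _ hp1, by rw [← hf _ p hp1 rfl, hp2]⟩)
    exact Yv_eq_iff.1 this p (mem_filter.2 ⟨hp1, rfl⟩)
  · intro j' hj'
    obtain ⟨p, hp, rfl⟩ := mem_image.1 hj'
    rw [← hf _ p hp rfl]
    exact mem_image_of_mem _ hp

/-- Deficiency of a finer partition given side information. -/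
lemma dfc_side (w : ℕ → ℤ) {P : Finset ℕ} {β β' : ℕ → ℕ} (h : Ref P β β') (a : Ω → ℕ)
    (σ : Ω → α) : ∑ p ∈ P, Real.log p - ∑ j ∈ P.image β', cent (fun ω => Yv w (blk P β' j) (a ω)) σ
      ≤ dfc w P β a + (P.image β).card * ent σ := by
  have h1 := sum_cent_refine w h a σ
  have h2 : ∑ j ∈ P.image β, ((ent fun ω => Yv w (blk P β j) (a ω)) - ent σ) ≤
      ∑ j ∈ P.image β, cent (fun ω => Yv w (blk P β j) (a ω)) σ :=
    sum_le_sum fun j _ => ent_sub_le_cent _ _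
  rw [sum_sub_distrib, sum_const, nsmul_eq_mul] at h2
  unfold dfc
  linarith

/-- Per prime deficiency given side information. -/
lemma dfc_side_prime (w : ℕ → ℤ) (P : Finset ℕ) (β : ℕ → ℕ) (a : Ω → ℕ) (σ : Ω → α) :
    ∑ p ∈ P, (Real.log p - cent (fun ω => (w (a ω) : ZMod p)) σ)
      ≤ dfc w P β a + (P.image β).card * ent σ := by
  have h := dfc_side w (P := P) (β := β) (β' := id) (fun p _ q _ h => by rw [show p = q from h]) a σ
  rw [image_id] at h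
  rw [sum_sub_distrib]
  refine le_trans (le_of_eq ?_) h
  congr 1
  refine sum_congr rfl fun p hp => le_antisymm ?_ ?_
  · exact cent_le_of_det_left fun ω ω' h1 _ => Yv_eq_iff.1 h1 p (mem_filter.2 ⟨hp, rfl⟩)
  · refine cent_le_of_det_left fun ω ω' h1 _ => Yv_eq_iff.2 fun q hq => ?_
    obtain rfl : q = p := (mem_filter.1 hq).2
    exact h1

lemma dfc_le (w : ℕ → ℤ) (P : Finset ℕ) (β : ℕ → ℕ) (a : Ω → ℕ) :
    dfc w P β a ≤ ∑ p ∈ P, Real.log p :=
  sub_le_self _ (sum_nonneg fun _ _ => ent_nonneg _)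

/-- A later move costs only the entropy of its displacement, for each block. -/
lemma dfc_app_le {D : ℕ} {z : ℕ → ℤ × ℤ} (h : Steps D z) (ι : ℤ) (P : Finset ℕ) (β : ℕ → ℕ)
    (a : Ω → ℕ) (M : Move) : dfc (fun n => rho ι (z n)) P β (M.app a) ≤
      dfc (fun n => rho ι (z n)) P β a + (P.image β).card * (2 * lg D M.T) := by
  have h2 : ∑ j ∈ P.image β, ((ent fun ω => Yv (fun n => rho ι (z n)) (blk P β j) (a ω))
      - 2 * lg D M.T) ≤
      ∑ j ∈ P.image β, ent fun x => Yv (fun n => rho ι (z n)) (blk P β j) (M.app a x) := by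
    refine sum_le_sum fun j _ => ?_
    have h3 := ent_disp_le (a := fun x : Ω × M.S => a x.1) (a' := M.app a) h
      (fun x => M.le _ _) fun x => M.le' _ _
    have h4 := ent_le_add_of_det
      (X := fun x => Yv (fun n => rho ι (z n)) (blk P β j) (M.app a x))
      (Y := fun x : Ω × M.S => z (M.app a x) - z (a x.1))
      (Z := fun x : Ω × M.S => Yv (fun n => rho ι (z n)) (blk P β j) (a x.1)) fun x x' h5 h6 => by
        rw [Yv_eq_iff] at h5 ⊢
        intro p hp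
        have h7 := congrArg (fun v => ((rho ι v : ℤ) : ZMod p)) h6
        simp only [rho_sub, Int.cast_sub] at h7
        linear_combination h5 p hp - h7
    rw [ent_fst fun ω => Yv (fun n => rho ι (z n)) (blk P β j) (a ω)] at h4
    linarith
  rw [sum_sub_distrib, sum_const, nsmul_eq_mul] at h2
  unfold dfc
  linarith

lemma dvd_dot_of_dvd_rho {ι m : ℤ} {v : ℤ × ℤ} (h : m ∣ ι ^ 2 + 1) (hv : m ∣ rho ι v) :
    m ∣ dot v v := by
  have : dot v v = rho ι v * (v.1 - ι * v.2) + (ι ^ 2 + 1) * v.2 ^ 2 := by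
    unfold dot rho; ring
  rw [this]
  exact (hv.mul_right _).add (h.mul_right _)

/-- Norm of the displacement between two distinct times. -/
lemma IsPath.dot_bounds {D : ℕ} {z : ℕ → ℤ × ℤ} (h : IsPath D z) {a s t T : ℕ} (hs : s ≤ T)
    (ht : t ≤ T) (hne : s ≠ t) : 0 < dot (z (a + s) - z (a + t)) (z (a + s) - z (a + t)) ∧
      dot (z (a + s) - z (a + t)) (z (a + s) - z (a + t)) ≤ 2 * D ^ 2 * T ^ 2 := by
  have h0 : z (a + s) - z (a + t) ≠ 0 := fun h' => hne (by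
    have := h.inj (sub_eq_zero.1 h'); omega)
  have hb : |(z (a + s) - z (a + t)).1| ≤ D * T ∧ |(z (a + s) - z (a + t)).2| ≤ D * T := by
    rcases le_total s t with h' | h'
    · have := h.steps.disp' (a := a + s) (a' := a + t) (T := T) (by omega) (by omega)
      rwa [← neg_sub, Prod.fst_neg, Prod.snd_neg, abs_neg, abs_neg] at this
    · exact h.steps.disp' (by omega) (by omega)
  generalize z (a + s) - z (a + t) = v at *
  obtain ⟨x, y⟩ := v
  simp only [dot] at *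
  constructor
  · by_contra h'
    have hx : x = 0 := by nlinarith [sq_nonneg x, sq_nonneg y]
    have hy : y = 0 := by nlinarith [sq_nonneg x, sq_nonneg y]
    exact h0 (by simp [hx, hy])
  · have h1 := sq_le_sq' (abs_le.1 hb.1).1 (abs_le.1 hb.1).2
    have h2 := sq_le_sq' (abs_le.1 hb.2).1 (abs_le.1 hb.2).2
    nlinarith

/-- The window bound. -/
lemma window_bound {D : ℕ} {z : ℕ → ℤ × ℤ} (h : IsPath D z) {ι : ℤ} {P : Finset ℕ}
    (hP : ∀ p ∈ P, p.Prime ∧ (p : ℤ) ∣ ι ^ 2 + 1) {T : ℕ} (hT : 0 < T)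
    (hlt : 2 * D ^ 2 * T ^ 2 < ∏ p ∈ P, p) [Nonempty Ω] (a : Ω → ℕ) :
    Real.log T ≤ ent fun x => Yv (fun n => rho ι (z n)) P ((Move.shift T 1 hT).app a x) := by
  refine le_trans ?_ (cent_le_ent _ fun x => x.1)
  rw [cent_prod_fst]
  refine le_E fun ω => ?_
  rw [ent_of_injective]
  · exact le_of_eq (by congr 2; exact (Fintype.card_fin T).symm)
  intro s t hst
  by_contra hne
  have hne' : (s : Fin T).1 ≠ (t : Fin T).1 := fun h' => hne (Fin.ext h')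
  obtain ⟨h1, h2⟩ := h.dot_bounds (a := a ω) (s : Fin T).2.le (t : Fin T).2.le hne'
  rw [Yv_eq_iff] at hst
  have h3 : ((∏ p ∈ P, p : ℕ) : ℤ) ∣ dot (z (a ω + (s : Fin T).1) - z (a ω + (t : Fin T).1))
      (z (a ω + (s : Fin T).1) - z (a ω + (t : Fin T).1)) := by
    rw [Nat.cast_prod]
    refine prod_dvd_of_coprime (fun p hp q hq hpq => ?_) fun p hp => ?_
    · exact Nat.isCoprime_iff_coprime.2 ((Nat.coprime_primes (hP p hp).1 (hP q hq).1).2 hpq)
    · refine dvd_dot_of_dvd_rho (hP p hp).2 ?_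
      rw [← ZMod.intCast_zmod_eq_zero_iff_dvd, rho_sub, Int.cast_sub, sub_eq_zero]
      simpa [Move.app, Move.shift] using hst p hp
  have h4 := Int.le_of_dvd h1 h3
  have h5 : ((2 * D ^ 2 * T ^ 2 : ℕ) : ℤ) < ((∏ p ∈ P, p : ℕ) : ℤ) := by exact_mod_cast hlt
  push_cast at h4 h5
  linarith

end Vale.Agent.P015
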