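import Vale.Agent.P015.Geo

/-! Differences of points of a path cover a rectangle up to boundedly many translations. -/

namespace Vale.Agent.P015

open Finset

lemma Steps.bound {D : ℕ} {x : ℕ → ℤ × ℤ} (h : Steps D x) (t : ℕ) :
    |(x t - x 0).1| ≤ D * t ∧ |(x t - x 0).2| ≤ D * t := by
  induction t with
  | zero => simp
  | succ t ih =>
    obtain ⟨h1, h2⟩ := h t
    obtain ⟨h3, h4⟩ := ih
    simp only [Prod.fst_sub, Prod.snd_sub, abs_le] at h1 h2 h3 h4 ⊢
    push_cast
    refine ⟨⟨?_, ?_⟩, ?_, ?_⟩ <;> linarith [h1.1, h1.2, h2.1, h2.2, h3.1, h3.2, h4.1, h4.2]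

lemma lagrange (y u : ℤ × ℤ) : dot y u ^ 2 + det u y ^ 2 = dot u u * dot y y := by
  simp only [dot, det]; ring

lemma abs_dot_le {e : ℤ × ℤ} (u : ℤ × ℤ) {L : ℤ} (h1 : |e.1| ≤ L) (h2 : |e.2| ≤ L) :
    |dot e u| ≤ L * (|u.1| + |u.2|) := by
  calc |dot e u| ≤ |e.1| * |u.1| + |e.2| * |u.2| := by
        rw [← abs_mul, ← abs_mul]; exact abs_add_le _ _
    _ ≤ L * |u.1| + L * |u.2| := by gcongr
    _ = _ := by ring

lemma abs_det_le {e : ℤ × ℤ} (u : ℤ × ℤ) {L : ℤ} (h1 : |e.1| ≤ L) (h2 : |e.2| ≤ L) :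
    |det u e| ≤ L * (|u.1| + |u.2|) := by
  calc |det u e| ≤ |u.1| * |e.2| + |u.2| * |e.1| := by
        rw [← abs_mul, ← abs_mul]; exact abs_sub _ _
    _ ≤ |u.1| * L + |u.2| * L := by gcongr
    _ = _ := by ring

lemma norm_one_le (u : ℤ × ℤ) : |u.1| + |u.2| ≤ dot u u := by
  have h1 := Int.le_self_sq |u.1|
  have h2 := Int.le_self_sq |u.2|
  rw [sq_abs] at h1 h2
  simp only [dot]; nlinarith

lemma norm_one_sq_le (u : ℤ × ℤ) : (|u.1| + |u.2|) ^ 2 ≤ 2 * dot u u := by
  have h1 := sq_abs u.1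
  have h2 := sq_abs u.2
  simp only [dot]; nlinarith [sq_nonneg (|u.1| - |u.2|)]

lemma norm_one_pos {u : ℤ × ℤ} (hu : u ≠ 0) : 0 < |u.1| + |u.2| := by
  by_contra h
  have h1 : |u.1| = 0 := by linarith [abs_nonneg u.1, abs_nonneg u.2]
  have h2 : |u.2| = 0 := by linarith [abs_nonneg u.1, abs_nonneg u.2]
  exact hu (Prod.ext (abs_eq_zero.mp h1) (abs_eq_zero.mp h2))

lemma discrete_ivt {f : ℕ → ℤ} {L c : ℤ} (hL : 0 ≤ L) (hf : ∀ s, |f (s + 1) - f s| ≤ L)
    (h0 : f 0 ≤ c) (n : ℕ) (hn : c ≤ f n) : ∃ s ≤ n, |f s - c| ≤ L := by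
  induction n with
  | zero => exact ⟨0, le_rfl, by rw [le_antisymm h0 hn]; simpa using hL⟩
  | succ n ih =>
    by_cases h : c ≤ f n
    · obtain ⟨s, hs, h'⟩ := ih h
      exact ⟨s, by omega, h'⟩
    · have := abs_le.mp (hf n)
      exact ⟨n, by omega, abs_le.mpr ⟨by linarith [this.2], by linarith⟩⟩

/-- Small combinations of two vectors plus a small error. -/
noncomputable def box (u v : ℤ × ℤ) (C : ℕ) : Finset (ℤ × ℤ) :=
  ((Icc (-(C : ℤ)) C ×ˢ Icc (-(C : ℤ)) C) ×ˢ (Icc (-(C : ℤ)) C ×ˢ Icc (-(C : ℤ)) C)).image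
    fun q => q.1.1 • u + q.1.2 • v + q.2

lemma card_box (u v : ℤ × ℤ) (C : ℕ) : (box u v C).card ≤ (2 * C + 1) ^ 4 := by
  refine card_image_le.trans (le_of_eq ?_)
  have h : (Icc (-(C : ℤ)) C).card = 2 * C + 1 := by rw [Int.card_Icc]; omega
  simp only [card_product, h]; ring

lemma mem_box {u v w : ℤ × ℤ} {C : ℕ} {a b : ℤ} (ha : |a| ≤ C) (hb : |b| ≤ C)
    (h1 : |(w - a • u - b • v).1| ≤ C) (h2 : |(w - a • u - b • v).2| ≤ C) : w ∈ box u v C := by
  refine mem_image.mpr ⟨((a, b), w - a • u - b • v), ?_, by simp only []; abel⟩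
  simp only [mem_product, mem_Icc, ← abs_le]
  exact ⟨⟨ha, hb⟩, h1, h2⟩

lemma thick_case {u v w : ℤ × ℤ} {D : ℕ} {A B a b : ℤ} (hu : u ≠ 0) (hA : A = dot u u)
    (hB : |u.1| + |u.2| ≤ B) (hv1 : |dot v u| ≤ A) (hv2 : |det u v| = B)
    (hw1 : |dot w u| ≤ 3 * A) (hw2 : |det u w| ≤ 3 * B)
    (h1 : |(w - a • u - b • v).1| ≤ 2 * D) (h2 : |(w - a • u - b • v).2| ≤ 2 * D) :
    w ∈ box u v (4 * D + 6) := by
  have hn := norm_one_pos hu
  have hnA := norm_one_le u
  have hD : (0 : ℤ) ≤ D := by positivity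
  have e1 := abs_dot_le u h1 h2
  have e2 := abs_det_le u h1 h2
  have hB0 : 0 < B := by linarith
  have hA0 : 0 < A := by linarith
  have hb : |b| ≤ 2 * D + 3 := by
    have h3 : b * det u v = det u w - det u (w - a • u - b • v) := by
      simp only [det, Prod.fst_sub, Prod.snd_sub, Prod.smul_fst, Prod.smul_snd, smul_eq_mul]; ring
    have h4 : |b| * B ≤ (2 * D + 3) * B := by
      calc |b| * B = |b * det u v| := by rw [abs_mul, hv2]
        _ ≤ |det u w| + |det u (w - a • u - b • v)| := by rw [h3]; exact abs_sub _ _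
        _ ≤ 3 * B + 2 * D * B := add_le_add hw2 (e2.trans (by gcongr))
        _ = _ := by ring
    exact le_of_mul_le_mul_right h4 hB0
  have ha : |a| ≤ 4 * D + 6 := by
    have h3 : a * A = dot w u - b * dot v u - dot (w - a • u - b • v) u := by
      simp only [hA, dot, Prod.fst_sub, Prod.snd_sub, Prod.smul_fst, Prod.smul_snd, smul_eq_mul]
      ring
    have h4 : |a| * A ≤ (4 * D + 6) * A := by
      calc |a| * A = |a * A| := by rw [abs_mul, abs_of_pos hA0]
        _ ≤ |dot w u| + |b| * |dot v u| + |dot (w - a • u - b • v) u| := by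
          rw [h3, ← abs_mul]
          exact (abs_sub _ _).trans (add_le_add_left (abs_sub _ _) _)
        _ ≤ 3 * A + (2 * D + 3) * A + 2 * D * A := by
          refine add_le_add (add_le_add hw1 (by gcongr)) (e1.trans ?_)
          rw [hA]; gcongr
        _ = _ := by ring
    exact le_of_mul_le_mul_right h4 hA0
  refine mem_box (a := a) (b := b) ?_ ?_ ?_ ?_ <;> push_cast <;> linarith

lemma thin_case {u v w : ℤ × ℤ} {D : ℕ} {a : ℤ} (hu : u ≠ 0) (ha : |a| ≤ 1)
    (hw1 : |dot w u - a * dot u u| ≤ D * (|u.1| + |u.2|))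
    (hw2 : |det u w| ≤ 2 * (|u.1| + |u.2|)) : w ∈ box u v (4 * D + 6) := by
  have hn := norm_one_pos hu
  have hnA := norm_one_le u
  have hn2 := norm_one_sq_le u
  have hD : (0 : ℤ) ≤ D := by positivity
  have hA0 : 0 < dot u u := by linarith
  have key : ∀ e s t : ℤ, dot u u * e = (dot w u - a * dot u u) * s + det u w * t →
      |s| + |t| = |u.1| + |u.2| → |e| ≤ 2 * D + 4 := by
    intro e s t h hst
    have hs := abs_nonneg s
    have ht := abs_nonneg t
    have h4 : dot u u * |e| ≤ dot u u * (2 * D + 4) := by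
      calc dot u u * |e| = |dot u u * e| := by rw [abs_mul, abs_of_pos hA0]
        _ ≤ |dot w u - a * dot u u| * |s| + |det u w| * |t| := by
          rw [h, ← abs_mul, ← abs_mul]; exact abs_add_le _ _
        _ ≤ ((D + 2) * (|u.1| + |u.2|)) * |s| + ((D + 2) * (|u.1| + |u.2|)) * |t| := by
          gcongr
          · exact hw1.trans (by nlinarith)
          · exact hw2.trans (by nlinarith)
        _ = (D + 2) * (|u.1| + |u.2|) ^ 2 := by rw [← mul_add, hst]; ring
        _ ≤ (D + 2) * (2 * dot u u) := by gcongr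
        _ = _ := by ring
    exact le_of_mul_le_mul_left h4 hA0
  have h1 := key (w - a • u - (0 : ℤ) • v).1 u.1 (-u.2) (by
    simp only [dot, det, Prod.fst_sub, Prod.smul_fst, smul_eq_mul]; ring) (by rw [abs_neg])
  have h2 := key (w - a • u - (0 : ℤ) • v).2 u.2 u.1 (by
    simp only [dot, det, Prod.snd_sub, Prod.smul_snd, smul_eq_mul]; ring) (add_comm _ _)
  refine mem_box (a := a) (b := 0) ?_ ?_ ?_ ?_
  · push_cast; linarith
  · rw [abs_zero]; positivity
  · push_cast; linarith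
  · push_cast; linarith

theorem cover_of (h : CrossStmt) : CoverStmt := by
  intro D
  refine ⟨(2 * (4 * D + 6) + 1) ^ 4, fun x T hx hT => ?_⟩
  have hne : (range (T + 1)).Nonempty := ⟨0, by simp⟩
  obtain ⟨p, hp, hpm⟩ := exists_max_image (range (T + 1))
    (fun t => dot (x t - x 0) (x t - x 0)) hne
  set u := x p - x 0 with hu
  obtain ⟨q, hq, hqm⟩ := exists_max_image (range (T + 1)) (fun t => |det u (x t - x 0)|) hne
  set v := x q - x 0 with hv
  have hpT : p ≤ T := Nat.lt_succ_iff.mp (mem_range.mp hp)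
  have hqT : q ≤ T := Nat.lt_succ_iff.mp (mem_range.mp hq)
  have hA0 : 0 < dot u u := by
    have h1 : x 1 - x 0 ≠ 0 := sub_ne_zero.mpr fun h => one_ne_zero (hx.inj h)
    exact ((norm_one_pos h1).trans_le (norm_one_le _)).trans_le (hpm 1 (mem_range.mpr (by omega)))
  have hu0 : u ≠ 0 := by
    intro h0
    rw [h0] at hA0
    simp [dot] at hA0
  obtain ⟨A, hA⟩ : ∃ A : ℕ, (A : ℤ) = dot u u := ⟨_, Int.toNat_of_nonneg hA0.le⟩
  obtain ⟨B, hB⟩ : ∃ B : ℕ, (B : ℤ) = |det u v| := ⟨_, Int.toNat_of_nonneg (abs_nonneg _)⟩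
  have hy : ∀ t ≤ T, |dot (x t - x 0) u| ≤ A ∧ |det u (x t - x 0)| ≤ A := by
    intro t ht
    have h1 := lagrange (x t - x 0) u
    have h2 : dot u u * dot (x t - x 0) (x t - x 0) ≤ dot u u * dot u u :=
      mul_le_mul_of_nonneg_left (hpm t (mem_range.mpr (by omega))) hA0.le
    rw [hA]
    constructor <;> refine abs_le_of_sq_le_sq ?_ hA0.le <;>
      nlinarith [sq_nonneg (dot (x t - x 0) u), sq_nonneg (det u (x t - x 0))]
  have hy' : ∀ t ≤ T, |det u (x t - x 0)| ≤ B := fun t ht =>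
    hB ▸ hqm t (mem_range.mpr (by omega))
  refine ⟨u, A, B, box u v (4 * D + 6), hu0, hA, ?_, ?_, ?_, card_box _ _ _, fun g hg => ?_⟩
  · have := (hy q hqT).2
    rw [← hB] at this
    exact_mod_cast this
  · obtain ⟨h1, h2⟩ := hx.steps.bound p
    have h3 : (D : ℤ) * p ≤ D * T := by gcongr
    have h4 := sq_le_sq' (abs_le.mp (h1.trans h3)).1 (abs_le.mp (h1.trans h3)).2
    have h5 := sq_le_sq' (abs_le.mp (h2.trans h3)).1 (abs_le.mp (h2.trans h3)).2
    have h6 : (A : ℤ) ≤ 2 * D ^ 2 * T ^ 2 := by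
      rw [hA]; simp only [dot]; nlinarith
    exact_mod_cast h6
  · have h1 : (range (T + 1)).card ≤ (Kset u A B).card := by
      refine card_le_card_of_injOn (fun t => x t - x 0) (fun t ht => ?_) fun s _ t _ hst => ?_
      · have ht' : t ≤ T := Nat.lt_succ_iff.mp (mem_range.mp ht)
        exact (mem_Kset hu0).mpr ⟨(hy t ht').1, hy' t ht'⟩
      · exact hx.inj (sub_left_injective hst)
    rw [card_range] at h1
    omega
  · obtain ⟨hg1, hg2⟩ := (mem_Kset hu0).mp hg
    have hn := norm_one_pos hu0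
    by_cases hc : |u.1| + |u.2| ≤ B
    · have hdet : det u v ≠ 0 := by
        intro h0
        rw [h0, abs_zero] at hB
        linarith
      obtain ⟨s, hs, t, ht, a, b, h1, h2⟩ := h D x x p q hx.steps hx.steps hdet g
      have hsT : s ≤ T := hs.trans hpT
      have htT : t ≤ T := ht.trans hqT
      refine ⟨s, hsT, t, htT, thick_case hu0 hA hc (hy q hqT).1 hB.symm ?_ ?_ h1 h2⟩
      · have h3 : dot (x s - x t - g) u = dot (x s - x 0) u - dot (x t - x 0) u - dot g u := by
          simp only [dot, Prod.fst_sub, Prod.snd_sub]; ring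
        have h4 := abs_le.mp (hy s hsT).1
        have h5 := abs_le.mp (hy t htT).1
        have h6 := abs_le.mp hg1
        rw [h3, abs_le]
        constructor <;> linarith [h4.1, h4.2, h5.1, h5.2, h6.1, h6.2]
      · have h3 : det u (x s - x t - g) = det u (x s - x 0) - det u (x t - x 0) - det u g := by
          simp only [det, Prod.fst_sub, Prod.snd_sub]; ring
        have h4 := abs_le.mp (hy' s hsT)
        have h5 := abs_le.mp (hy' t htT)
        have h6 := abs_le.mp hg2
        rw [h3, abs_le]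
        constructor <;> linarith [h4.1, h4.2, h5.1, h5.2, h6.1, h6.2]
    · have h6 := abs_le.mp hg1
      obtain ⟨a, ha, ha0, ha1⟩ : ∃ a : ℤ, |a| ≤ 1 ∧ 0 ≤ dot g u + a * dot u u ∧
          dot g u + a * dot u u ≤ dot u u := by
        by_cases h0 : 0 ≤ dot g u
        · exact ⟨0, by simp, by linarith, by linarith [h6.2]⟩
        · exact ⟨1, by simp, by linarith [h6.1], by linarith⟩
      obtain ⟨s, hs, h1⟩ := discrete_ivt (f := fun s => dot (x s - x 0) u)
        (L := D * (|u.1| + |u.2|)) (c := dot g u + a * dot u u) (by positivity)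
        (fun s => by
          have h3 : dot (x (s + 1) - x 0) u - dot (x s - x 0) u = dot (x (s + 1) - x s) u := by
            simp only [dot, Prod.fst_sub, Prod.snd_sub]; ring
          simp only [h3]
          exact abs_dot_le u (hx.steps s).1 (hx.steps s).2)
        (by simpa [dot] using ha0) p ha1
      have hsT : s ≤ T := hs.trans hpT
      refine ⟨s, hsT, 0, Nat.zero_le _, thin_case hu0 ha ?_ ?_⟩
      · have h3 : dot (x s - x 0 - g) u - a * dot u u
            = dot (x s - x 0) u - (dot g u + a * dot u u) := by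
          simp only [dot, Prod.fst_sub, Prod.snd_sub]; ring
        rw [h3]
        exact h1
      · have h3 : det u (x s - x 0 - g) = det u (x s - x 0) - det u g := by
          simp only [det, Prod.fst_sub, Prod.snd_sub]; ring
        have h4 := abs_le.mp (hy' s hsT)
        have h7 := abs_le.mp hg2
        rw [h3, abs_le]
        constructor <;> linarith [h4.1, h4.2, h7.1, h7.2]

end Vale.Agent.P015
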