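import Vale.Agent.P015.Geo
import Vale.Agent.P371.Brouwer

/-! The discrete crossing lemma. -/

namespace Vale.Agent.P015

open Finset

/-- Truncation to the unit interval. -/
noncomputable def clamp (y : ℝ) : ℝ := max 0 (min 1 y)

lemma clamp_of_le {y : ℝ} (h : y ≤ 0) : clamp y = 0 := by
  unfold clamp
  exact max_eq_left (le_trans (min_le_right _ _) h)

lemma clamp_of_ge {y : ℝ} (h : 1 ≤ y) : clamp y = 1 := by
  unfold clamp
  rw [min_eq_left h]
  exact max_eq_right zero_le_one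

lemma abs_clamp_le (y : ℝ) : |clamp y| ≤ 1 := by
  unfold clamp
  rw [abs_of_nonneg (le_max_left _ _)]
  exact max_le zero_le_one (min_le_left _ _)

lemma continuous_clamp : Continuous clamp := by
  unfold clamp
  fun_prop

/-- Piecewise linear interpolation. -/
noncomputable def pl (a : ℕ → ℝ) (n : ℕ) (y : ℝ) : ℝ :=
  ∑ j ∈ range n, (a (j + 1) - a j) * clamp (y - j)

lemma continuous_pl (a : ℕ → ℝ) (n : ℕ) : Continuous (pl a n) := by
  unfold pl
  refine continuous_finsetSum _ fun j _ => ?_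
  exact continuous_const.mul (continuous_clamp.comp (continuous_id.sub continuous_const))

lemma pl_of_ge (a : ℕ → ℝ) (n : ℕ) {y : ℝ} (h : (n : ℝ) ≤ y) : pl a n y = a n - a 0 := by
  unfold pl
  rw [← Finset.sum_range_sub a n]
  refine Finset.sum_congr rfl fun j hj => ?_
  have : (j : ℝ) + 1 ≤ n := by exact_mod_cast Finset.mem_range.mp hj
  rw [clamp_of_ge (by linarith), mul_one]

lemma pl_zero (a : ℕ → ℝ) (n : ℕ) : pl a n 0 = 0 := by
  unfold pl
  refine Finset.sum_eq_zero fun j _ => ?_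
  have : (0 : ℝ) ≤ j := Nat.cast_nonneg j
  rw [clamp_of_le (by linarith), mul_zero]

lemma pl_mid (a : ℕ → ℝ) (s : ℕ) {y : ℝ} (h1 : (s : ℝ) ≤ y) (h2 : y < s + 1) (n : ℕ)
    (hn : s + 1 ≤ n) : pl a n y = a s - a 0 + (a (s + 1) - a s) * clamp (y - s) := by
  induction n, hn using Nat.le_induction with
  | base =>
    have := pl_of_ge a s h1
    unfold pl at this ⊢
    rw [Finset.sum_range_succ, this]
  | succ n hn ih =>
    unfold pl at ih ⊢
    have : (s : ℝ) + 1 ≤ n := by exact_mod_cast hn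
    rw [Finset.sum_range_succ, ih, clamp_of_le (y := y - n) (by linarith), mul_zero, add_zero]

lemma exists_dev (D : ℝ) (a : ℕ → ℝ) (ha : ∀ n, |a (n + 1) - a n| ≤ D) (S : ℕ) (hS : 0 < S) :
    ∃ F : ℝ → ℝ, Continuous F ∧ (∃ M, ∀ x, |F x| ≤ M) ∧ ∀ x : ℝ,
      |x * (a S - a 0) + F x -
        ((⌊x⌋ : ℝ) * (a S - a 0) + a ⌊(S : ℝ) * Int.fract x⌋₊ - a 0)| ≤ D := by
  set G : ℝ → ℝ := fun x => pl a S (S * x) - x * (a S - a 0) with hG
  have hGc : Continuous G :=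
    ((continuous_pl a S).comp (continuous_const.mul continuous_id)).sub
      (continuous_id.mul continuous_const)
  have hG01 : G 0 = G 1 := by
    simp only [hG, mul_zero, mul_one, zero_mul, one_mul, pl_zero]
    rw [pl_of_ge a S le_rfl]
    ring
  refine ⟨G ∘ Int.fract, hGc.continuousOn.comp_fract'' hG01, ?_, ?_⟩
  · obtain ⟨M, hM⟩ := (isCompact_Icc (a := (0 : ℝ)) (b := 1)).exists_bound_of_continuousOn
      hGc.continuousOn
    exact ⟨M, fun x => hM _ ⟨Int.fract_nonneg x, (Int.fract_lt_one x).le⟩⟩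
  · intro x
    have hS' : (0 : ℝ) < S := by exact_mod_cast hS
    have hy0 : 0 ≤ (S : ℝ) * Int.fract x := mul_nonneg hS'.le (Int.fract_nonneg x)
    have hy1 : (S : ℝ) * Int.fract x < S := by
      have := Int.fract_lt_one x
      nlinarith
    set s := ⌊(S : ℝ) * Int.fract x⌋₊ with hs
    have hsS : s + 1 ≤ S := (Nat.floor_lt hy0).mpr hy1
    have h := pl_mid a s (Nat.floor_le hy0) (Nat.lt_floor_add_one _) S hsS
    have hx : x = ⌊x⌋ + Int.fract x := (Int.floor_add_fract x).symm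
    have : x * (a S - a 0) + (G ∘ Int.fract) x - ((⌊x⌋ : ℝ) * (a S - a 0) + a s - a 0)
        = (a (s + 1) - a s) * clamp ((S : ℝ) * Int.fract x - s) := by
      simp only [hG, Function.comp, h]
      linear_combination (a S - a 0) * hx
    rw [this, abs_mul]
    have h1 := ha s
    have h2 := abs_clamp_le ((S : ℝ) * Int.fract x - s)
    calc _ ≤ D * 1 := mul_le_mul h1 h2 (abs_nonneg _) (le_trans (abs_nonneg _) h1)
      _ = D := mul_one D

lemma fixed_of_bounded (T : ℝ × ℝ → ℝ × ℝ) (hT : Continuous T) (R : ℝ) (hR : ∀ p, ‖T p‖ ≤ R) :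
    ∃ p, T p = p := by
  have hR0 : 0 ≤ R := le_trans (norm_nonneg _) (hR 0)
  obtain ⟨p, -, hp⟩ := Vale.Agent.P371.brouwer (K := Metric.closedBall (0 : ℝ × ℝ) R)
    (convex_closedBall _ _) (isCompact_closedBall _ _) ⟨0, Metric.mem_closedBall_self hR0⟩
    hT.continuousOn (fun p _ => by simpa using hR p)
  exact ⟨p, hp⟩

lemma solve_system (u1 u2 v1 v2 : ℝ) (hδ : u1 * v2 - u2 * v1 ≠ 0) (W1 W2 : ℝ × ℝ → ℝ)
    (h1 : Continuous W1) (h2 : Continuous W2) (M : ℝ) (hM1 : ∀ p, |W1 p| ≤ M)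
    (hM2 : ∀ p, |W2 p| ≤ M) :
    ∃ p : ℝ × ℝ, p.1 * u1 - p.2 * v1 = W1 p ∧ p.1 * u2 - p.2 * v2 = W2 p := by
  set δ := u1 * v2 - u2 * v1 with hδ'
  obtain ⟨p, hp⟩ := fixed_of_bounded
    (fun p => (W1 p * (v2 / δ) - W2 p * (v1 / δ), W1 p * (u2 / δ) - W2 p * (u1 / δ)))
    (by fun_prop) (M * (|v2 / δ| + |v1 / δ| + |u2 / δ| + |u1 / δ|)) (by
      intro p
      have hM0 : 0 ≤ M := le_trans (abs_nonneg _) (hM1 p)
      have key : ∀ a b : ℝ, |W1 p * a - W2 p * b| ≤ M * (|a| + |b|) := by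
        intro a b
        calc |W1 p * a - W2 p * b| ≤ |W1 p * a| + |W2 p * b| := abs_sub _ _
          _ = |W1 p| * |a| + |W2 p| * |b| := by rw [abs_mul, abs_mul]
          _ ≤ M * |a| + M * |b| := by gcongr <;> simp [hM1, hM2]
          _ = _ := by ring
      rw [Prod.norm_def]
      refine max_le ?_ ?_
      · refine (key _ _).trans (mul_le_mul_of_nonneg_left ?_ hM0)
        linarith [abs_nonneg (u2 / δ), abs_nonneg (u1 / δ)]
      · refine (key _ _).trans (mul_le_mul_of_nonneg_left ?_ hM0)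
        linarith [abs_nonneg (v2 / δ), abs_nonneg (v1 / δ)])
  have e1 := congrArg Prod.fst hp
  have e2 := congrArg Prod.snd hp
  simp only at e1 e2
  refine ⟨p, ?_, ?_⟩
  · rw [← e1, ← e2]
    field_simp
    rw [hδ']
    ring
  · rw [← e1, ← e2]
    field_simp
    rw [hδ']
    ring

theorem cross : CrossStmt := by
  intro D γ₁ γ₂ S₁ S₂ h₁ h₂ hdet g
  have hS₁ : 0 < S₁ := by
    rcases Nat.eq_zero_or_pos S₁ with h | h
    · subst h; simp [det] at hdet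
    · exact h
  have hS₂ : 0 < S₂ := by
    rcases Nat.eq_zero_or_pos S₂ with h | h
    · subst h; simp [det] at hdet
    · exact h
  obtain ⟨F11, c11, ⟨M11, b11⟩, e11⟩ := exists_dev D (fun n => ((γ₁ n).1 : ℝ))
    (fun n => by exact_mod_cast (h₁ n).1) S₁ hS₁
  obtain ⟨F12, c12, ⟨M12, b12⟩, e12⟩ := exists_dev D (fun n => ((γ₁ n).2 : ℝ))
    (fun n => by exact_mod_cast (h₁ n).2) S₁ hS₁
  obtain ⟨F21, c21, ⟨M21, b21⟩, e21⟩ := exists_dev D (fun n => ((γ₂ n).1 : ℝ))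
    (fun n => by exact_mod_cast (h₂ n).1) S₂ hS₂
  obtain ⟨F22, c22, ⟨M22, b22⟩, e22⟩ := exists_dev D (fun n => ((γ₂ n).2 : ℝ))
    (fun n => by exact_mod_cast (h₂ n).2) S₂ hS₂
  set g1 : ℝ := (g.1 : ℝ) - (γ₁ 0).1 + (γ₂ 0).1 with hg1
  set g2 : ℝ := (g.2 : ℝ) - (γ₁ 0).2 + (γ₂ 0).2 with hg2
  have hb : ∀ (c : ℝ) (F G : ℝ → ℝ) (M N : ℝ), (∀ x, |F x| ≤ M) → (∀ x, |G x| ≤ N) →
      ∀ p : ℝ × ℝ, |c - F p.1 + G p.2| ≤ |c| + M + N := by
    intro c F G M N hF hG p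
    have := abs_add_le (c - F p.1) (G p.2)
    have := abs_sub c (F p.1)
    linarith [hF p.1, hG p.2]
  obtain ⟨p, hp1, hp2⟩ := solve_system (((γ₁ S₁).1 : ℝ) - (γ₁ 0).1) (((γ₁ S₁).2 : ℝ) - (γ₁ 0).2)
    (((γ₂ S₂).1 : ℝ) - (γ₂ 0).1) (((γ₂ S₂).2 : ℝ) - (γ₂ 0).2)
    (by
      simp only [det, Prod.fst_sub, Prod.snd_sub] at hdet
      exact_mod_cast hdet)
    (fun p => g1 - F11 p.1 + F21 p.2) (fun p => g2 - F12 p.1 + F22 p.2)
    (by fun_prop) (by fun_prop) (max (|g1| + M11 + M21) (|g2| + M12 + M22))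
    (fun p => (hb _ _ _ _ _ b11 b21 p).trans (le_max_left _ _))
    (fun p => (hb _ _ _ _ _ b12 b22 p).trans (le_max_right _ _))
  have hfl : ∀ (S : ℕ) (x : ℝ), ⌊(S : ℝ) * Int.fract x⌋₊ ≤ S := by
    intro S x
    apply Nat.floor_le_of_le
    have := Int.fract_lt_one x
    have h0 : (0 : ℝ) ≤ S := Nat.cast_nonneg S
    nlinarith
  refine ⟨_, hfl S₁ p.1, _, hfl S₂ p.2, -⌊p.1⌋, ⌊p.2⌋, ?_, ?_⟩
  · have a1 := abs_le.mp (e11 p.1)
    have a2 := abs_le.mp (e21 p.2)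
    simp only [Prod.fst_sub, Prod.smul_fst, smul_eq_mul] at hp1 a1 a2 ⊢
    rw [← Int.cast_le (R := ℝ)]
    push_cast
    rw [abs_le]
    constructor <;> linarith [a1.1, a1.2, a2.1, a2.2]
  · have a1 := abs_le.mp (e12 p.1)
    have a2 := abs_le.mp (e22 p.2)
    simp only [Prod.snd_sub, Prod.smul_snd, smul_eq_mul] at hp2 a1 a2 ⊢
    rw [← Int.cast_le (R := ℝ)]
    push_cast
    rw [abs_le]
    constructor <;> linarith [a1.1, a1.2, a2.1, a2.2]

end Vale.Agent.P015
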