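import Vale.Agent.P015.Core

/-! The entropy decrement inequality with ghost rounds. -/

namespace Vale.Agent.P015

open Finset
open scoped BigOperators

/-- The data revealed in one round. -/
def Bk (z : ℕ → ℤ × ℤ) (M : Move) (L a : ℕ) (s : M.S) : (ℤ × ℤ) × (ℕ → ℤ × ℤ) :=
  (z (M.f a s) - z a, Xb z L (M.f a s))

lemma sum_Xb (z : ℕ → ℤ × ℤ) {L j : ℕ} (n : ℕ) (hj : j ≤ L) :
    ∑ t ∈ range j, Xb z L n t = z (n + j) - z n := by
  induction j with
  | zero => simp
  | succ j ih =>
    rw [sum_range_succ, ih (by omega), Xb, if_pos (by omega), ← add_assoc]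
    abel

lemma Xb_add_det (z : ℕ → ℤ × ℤ) {A L n n' : ℕ} (h1 : Xb z L (n + A) = Xb z L (n' + A))
    (h2 : Xb z A n = Xb z A n') : Xb z (A + L) n = Xb z (A + L) n' := by
  funext t
  unfold Xb
  split_ifs with ht
  · by_cases htA : t < A
    · have := congrFun h2 t
      simpa only [Xb, if_pos htA] using this
    · obtain ⟨s, rfl⟩ := Nat.exists_eq_add_of_le (not_lt.1 htA)
      have := congrFun h1 s
      have hs : s < L := by omega
      simpa only [Xb, if_pos hs, add_assoc] using this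
  · rfl

variable {Ω γ δ : Type} [Fintype Ω]

/-- Chain rule along consecutive blocks. -/
lemma cent_blocks (z : ℕ → ℤ × ℤ) (L : ℕ) (n : Ω → ℕ) (v : Ω → ℤ × ℤ) (Z : Ω → γ) (c : ℕ) :
    cent (fun ω => Xb z (c * L) (n ω)) (fun ω => (z (n ω) - v ω, Z ω)) ≤
      ∑ c' ∈ range c, cent (fun ω => Xb z L (n ω + c' * L))
        (fun ω => (z (n ω + c' * L) - v ω, Z ω)) := by
  induction c with
  | zero =>
    rw [cent_eq_zero_of_det]
    · simp
    · intro ω ω' _
      funext t
      simp [Xb]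
  | succ c ih =>
    rw [sum_range_succ]
    have h1 : cent (fun ω => Xb z ((c + 1) * L) (n ω)) (fun ω => (z (n ω) - v ω, Z ω)) ≤
        cent (fun ω => (Xb z L (n ω + c * L), Xb z (c * L) (n ω)))
          (fun ω => (z (n ω) - v ω, Z ω)) := by
      refine cent_le_of_det_left fun ω ω' h _ => ?_
      obtain ⟨h1, h2⟩ := Prod.mk.inj h
      rw [Nat.succ_mul]
      exact Xb_add_det z h1 h2
    rw [cent_pair] at h1
    have h2 : cent (fun ω => Xb z L (n ω + c * L))
        (fun ω => (Xb z (c * L) (n ω), z (n ω) - v ω, Z ω)) ≤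
        cent (fun ω => Xb z L (n ω + c * L)) (fun ω => (z (n ω + c * L) - v ω, Z ω)) := by
      refine cent_le_of_det_right fun ω ω' h => ?_
      obtain ⟨h3, h4⟩ := Prod.mk.inj h
      obtain ⟨h5, h6⟩ := Prod.mk.inj h4
      have h7 := sum_Xb z (n ω) (le_refl (c * L))
      have h8 := sum_Xb z (n ω') (le_refl (c * L))
      rw [h3, h8] at h7
      refine Prod.ext ?_ h6
      change z (n ω + c * L) - v ω = z (n ω' + c * L) - v ω'
      calc z (n ω + c * L) - v ω = (z (n ω + c * L) - z (n ω)) + (z (n ω) - v ω) := by abel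
        _ = (z (n ω' + c * L) - z (n ω')) + (z (n ω') - v ω') := by rw [h5, h7]
        _ = _ := by abel
    linarith

/-- Symmetry of conditional mutual information. -/
lemma cent_sub_cent (Y : Ω → δ) (E : Ω → γ) {β : Type} (B : Ω → β) :
    cent Y E - cent Y (fun ω => (E ω, B ω)) = cent B E - cent B (fun ω => (Y ω, E ω)) := by
  unfold cent
  have h1 : ent (fun ω => (Y ω, E ω, B ω)) = ent (fun ω => (B ω, Y ω, E ω)) :=
    ent_congr fun _ _ => by simp only [Prod.mk.injEq]; tauto
  have h2 : ent (fun ω => (E ω, B ω)) = ent (fun ω => (B ω, E ω)) :=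
    ent_congr fun _ _ => by simp only [Prod.mk.injEq]; tauto
  rw [h1, h2]; ring

/-- One round of revealed data. -/
lemma decr_step {D : ℕ} {z : ℕ → ℤ × ℤ} (h : Steps D z) (M : Move) {R : ℕ} (L : ℕ) (hR : 0 < R)
    (a : Ω → ℕ) (Y : Ω → δ) (E : Ω → γ) :
    cent Y E - cent (fun x : Ω × (M.comp (Move.shift R L hR)).S => Y x.1)
        (fun x => (E x.1, Bk z (M.comp (Move.shift R L hR)) L (a x.1) x.2)) ≤
      (ent fun x => Xb z L ((M.comp (Move.shift R L hR)).app a x)) + 2 * lg D (M.T + R * L)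
        - ((ent fun x => Xb z (R * L) (M.app a x))
          - (ent Y + ent E + 2 * lg D (M.T + R * L))) / R := by
  set M' := M.comp (Move.shift R L hR) with hM'
  rw [← cent_fst (Ω' := M'.S) Y E, cent_sub_cent]
  have h1 : cent (fun x : Ω × M'.S => Bk z M' L (a x.1) x.2) (fun x => E x.1) ≤
      (ent fun x => Xb z L (M'.app a x)) + 2 * lg D (M.T + R * L) := by
    refine (cent_le_ent _ _).trans ((ent_pair_le _ _).trans ?_)
    have := ent_disp_le (a := fun x : Ω × M'.S => a x.1) (a' := M'.app a) h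
      (fun x => M'.le _ _) fun x => M'.le' _ _
    rw [add_comm]
    exact add_le_add le_rfl this
  have h2 : cent (fun x : Ω × M'.S => Xb z L (M'.app a x))
      (fun x => ((z (M'.app a x) - z (a x.1), Y x.1, E x.1), (x.2.2 : Fin R))) ≤
      cent (fun x : Ω × M'.S => Bk z M' L (a x.1) x.2) (fun x => (Y x.1, E x.1)) := by
    have h3 := cent_pair (fun x : Ω × M'.S => Xb z L (M'.app a x))
      (fun x => z (M'.app a x) - z (a x.1)) (fun x => (Y x.1, E x.1))
    have h4 := cent_nonneg (fun x : Ω × M'.S => z (M'.app a x) - z (a x.1))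
      (fun x => (Y x.1, E x.1))
    have h5 : cent (fun x : Ω × M'.S => (Xb z L (M'.app a x), z (M'.app a x) - z (a x.1)))
        (fun x => (Y x.1, E x.1)) ≤
        cent (fun x : Ω × M'.S => Bk z M' L (a x.1) x.2) (fun x => (Y x.1, E x.1)) := by
      refine cent_le_of_det_left fun x x' h6 _ => ?_
      obtain ⟨h7, h8⟩ := Prod.mk.inj h6
      exact Prod.ext h8 h7
    have h6 : cent (fun x : Ω × M'.S => Xb z L (M'.app a x))
        (fun x => ((z (M'.app a x) - z (a x.1), Y x.1, E x.1), (x.2.2 : Fin R))) ≤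
        cent (fun x : Ω × M'.S => Xb z L (M'.app a x))
          (fun x => (z (M'.app a x) - z (a x.1), Y x.1, E x.1)) :=
      cent_le_of_det_right fun x x' h7 => (Prod.mk.inj h7).1
    linarith
  have h3 : cent (fun x : Ω × M'.S => Xb z L (M'.app a x))
      (fun x => ((z (M'.app a x) - z (a x.1), Y x.1, E x.1), (x.2.2 : Fin R))) =
      (∑ c' ∈ range R, cent (fun ω : Ω × M.S => Xb z L (M.app a ω + c' * L))
        (fun ω => (z (M.app a ω + c' * L) - z (a ω.1), Y ω.1, E ω.1))) / R := by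
    have h4 := cent_equiv (Equiv.prodAssoc Ω M.S (Fin R))
      (fun x : Ω × M.S × Fin R => Xb z L (M'.app a x))
      (fun x => ((z (M'.app a x) - z (a x.1), Y x.1, E x.1), x.2.2))
    have h5 := cent_prod_snd (Ω := Ω × M.S) (Ω' := Fin R)
      (fun x => Xb z L (M.app a x.1 + x.2.1 * L))
      (fun x => (z (M.app a x.1 + x.2.1 * L) - z (a x.1.1), Y x.1.1, E x.1.1))
    rw [E_eq, Fintype.card_fin, Fin.sum_univ_eq_sum_range (fun c' => cent
      (fun ω : Ω × M.S => Xb z L (M.app a ω + c' * L))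
        (fun ω => (z (M.app a ω + c' * L) - z (a ω.1), Y ω.1, E ω.1))) R] at h5
    exact h4.symm.trans h5
  have h4 := cent_blocks z L (M.app a) (fun ω => z (a ω.1)) (fun ω => (Y ω.1, E ω.1)) R
  have h5 := ent_sub_le_cent (fun ω => Xb z (R * L) (M.app a ω))
    (fun ω : Ω × M.S => (z (M.app a ω) - z (a ω.1), Y ω.1, E ω.1))
  have h6 := ent_pair_le (fun ω : Ω × M.S => z (M.app a ω) - z (a ω.1))
    (fun ω => (Y ω.1, E ω.1))
  have h7 := ent_pair_le (fun ω : Ω × M.S => Y ω.1) (fun ω => E ω.1)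
  rw [ent_fst, ent_fst] at h7
  have h8 := ent_disp_le (a := fun x : Ω × M.S => a x.1) (a' := M.app a) (T := M.T + R * L) h
    (fun x => M.le _ _) fun x => (M.le' _ _).trans (by omega)
  have h9 : ((ent fun x => Xb z (R * L) (M.app a x))
      - (ent Y + ent E + 2 * lg D (M.T + R * L))) / R ≤
      (∑ c' ∈ range R, cent (fun ω : Ω × M.S => Xb z L (M.app a ω + c' * L))
        (fun ω => (z (M.app a ω + c' * L) - z (a ω.1), Y ω.1, E ω.1))) / R := by
    refine div_le_div_of_nonneg_right ?_ (Nat.cast_nonneg _)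
    linarith
  linarith

/-- The data revealed in `i` ghost rounds. -/
def Gh (z : ℕ → ℤ × ℤ) (M : Move) (L : ℕ) (a : Ω → ℕ) (i : ℕ) (x : Ω × (Fin i → M.S)) :
    Fin i → (ℤ × ℤ) × (ℕ → ℤ × ℤ) := fun t => Bk z M L (a x.1) (x.2 t)

lemma ent_Gh_le {D : ℕ} {z : ℕ → ℤ × ℤ} (h : Steps D z) (M : Move) (L : ℕ) (a : Ω → ℕ) (i : ℕ) :
    ent (Gh z M L a i) ≤ i * (2 * lg D M.T + L * (2 * lg D 1)) := by
  refine (ent_le_sum univ (fun (t : Fin i) (x : Ω × (Fin i → M.S)) => Bk z M L (a x.1) (x.2 t)) _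
    fun x x' h' => funext fun t => h' t (mem_univ t)).trans ?_
  refine (sum_le_card_nsmul _ _ (2 * lg D M.T + L * (2 * lg D 1)) fun t _ => ?_).trans
    (by rw [card_univ, Fintype.card_fin, nsmul_eq_mul])
  refine (ent_pair_le _ _).trans (add_le_add ?_ ?_)
  · exact ent_disp_le (a := fun x : Ω × (Fin i → M.S) => a x.1)
      (a' := fun x => M.f (a x.1) (x.2 t)) h (fun x => M.le _ _) fun x => M.le' _ _
  · exact ent_Xb_le h L fun x : Ω × (Fin i → M.S) => M.f (a x.1) (x.2 t)

/-- Adding one ghost round. -/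
def ghEquiv (Ω S : Type) (i : ℕ) : (Ω × (Fin i → S)) × S ≃ Ω × (Fin (i + 1) → S) where
  toFun x := (x.1.1, Fin.cons x.2 x.1.2)
  invFun y := ((y.1, Fin.tail y.2), y.2 0)
  left_inv x := by simp
  right_inv y := by simp

lemma ghost_bound {D : ℕ} {z : ℕ → ℤ × ℤ} (h : Steps D z) (M : Move) {R : ℕ} (L : ℕ) (hR : 0 < R)
    (a : Ω → ℕ) (Y : Ω → δ) (I : ℕ) {K : ℝ} (hK : ent Y ≤ K) (i : ℕ) (hi : i ≤ I) :
    ent Y - cent (fun x => Y x.1) (Gh z (M.comp (Move.shift R L hR)) L a i) ≤
      i * ((ent fun x => Xb z L ((M.comp (Move.shift R L hR)).app a x))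
          + 2 * lg D (M.T + R * L)
          - ((ent fun x => Xb z (R * L) (M.app a x))
            - (K + I * (2 * lg D (M.T + R * L) + L * (2 * lg D 1))
              + 2 * lg D (M.T + R * L))) / R) := by
  set M' := M.comp (Move.shift R L hR) with hM'
  induction i with
  | zero =>
    have h1 := ent_sub_le_cent (fun x : Ω × (Fin 0 → M'.S) => Y x.1) (Gh z M' L a 0)
    rw [ent_fst, ent_const (X := Gh z M' L a 0) fun _ _ => funext fun t => t.elim0] at h1
    simp only [Nat.cast_zero, zero_mul]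
    linarith
  | succ i ih =>
    have ih := ih (by omega)
    have h1 := decr_step h M L hR (fun x : Ω × (Fin i → M'.S) => a x.1) (fun x => Y x.1)
      (Gh z M' L a i)
    have h2 : cent (fun x : (Ω × (Fin i → M'.S)) × M'.S => Y x.1.1)
        (fun x => (Gh z M' L a i x.1, Bk z M' L (a x.1.1) x.2)) ≤
        cent (fun x => Y x.1) (Gh z M' L a (i + 1)) := by
      rw [← cent_equiv (ghEquiv Ω M'.S i) (fun x => Y x.1) (Gh z M' L a (i + 1))]
      refine cent_le_of_det_right fun x x' h3 => ?_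
      obtain ⟨h4, h5⟩ := Prod.mk.inj h3
      funext t
      refine Fin.cases ?_ (fun t => ?_) t
      · exact h5
      · exact congrFun h4 t
    rw [(((law_fst (Ω' := Fin i → M'.S) a).app M').map (Xb z L)).ent_eq,
      (((law_fst (Ω' := Fin i → M'.S) a).app M).map (Xb z (R * L))).ent_eq, ent_fst] at h1
    have h3 := ent_Gh_le h M' L a i
    have h4 : (i : ℝ) * (2 * lg D M'.T + L * (2 * lg D 1)) ≤
        I * (2 * lg D (M.T + R * L) + L * (2 * lg D 1)) := by
      have h5 : (i : ℝ) ≤ I := by exact_mod_cast (by omega : i ≤ I)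
      have h6 := lg_nonneg D (M.T + R * L)
      have h7 := lg_nonneg D 1
      exact mul_le_mul_of_nonneg_right h5 (by positivity)
    have h5 : ((ent fun x => Xb z (R * L) (M.app a x))
        - (K + I * (2 * lg D (M.T + R * L) + L * (2 * lg D 1)) + 2 * lg D (M.T + R * L))) / R ≤
        ((ent fun x => Xb z (R * L) (M.app a x))
          - (ent Y + ent (Gh z M' L a i) + 2 * lg D (M.T + R * L))) / R := by
      refine div_le_div_of_nonneg_right ?_ (Nat.cast_nonneg _)
      linarith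
    push_cast
    linarith

/-- Conditional entropy is at most the mean logarithm of the number of admissible values. -/
lemma cent_le_log_count [Nonempty Ω] {α β : Type} [Fintype α] (X : Ω → α) (Y : Ω → β)
    (U : β → α → Prop) (h : ∀ ω, U (Y ω) (X ω)) :
    cent X Y ≤ 𝔼 ω, Real.log (∑ y, ind (U (Y ω) y)) := by
  have hpos : ∀ ω, 0 < ∑ y, ind (U (Y ω) y) := fun ω =>
    sum_pos' (fun _ _ => ind_nonneg _) ⟨X ω, mem_univ _, by rw [ind_pos (h ω)]; norm_num⟩
  have := gibbs (X := X) (Y := Y) univ (fun _ => mem_univ _)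
    (fun x y => ind (U y x) / ∑ x', ind (U y x'))
    (fun x y => div_nonneg (ind_nonneg _) (sum_nonneg fun _ _ => ind_nonneg _))
    (fun ω => div_pos (by rw [ind_pos (h ω)]; norm_num) (hpos ω))
  rw [E_congr (f := fun ω => ∑ x, ind (U (Y ω) x) / ∑ x', ind (U (Y ω) x')) (g := fun _ => 1)
    fun ω => by rw [← sum_div, div_self (hpos ω).ne'], E_const] at this
  refine this.trans (le_of_eq ?_)
  rw [add_sub_cancel_right]
  refine E_congr fun ω => ?_
  rw [ind_pos (h ω), one_div, Real.log_inv, neg_neg]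

lemma ind_forall {ι : Type} [Fintype ι] (A : ι → Prop) : ind (∀ t, A t) = ∏ t, ind (A t) := by
  by_cases h : ∀ t, A t
  · rw [ind_pos h, prod_congr rfl fun t _ => ind_pos (h t), prod_const_one]
  · rw [ind_neg h]
    obtain ⟨t, ht⟩ := not_forall.1 h
    exact (prod_eq_zero (mem_univ t) (ind_neg ht)).symm

/-- Mean logarithm of the number of residues that no ghost round covers. -/
lemma log_uncovered {S : Type} [Fintype S] [Nonempty S] (w : ℕ → ℤ) (n : S → ℕ) {p N : ℕ}
    [NeZero p] (L I u : ℕ) {c : ℝ} (hp : p ≤ 2 * N) (hw : ∀ m, (w m : ZMod p) ≠ 0) (hc : c ≤ 1)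
    (hI : 2 * N * (1 - c) ^ I ≤ 1) :
    𝔼 g : Fin I → S, Real.log (∑ y : ZMod p, ind (∀ t, ¬ ∃ j < L, (w (n (g t) + j) : ZMod p) = y))
      ≤ Real.log (u + 1) + ind (u ≤ low w n L p c) * Real.log (2 * N) := by
  have hpos : ∀ g : Fin I → S,
      0 < ∑ y : ZMod p, ind (∀ t, ¬ ∃ j < L, (w (n (g t) + j) : ZMod p) = y) := fun g =>
    sum_pos' (fun _ _ => ind_nonneg _) ⟨0, mem_univ _, by
      rw [ind_pos fun t ⟨j, _, hj⟩ => hw _ hj]; norm_num⟩
  have hu : (0 : ℝ) < u + 1 := by positivity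
  have hpN : (p : ℝ) ≤ 2 * N := by exact_mod_cast hp
  by_cases hl : u ≤ low w n L p c
  · rw [ind_pos hl, one_mul]
    refine E_le fun g => ?_
    have h1 : 0 ≤ Real.log (u + 1) := Real.log_nonneg (by linarith [Nat.cast_nonneg (α := ℝ) u])
    refine le_trans (Real.log_le_log (hpos g) ?_) (le_add_of_nonneg_left h1)
    refine (sum_le_card_nsmul _ _ 1 fun y _ => ind_le_one _).trans ?_
    rw [card_univ, ZMod.card, nsmul_eq_mul, mul_one]
    exact hpN
  · rw [ind_neg hl, zero_mul, add_zero]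
    have h1 : 𝔼 g : Fin I → S,
        ∑ y : ZMod p, ind (∀ t, ¬ ∃ j < L, (w (n (g t) + j) : ZMod p) = y) ≤ u := by
      rw [E_sum]
      have h2 : ∀ y : ZMod p, 𝔼 g : Fin I → S,
          ind (∀ t, ¬ ∃ j < L, (w (n (g t) + j) : ZMod p) = y) ≤
          ind ((pr fun s => ∃ j < L, (w (n s + j) : ZMod p) = y) < c) + (1 - c) ^ I := by
        intro y
        simp only [ind_forall]
        rw [E_pi fun (_ : Fin I) s => ind (¬ ∃ j < L, (w (n s + j) : ZMod p) = y), prod_const,
          card_univ, Fintype.card_fin]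
        simp only [ind_not]
        rw [E_sub, E_const]
        change (1 - pr fun s => ∃ j < L, (w (n s + j) : ZMod p) = y) ^ I ≤ _
        have h3 := pr_nonneg fun s => ∃ j < L, (w (n s + j) : ZMod p) = y
        have h4 := pr_le_one fun s => ∃ j < L, (w (n s + j) : ZMod p) = y
        have h5 : 0 ≤ (1 - c) ^ I := pow_nonneg (by linarith) _
        by_cases h6 : (pr fun s => ∃ j < L, (w (n s + j) : ZMod p) = y) < c
        · rw [ind_pos h6]
          exact (pow_le_one₀ (by linarith) (by linarith)).trans (by linarith)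
        · rw [ind_neg h6, zero_add]
          exact pow_le_pow_left₀ (by linarith) (by linarith [not_lt.1 h6]) _
      refine (sum_le_sum fun y _ => h2 y).trans ?_
      classical
      rw [sum_add_distrib, sum_ind, sum_const, card_univ, ZMod.card, nsmul_eq_mul]
      have h3 : low w n L p c = (univ.filter fun y : ZMod p =>
          (pr fun s => ∃ j < L, (w (n s + j) : ZMod p) = y) < c).card := by
        rw [low, ← Set.ncard_coe_finset]
        congr 1
        ext y
        simp
      have h4 : (low w n L p c : ℝ) + 1 ≤ u := by exact_mod_cast not_le.1 hl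
      have h5 : (p : ℝ) * (1 - c) ^ I ≤ 2 * N * (1 - c) ^ I :=
        mul_le_mul_of_nonneg_right hpN (pow_nonneg (by linarith) _)
      rw [← h3]
      linarith
    have h2 : 𝔼 g : Fin I → S,
        Real.log (∑ y : ZMod p, ind (∀ t, ¬ ∃ j < L, (w (n (g t) + j) : ZMod p) = y)) ≤
        𝔼 g : Fin I → S, (Real.log (u + 1) +
          ((∑ y : ZMod p, ind (∀ t, ¬ ∃ j < L, (w (n (g t) + j) : ZMod p) = y)) / (u + 1) - 1)) := by
      refine E_mono fun g => ?_
      have h3 := Real.log_le_sub_one_of_pos (div_pos (hpos g) hu)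
      rw [Real.log_div (hpos g).ne' hu.ne'] at h3
      linarith
    rw [E_add, E_const, E_sub, E_const, E_div] at h2
    have h3 : (𝔼 g : Fin I → S,
        ∑ y : ZMod p, ind (∀ t, ¬ ∃ j < L, (w (n (g t) + j) : ZMod p) = y)) / (u + 1) ≤ 1 := by
      rw [div_le_one hu]; linarith
    linarith

/-- The residual entropy of one residue after all ghost rounds. -/
lemma cent_res_ghost [Nonempty Ω] (ι : ℤ) (z : ℕ → ℤ × ℤ) (M : Move) (a : Ω → ℕ) {p N : ℕ}
    (hp0 : 0 < p) (L I u : ℕ) {c : ℝ} (hp : p ≤ 2 * N) (hw : ∀ m, ¬ (p : ℤ) ∣ rho ι (z m))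
    (hc : c ≤ 1) (hI : 2 * N * (1 - c) ^ I ≤ 1) :
    cent (fun x : Ω × (Fin I → M.S) => (rho ι (z (a x.1)) : ZMod p)) (Gh z M L a I) ≤
      𝔼 ω, (Real.log (u + 1) +
        ind (u ≤ low (fun n => rho ι (z n)) (M.f (a ω)) L p c) * Real.log (2 * N)) := by
  have : NeZero p := ⟨hp0.ne'⟩
  have hw' : ∀ m, (rho ι (z m) : ZMod p) ≠ 0 := fun m hm =>
    hw m ((ZMod.intCast_zmod_eq_zero_iff_dvd _ _).1 hm)
  have key : ∀ (x : Ω × (Fin I → M.S)) (t : Fin I) (j : ℕ), j < L →
      (rho ι ((Gh z M L a I x t).1 + ∑ l ∈ range j, (Gh z M L a I x t).2 l) : ZMod p) =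
        rho ι (z (M.f (a x.1) (x.2 t) + j)) - rho ι (z (a x.1)) := by
    intro x t j hj
    simp only [Gh, Bk]
    rw [sum_Xb z _ hj.le, sub_add_sub_cancel', rho_sub, Int.cast_sub]
  refine (cent_le_log_count _ _ (fun (E : Fin I → (ℤ × ℤ) × (ℕ → ℤ × ℤ)) (y : ZMod p) =>
    ∀ t, ∀ j < L, y + (rho ι ((E t).1 + ∑ l ∈ range j, (E t).2 l) : ZMod p) ≠ 0) ?_).trans ?_
  · intro x t j hj
    rw [key x t j hj, add_sub_cancel]
    exact hw' _
  · rw [E_prod]
    refine E_mono fun ω => le_trans (le_of_eq ?_)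
      (log_uncovered (fun n => rho ι (z n)) (M.f (a ω)) L I u hp hw' hc hI)
    refine E_congr fun g => congrArg Real.log ?_
    refine Fintype.sum_equiv (Equiv.subLeft (rho ι (z (a ω)) : ZMod p)) _ _ fun y => ?_
    refine ind_congr (forall_congr' fun t => ?_)
    simp only [not_exists, not_and, Equiv.subLeft_apply]
    refine forall_congr' fun j => forall_congr' fun hj => ?_
    rw [key (ω, g) t j hj]
    refine not_congr ⟨fun h => ?_, fun h => ?_⟩
    · linear_combination h
    · linear_combination h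

theorem decr : DecrStmt := by
  intro D ι z h Ω _ _ a M P N L R I u hR B c hP hw hc hI hB
  have hlog : 0 ≤ Real.log (2 * N) := by
    have := Real.log_natCast_nonneg (2 * N)
    rwa [Nat.cast_mul, Nat.cast_ofNat] at this
  have h1 : (ent fun ω => Yv (fun n => rho ι (z n)) P (a ω)) ≤ P.card * Real.log (2 * N) := by
    refine (ent_le_sum P (fun (p : ℕ) (ω : Ω) => (rho ι (z (a ω)) : ZMod p)) _
      fun ω ω' h' => Yv_eq_iff.2 h').trans ?_
    refine (sum_le_card_nsmul _ _ (Real.log (2 * N)) fun p hp => ?_).trans (by simp)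
    rw [← cent_unit]
    refine (cent_res_le _ (hP p hp).1.pos _).trans (Real.log_le_log ?_ ?_)
    · exact_mod_cast (hP p hp).1.pos
    · exact_mod_cast (hP p hp).2.2.2
  have h2 := ghost_bound h M L hR a (fun ω => Yv (fun n => rho ι (z n)) P (a ω)) I h1 I le_rfl
  set M' := M.comp (Move.shift R L hR) with hM'
  have h3 : cent (fun x : Ω × (Fin I → M'.S) => Yv (fun n => rho ι (z n)) P (a x.1))
      (Gh z M' L a I) ≤ P.card * Real.log (u + 1) + B * Real.log (2 * N) := by
    refine (cent_le_sum P (fun (p : ℕ) (x : Ω × (Fin I → M'.S)) => (rho ι (z (a x.1)) : ZMod p))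
      _ _ fun x x' h' _ => Yv_eq_iff.2 h').trans ?_
    refine (sum_le_sum fun p hp => cent_res_ghost ι z M' a (hP p hp).1.pos L I u (hP p hp).2.2.2
      (fun m => hw m p hp) hc hI).trans ?_
    rw [← E_sum]
    refine E_le fun ω => ?_
    rw [sum_add_distrib, sum_const, nsmul_eq_mul, ← sum_mul, sum_ind]
    exact add_le_add le_rfl (mul_le_mul_of_nonneg_right (hB (a ω)) hlog)
  linarith

end Vale.Agent.P015
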