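import Vale.Agent.P015.Core

/-! Existence of enrichment moves. -/

namespace Vale.Agent.P015

open Finset
open scoped BigOperators

lemma log_tau_le {D T t : ℕ} (h1 : 1 ≤ t) (h2 : t ≤ 16 * D ^ 2 * T ^ 2) :
    Real.log t ≤ 2 * lg D T := by
  have h3 : (t : ℝ) ≤ 16 * D ^ 2 * T ^ 2 := by exact_mod_cast h2
  have h4 : (0 : ℝ) < t := by exact_mod_cast h1
  rw [lg, show (2 : ℝ) = ((2 : ℕ) : ℝ) by norm_num, ← Real.log_pow]
  refine Real.log_le_log h4 (h3.trans ?_)
  have : (0 : ℝ) ≤ D * T := by positivity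
  nlinarith

lemma sum_log_not_dvd {P : Finset ℕ} (hP : ∀ p ∈ P, p.Prime) {t : ℕ} (ht : 1 ≤ t) :
    ∑ p ∈ P, Real.log p - Real.log t ≤ ∑ p ∈ P.filter fun p => ¬ p ∣ t, Real.log p := by
  rw [← sum_filter_add_sum_filter_not P fun p => p ∣ t]
  have : ∑ p ∈ P.filter fun p => p ∣ t, Real.log p ≤ Real.log t := by
    rw [← Real.log_prod fun p hp => by
      exact_mod_cast (hP p (mem_filter.1 hp).1).ne_zero, ← Nat.cast_prod]
    refine Real.log_le_log ?_ ?_
    · exact_mod_cast prod_pos fun p hp => (hP p (mem_filter.1 hp).1).pos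
    · have h : ∏ p ∈ P.filter fun p => p ∣ t, (p : ℤ) ∣ t :=
        prod_dvd_of_coprime (fun p hp q hq hpq =>
          Nat.isCoprime_iff_coprime.2 ((Nat.coprime_primes (hP p (mem_filter.1 hp).1)
            (hP q (mem_filter.1 hq).1)).2 hpq)) fun p hp =>
              Int.natCast_dvd_natCast.2 (mem_filter.1 hp).2
      rw [← Nat.cast_prod, Int.natCast_dvd_natCast] at h
      exact_mod_cast Nat.le_of_dvd ht h
  linarith

variable {Ω : Type} [Fintype Ω]

/-- Entropy of the reduced displacement given `τ`. -/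
lemma cent_dbar {Q C T : ℕ} (hQ : 0 < Q) (hC : 1 ≤ C) {ι : ℤ} (d : ℕ → Fin Q → ℤ) (τ : ℕ → ℕ)
    (h : ∀ a (m : ℕ), 0 < m → m ^ 2 ≤ T → (m : ℤ) ∣ ι ^ 2 + 1 → Nat.Coprime m (τ a) → ∀ r : ℤ,
      m * (univ.filter fun s : Fin Q => (m : ℤ) ∣ d a s - r).card ≤ C * Q)
    {S : Finset ℕ} (hS : ∀ p ∈ S, p.Prime ∧ (p : ℤ) ∣ ι ^ 2 + 1) (hT : (∏ p ∈ S, p) ^ 2 ≤ T)
    [Nonempty Ω] (a : Ω → ℕ) :
    (𝔼 ω, ∑ p ∈ S.filter fun p => ¬ p ∣ τ (a ω), Real.log p) - Real.log C ≤
      cent (fun x : Ω × Fin Q => fun p : ℕ => if p ∈ S then (d (a x.1) x.2 : ZMod p) else 0)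
        (fun x => τ (a x.1)) := by
  have : Nonempty (Fin Q) := ⟨⟨0, hQ⟩⟩
  set m : ℕ → ℕ := fun t => ∏ p ∈ S.filter fun p => ¬ p ∣ t, p with hm
  have hm0 : ∀ t, 0 < m t := fun t => prod_pos fun p hp => (hS p (mem_filter.1 hp).1).1.pos
  have hcop : ∀ t, ∀ p ∈ S.filter fun p => ¬ p ∣ t, ∀ q ∈ S.filter fun p => ¬ p ∣ t, p ≠ q →
      IsCoprime (p : ℤ) (q : ℤ) := fun t p hp q hq hpq =>
    Nat.isCoprime_iff_coprime.2 ((Nat.coprime_primes (hS p (mem_filter.1 hp).1).1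
      (hS q (mem_filter.1 hq).1).1).2 hpq)
  have hdvd : ∀ t (x : ℤ), (∀ p ∈ S, (p : ℤ) ∣ x) → (m t : ℤ) ∣ x := fun t x hx => by
    rw [hm]; simp only [Nat.cast_prod]
    exact prod_dvd_of_coprime (fun p hp q hq hpq => hcop t p hp q hq hpq)
      fun p hp => hx p (mem_filter.1 hp).1
  refine le_trans (le_of_eq ?_) (le_cent (fun x => (C : ℝ) / m (τ (a x.1))) fun x => ?_)
  · rw [law_fst a fun n => -Real.log ((C : ℝ) / m (τ n)), ← E_const (Ω := Ω) (Real.log C), ← E_sub]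
    refine E_congr fun ω => ?_
    have h1 : (m (τ (a ω)) : ℝ) ≠ 0 := by exact_mod_cast (hm0 _).ne'
    rw [Real.log_div (by positivity) h1, hm]
    simp only [Nat.cast_prod]
    rw [Real.log_prod fun p hp => by exact_mod_cast (hS p (mem_filter.1 hp).1).1.ne_zero]
    ring
  · rw [pr, pr, E_prod, E_prod, ← E_mul_left]
    refine E_mono fun ω => ?_
    simp only [ind_and]
    rw [E_mul_right, E_const]
    by_cases hτ : τ (a ω) = τ (a x.1)
    swap
    · rw [ind_neg hτ]; simp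
    rw [ind_pos hτ, mul_one, mul_one, ← hτ]
    have h1 := h (a ω) (m (τ (a ω))) (hm0 _) (le_trans (Nat.pow_le_pow_left
      (prod_le_prod_of_subset_of_one_le' (filter_subset _ _) fun p hp _ => (hS p hp).1.pos) 2) hT)
      (hdvd _ _ fun p hp => (hS p hp).2)
      (Nat.Coprime.prod_left fun p hp => ((hS p (mem_filter.1 hp).1).1.coprime_iff_not_dvd).2
        (mem_filter.1 hp).2) (d (a x.1) x.2)
    have h2 : (pr fun s : Fin Q => (m (τ (a ω)) : ℤ) ∣ d (a ω) s - d (a x.1) x.2)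
        ≤ C / m (τ (a ω)) := by
      rw [pr_eq_card, Fintype.card_fin, div_le_div_iff₀ (by exact_mod_cast hQ)
        (by exact_mod_cast hm0 _), mul_comm]
      exact_mod_cast h1
    refine le_trans (pr_mono fun s hs => hdvd _ _ fun p hp => ?_) h2
    have := congrFun hs p
    simp only [hp, if_true] at this
    rw [← ZMod.intCast_zmod_eq_zero_iff_dvd, Int.cast_sub, this, sub_self]

theorem enr_of (h : PieceStmt) : EnrStmt := by
  intro D
  obtain ⟨C, hC, h⟩ := h D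
  refine ⟨Real.log C, Real.log_nonneg (by exact_mod_cast hC), fun ι z T hz hT => ?_⟩
  have hx : ∀ a, IsPath D fun t => z (a + t) := fun a =>
    ⟨fun s t hst => by have := hz.inj hst; omega, fun n => hz.steps (a + n)⟩
  obtain ⟨Q, hQ⟩ : ∃ Q, Q = (4 * D * T + 1) ^ 2 := ⟨_, rfl⟩
  choose s₁ s₂ τ hs hτ1 hτ2 hτ using fun a => h ι (fun t => z (a + t)) T Q (hx a) hT hQ.ge
  have hQ0 : 0 < Q := by rw [hQ]; positivity
  have : Nonempty (Fin Q) := ⟨⟨0, hQ0⟩⟩
  refine ⟨{ S := Fin Q × Bool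
            f := fun a s => a + if s.2 then s₁ a s.1 else s₂ a s.1
            T := T
            le := fun a s => Nat.le_add_right _ _
            le' := fun a s => by
              have := hs a s.1
              split_ifs <;> omega }, rfl, ?_⟩
  intro Ω _ _ a P β β' hP hR hB
  set w : ℕ → ℤ := fun n => rho ι (z n) with hw
  let σ : Ω × Fin Q → ((ℤ × ℤ) × (ℤ × ℤ)) × ℕ := fun x =>
    ((z (a x.1 + s₁ (a x.1) x.2) - z (a x.1), z (a x.1 + s₂ (a x.1) x.2) - z (a x.1)), τ (a x.1))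
  have hσ : ent σ ≤ 6 * lg D T := by
    have h1 := ent_disp_le (a := fun x : Ω × Fin Q => a x.1)
      (a' := fun x => a x.1 + s₁ (a x.1) x.2) hz.steps (fun _ => Nat.le_add_right _ _)
      fun x => Nat.add_le_add_left (hs _ _).1 _
    have h2 := ent_disp_le (a := fun x : Ω × Fin Q => a x.1)
      (a' := fun x => a x.1 + s₂ (a x.1) x.2) hz.steps (fun _ => Nat.le_add_right _ _)
      fun x => Nat.add_le_add_left (hs _ _).2 _
    have h3 := ent_le_log_card (X := fun x : Ω × Fin Q => τ (a x.1)) (Icc 1 (16 * D ^ 2 * T ^ 2))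
      fun x => mem_Icc.2 ⟨hτ1 _, hτ2 _⟩
    rw [Nat.card_Icc, Nat.add_sub_cancel] at h3
    have h4 := log_tau_le (D := D) (T := T) ((hτ1 0).trans (hτ2 0)) le_rfl
    refine (ent_pair_le _ _).trans ?_
    have h5 := ent_pair_le (fun x : Ω × Fin Q => z (a x.1 + s₁ (a x.1) x.2) - z (a x.1))
      (fun x : Ω × Fin Q => z (a x.1 + s₂ (a x.1) x.2) - z (a x.1))
    linarith
  have key : ∀ j, cent (fun x : Ω × Fin Q => Yv w (blk P β' j) (a x.1)) σ +
      ((𝔼 ω, ∑ p ∈ (blk P β' j).filter fun p => ¬ p ∣ τ (a ω), Real.log p) - Real.log C) ≤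
      2 * ent fun x : Ω × (Fin Q × Bool) => Yv w (blk P β' j)
        (a x.1 + if x.2.2 then s₁ (a x.1) x.2.1 else s₂ (a x.1) x.2.1) := by
    intro j
    set S := blk P β' j
    have h1 := cent_dbar hQ0 hC (fun a s => rho ι (z (a + s₁ a s) - z (a + s₂ a s))) τ hτ
      (S := S) (fun p hp => hP p (mem_filter.1 hp).1) (hB j) a
    rw [← ent_equiv (Equiv.prodAssoc Ω (Fin Q) Bool)]
    have h2 := cent_le_ent (fun x : (Ω × Fin Q) × Bool => Yv w S
      (a x.1.1 + if x.2 then s₁ (a x.1.1) x.1.2 else s₂ (a x.1.1) x.1.2))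
      (fun x => (τ (a x.1.1), x.2))
    rw [cent_prod_snd, E_bool] at h2
    simp only [if_true, Bool.false_eq_true, if_false] at h2
    have h3 := cent_pair_le (fun x : Ω × Fin Q => Yv w S (a x.1 + s₁ (a x.1) x.2))
      (fun x : Ω × Fin Q => Yv w S (a x.1 + s₂ (a x.1) x.2)) (fun x => τ (a x.1))
    have h4 := cent_pair (fun x : Ω × Fin Q => Yv w S (a x.1 + s₁ (a x.1) x.2))
      (fun x : Ω × Fin Q => fun p : ℕ => if p ∈ S then
        (rho ι (z (a x.1 + s₁ (a x.1) x.2) - z (a x.1 + s₂ (a x.1) x.2)) : ZMod p) else 0)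
      (fun x => τ (a x.1))
    have h5 := cent_le_of_det_left
      (X := fun x : Ω × Fin Q => (Yv w S (a x.1 + s₁ (a x.1) x.2), Yv w S (a x.1 + s₂ (a x.1) x.2)))
      (X' := fun x : Ω × Fin Q => (Yv w S (a x.1 + s₁ (a x.1) x.2), fun p : ℕ => if p ∈ S then
        (rho ι (z (a x.1 + s₁ (a x.1) x.2) - z (a x.1 + s₂ (a x.1) x.2)) : ZMod p) else 0))
      (Y := fun x => τ (a x.1)) fun x x' h6 _ => by
        obtain ⟨h7, h8⟩ := Prod.mk.inj h6
        refine Prod.ext h7 (funext fun p => ?_)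
        by_cases hp : p ∈ S
        · simp only [hp, if_true, rho_sub, Int.cast_sub]
          rw [Yv_eq_iff.1 h7 p hp, Yv_eq_iff.1 h8 p hp]
        · simp [hp]
    have h6 := cent_le_of_det (X := fun x : Ω × Fin Q => Yv w S (a x.1 + s₁ (a x.1) x.2))
      (X' := fun x : Ω × Fin Q => Yv w S (a x.1)) (Z := σ)
      (Y := fun x => ((fun p : ℕ => if p ∈ S then
        (rho ι (z (a x.1 + s₁ (a x.1) x.2) - z (a x.1 + s₂ (a x.1) x.2)) : ZMod p) else 0),
          τ (a x.1)))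
      (fun x x' h7 h8 => by
        rw [Yv_eq_iff] at h7 ⊢
        intro p hp
        have h9 := congrArg (fun v => ((rho ι v : ℤ) : ZMod p)) (Prod.mk.inj (Prod.mk.inj h8).1).1
        simp only [rho_sub, Int.cast_sub] at h9
        linear_combination h7 p hp - h9)
      (fun x x' h8 => by
        obtain ⟨h9, h10⟩ := Prod.mk.inj h8
        obtain ⟨h11, h12⟩ := Prod.mk.inj h9
        refine Prod.ext (funext fun p => ?_) h10
        have : z (a x.1 + s₁ (a x.1) x.2) - z (a x.1 + s₂ (a x.1) x.2) =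
            z (a x'.1 + s₁ (a x'.1) x'.2) - z (a x'.1 + s₂ (a x'.1) x'.2) := by
          linear_combination h11 - h12
        simp only [this])
    simp only [Equiv.prodAssoc_apply]
    linarith
  have h1 := sum_le_sum fun j (_ : j ∈ P.image β') => key j
  rw [sum_add_distrib, sum_sub_distrib, ← mul_sum, sum_const, nsmul_eq_mul, ← E_sum] at h1
  have h2 := dfc_side w hR (fun x : Ω × Fin Q => a x.1) σ
  rw [(law_fst a).dfc_eq] at h2
  have h3 : ∑ p ∈ P, Real.log p - 2 * lg D T ≤ 𝔼 ω, ∑ j ∈ P.image β',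
      ∑ p ∈ (blk P β' j).filter fun p => ¬ p ∣ τ (a ω), Real.log p := by
    refine le_E fun ω => ?_
    have h4 := sum_log_not_dvd (fun p hp => (hP p hp).1) (hτ1 (a ω))
    have h5 := log_tau_le (hτ1 (a ω)) (hτ2 (a ω))
    rw [← sum_fiberwise_of_maps_to (s := P.filter fun p => ¬ p ∣ τ (a ω)) (t := P.image β')
      (g := β') fun p hp => mem_image_of_mem _ (mem_filter.1 hp).1] at h4
    simp only [blk, filter_comm (fun p => β' p = _)] at h4 ⊢
    linarith
  have h4 : ((P.image β).card : ℝ) * ent σ ≤ (P.image β).card * (6 * lg D T) := by gcongr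
  unfold dfc at h2 ⊢
  simp only [Move.app]
  linarith

end Vale.Agent.P015
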