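import Vale.Agent.P015.FinalStmt

/-! From the sieve statement to the statement on the graph of Gaussian primes. -/

namespace Vale.Agent.P015

open Finset Relation

namespace Final

theorem koenig {α : Type} (r : α → α → Prop) (hr : ∀ a, {b | r a b}.Finite) (v : α)
    (hv : {w | ReflTransGen r v w}.Infinite) :
    ∃ z : ℕ → α, Function.Injective z ∧ ∀ n, r (z n) (z (n + 1)) := by
  classical
  let R : Finset α → α → Set α := fun S a => {w | ReflTransGen (fun x y => r x y ∧ y ∉ S) a w}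
  have hins : ∀ S u, R S u ⊆ R (insert u S) u := by
    intro S u w hw
    induction hw with
    | refl => exact ReflTransGen.refl
    | @tail b c _ hbc ih =>
      by_cases hc : c = u
      · rw [hc]; exact ReflTransGen.refl
      · exact ReflTransGen.tail ih ⟨hbc.1, by simp [hc, hbc.2]⟩
  have hstep : ∀ p : {p : α × Finset α // p.1 ∈ p.2 ∧ (R p.2 p.1).Infinite},
      ∃ q : {p : α × Finset α // p.1 ∈ p.2 ∧ (R p.2 p.1).Infinite},
        r p.1.1 q.1.1 ∧ q.1.1 ∉ p.1.2 ∧ p.1.2 ⊆ q.1.2 := by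
    rintro ⟨⟨a, S⟩, ha, hinf⟩
    have : ∃ u, r a u ∧ u ∉ S ∧ (R S u).Infinite := by
      by_contra hc
      push Not at hc
      apply hinf
      have hfin : ({a} ∪ ⋃ u ∈ {u | r a u ∧ u ∉ S}, R S u).Finite :=
        (Set.finite_singleton a).union
          (((hr a).subset fun u hu => hu.1).biUnion fun u hu => hc u hu.1 hu.2)
      refine hfin.subset fun w hw => ?_
      rcases ReflTransGen.cases_head hw with h | ⟨u, hu, h⟩
      · exact Or.inl h.symm
      · exact Or.inr (Set.mem_biUnion hu h)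
    obtain ⟨u, h1, h2, h3⟩ := this
    exact ⟨⟨(u, insert u S), mem_insert_self _ _, h3.mono (hins S u)⟩, h1, h2, subset_insert _ _⟩
  choose f hf using hstep
  have h0 : (R (insert v ∅) v).Infinite := by
    refine Set.Infinite.mono (hins ∅ v) (hv.mono fun w hw => ?_)
    exact ReflTransGen.mono (p := fun x y => r x y ∧ y ∉ (∅ : Finset α))
      (fun x y h => ⟨h, notMem_empty _⟩) v w hw
  let s : ℕ → {p : α × Finset α // p.1 ∈ p.2 ∧ (R p.2 p.1).Infinite} :=
    fun n => f^[n] ⟨(v, insert v ∅), mem_insert_self _ _, h0⟩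
  have hs : ∀ n, s (n + 1) = f (s n) := fun n => Function.iterate_succ_apply' _ _ _
  have hmono : Monotone fun n => (s n).1.2 :=
    monotone_nat_of_le_succ fun n => by rw [hs]; exact (hf (s n)).2.2
  have hne : ∀ m n, m < n → (s m).1.1 ≠ (s n).1.1 := by
    intro m n hmn h
    obtain ⟨k, rfl⟩ := Nat.exists_eq_succ_of_ne_zero (Nat.ne_zero_of_lt hmn)
    apply (hf (s k)).2.1
    rw [← hs, ← h]
    exact hmono (Nat.le_of_lt_succ hmn) (s m).2.1
  refine ⟨fun n => (s n).1.1, fun m n h => ?_, fun n => by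
    simp only [hs]; exact (hf (s n)).1⟩
  rcases lt_trichotomy m n with h' | h' | h'
  · exact absurd h (hne m n h')
  · exact h'
  · exact absurd h.symm (hne n m h')

theorem exists_iota (P : Finset ℕ) (hP : ∀ p ∈ P, p.Prime ∧ p % 4 = 1) :
    ∃ ι : ℤ, ∀ p ∈ P, (p : ℤ) ∣ ι ^ 2 + 1 := by
  have h1 : ∀ p : ℕ, ∃ a : ℕ, p ∈ P → ((a : ZMod p)) ^ 2 + 1 = 0 := by
    intro p
    by_cases hp : p ∈ P
    · have : Fact p.Prime := ⟨(hP p hp).1⟩
      obtain ⟨y, hy⟩ := ZMod.exists_sq_eq_neg_one_iff.2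
        (show p % 4 ≠ 3 by rw [(hP p hp).2]; norm_num)
      exact ⟨y.val, fun _ => by rw [ZMod.natCast_zmod_val, sq, ← hy, neg_add_cancel]⟩
    · exact ⟨0, fun h => absurd h hp⟩
  choose a ha using h1
  obtain ⟨k, hk⟩ := Nat.chineseRemainderOfFinset a id P (fun p hp => (hP p hp).1.ne_zero)
    (fun p hp q hq hpq => (Nat.coprime_primes (hP p hp).1 (hP q hq).1).2 hpq)
  refine ⟨k, fun p hp => ?_⟩
  rw [← ZMod.intCast_zmod_eq_zero_iff_dvd]
  push_cast
  rw [(ZMod.natCast_eq_natCast_iff _ _ _).2 (hk p hp)]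
  exact ha p hp

theorem small_of_dvd {z : GaussianInt} (hz : Irreducible z) {p : ℕ} (hp : p.Prime) {ι : ℤ}
    (h1 : (p : ℤ) ∣ ι ^ 2 + 1) (h2 : (p : ℤ) ∣ rho ι (z.re, z.im)) :
    |z.re| ≤ p ∧ |z.im| ≤ p := by
  have hn : z.norm = z.re * z.re + z.im * z.im := by rw [Zsqrtd.norm_def]; ring
  have h3 : (p : ℤ) ∣ z.norm := by
    have : z.norm = rho ι (z.re, z.im) * (z.re - ι * z.im) + (ι ^ 2 + 1) * z.im ^ 2 := by
      rw [hn, rho]; ring
    rw [this]
    exact dvd_add (h2.mul_right _) (h1.mul_right _)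
  obtain ⟨k, hk⟩ := h3
  have h4 : z * star z = (p : GaussianInt) * (k : GaussianInt) := by
    rw [← Zsqrtd.norm_eq_mul_conj, hk]; push_cast; rfl
  have h5 : z ∣ (p : GaussianInt) := by
    rcases hz.prime.dvd_or_dvd (Dvd.intro _ h4) with h | ⟨m, hm⟩
    · exact h
    · have h6 : star z = (p : GaussianInt) * m := by
        apply mul_left_cancel₀ hz.ne_zero
        rw [h4, hm]; ring
      have h7 : z = (p : GaussianInt) * star m := by
        have := congrArg star h6
        rwa [star_star, star_mul', star_natCast] at this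
      rcases hz.isUnit_or_isUnit h7 with h | h
      · exact absurd (Zsqrtd.norm_eq_one_iff' (by norm_num) _ |>.2 h) (by
          rw [Zsqrtd.norm_natCast]
          intro h8
          have : (p : ℤ) = 1 := Int.eq_one_of_mul_eq_one_right (by positivity) h8
          exact hp.one_lt.ne' (by exact_mod_cast this))
      · rw [h7]; exact (IsUnit.mul_right_dvd h).2 dvd_rfl
  have hp0 : (0 : ℤ) < p := by exact_mod_cast hp.pos
  have h6 : z.norm ≤ (p : ℤ) * p := by
    have := map_dvd Zsqrtd.normMonoidHom h5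
    simp only [Zsqrtd.normMonoidHom, MonoidHom.coe_mk, OneHom.coe_mk, Zsqrtd.norm_natCast] at this
    exact Int.le_of_dvd (by positivity) this
  rw [hn] at h6
  exact ⟨abs_le_of_sq_le_sq' (by nlinarith [mul_self_nonneg z.im]) hp0.le |> abs_le.2,
    abs_le_of_sq_le_sq' (by nlinarith [mul_self_nonneg z.re]) hp0.le |> abs_le.2⟩

theorem step_of_gdist {D : ℝ} {z w : GaussianInt} (h : gdist z w ≤ D) :
    |z.re - w.re| ≤ (⌈D⌉₊ : ℤ) ∧ |z.im - w.im| ≤ (⌈D⌉₊ : ℤ) := by
  have h1 := h.trans (Nat.le_ceil D)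
  unfold gdist at h1
  constructor
  · have := (Real.abs_le_sqrt (x := (z.re : ℝ) - w.re)
      (le_add_of_nonneg_right (sq_nonneg ((z.im : ℝ) - w.im)))).trans h1
    exact_mod_cast this
  · have := (Real.abs_le_sqrt (x := (z.im : ℝ) - w.im)
      (le_add_of_nonneg_left (sq_nonneg ((z.re : ℝ) - w.re)))).trans h1
    exact_mod_cast this

/-- one step of bounded length to an unsieved point -/
def rel (D : ℕ) (P : Finset ℕ) (ι : ℤ) (a b : ℤ × ℤ) : Prop :=
  (|b.1 - a.1| ≤ D ∧ |b.2 - a.2| ≤ D) ∧ ∀ p ∈ P, ¬ (p : ℤ) ∣ rho ι b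

theorem rel_shift {D : ℕ} {P : Finset ℕ} {ι : ℤ} {t : ℤ × ℤ}
    (ht : ∀ p ∈ P, (p : ℤ) ∣ rho ι t) {a b : ℤ × ℤ} (h : ReflTransGen (rel D P ι) a b) :
    ReflTransGen (rel D P ι) (a + t) (b + t) := by
  induction h with
  | refl => exact ReflTransGen.refl
  | @tail x y _ hxy ih =>
    refine ReflTransGen.tail ih ⟨by simpa using hxy.1, fun p hp hd => hxy.2 p hp ?_⟩
    have : rho ι (y + t) = rho ι y + rho ι t := by
      simp only [rho, Prod.fst_add, Prod.snd_add]; ring
    rw [this] at hd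
    exact (dvd_add_left (ht p hp)).1 hd

theorem comp_bound {D : ℕ} {P : Finset ℕ} {ι : ℤ} (hP : ∀ p ∈ P, p.Prime)
    (h : ∀ z : ℕ → ℤ × ℤ, IsPath D z → ∃ n, ∃ p ∈ P, (p : ℤ) ∣ rho ι (z n)) :
    ∃ B : ℕ, ∀ v, {w | ReflTransGen (rel D P ι) v w}.Finite ∧
      {w | ReflTransGen (rel D P ι) v w}.ncard ≤ B := by
  have hfin : ∀ v, {w | ReflTransGen (rel D P ι) v w}.Finite := by
    intro v
    by_contra hc
    obtain ⟨z, h1, h2⟩ := koenig (rel D P ι) (fun a => by
      refine ((Set.finite_Icc (a.1 - D) (a.1 + D)).prod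
        (Set.finite_Icc (a.2 - D) (a.2 + D))).subset fun b hb => ?_
      obtain ⟨⟨h1, h2⟩, _⟩ := hb
      rw [abs_le] at h1 h2
      exact ⟨⟨by omega, by omega⟩, by omega, by omega⟩) v hc
    obtain ⟨n, p, hp, hd⟩ := h (fun n => z (n + 1))
      ⟨fun m n hmn => Nat.succ_injective (h1 hmn), fun n => (h2 (n + 1)).1⟩
    exact (h2 n).2 p hp hd
  set M : ℤ := ∏ p ∈ P, (p : ℤ) with hM
  have hM0 : 0 < M := prod_pos fun p hp => by exact_mod_cast (hP p hp).pos
  refine ⟨(Ico 0 M ×ˢ Ico 0 M).sup fun v => {w | ReflTransGen (rel D P ι) v w}.ncard,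
    fun v => ⟨hfin v, ?_⟩⟩
  let t : ℤ × ℤ := (-(M * (v.1 / M)), -(M * (v.2 / M)))
  have ht : ∀ p ∈ P, (p : ℤ) ∣ rho ι t := by
    intro p hp
    have : (p : ℤ) ∣ M := dvd_prod_of_mem _ hp
    exact dvd_add (dvd_neg.2 (this.mul_right _)) ((dvd_neg.2 (this.mul_right _)).mul_left _)
  have hmem : v + t ∈ Ico 0 M ×ˢ Ico 0 M := by
    have e1 : (v + t).1 = v.1 % M := by rw [Int.emod_def]; rfl
    have e2 : (v + t).2 = v.2 % M := by rw [Int.emod_def]; rfl
    rw [mem_product, mem_Ico, mem_Ico, e1, e2]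
    exact ⟨⟨Int.emod_nonneg _ hM0.ne', Int.emod_lt_of_pos _ hM0⟩,
      Int.emod_nonneg _ hM0.ne', Int.emod_lt_of_pos _ hM0⟩
  refine le_trans ?_ (le_sup (f := fun v => {w | ReflTransGen (rel D P ι) v w}.ncard) hmem)
  exact Set.ncard_le_ncard_of_injOn (fun w => w + t) (fun w hw => rel_shift ht hw)
    (add_left_injective t).injOn (hfin _)

end Final

open Final in
theorem final_of (h : NoPathStmt) : FinalStmt := by
  intro D
  obtain ⟨P, hP, h⟩ := h ⌈D⌉₊
  obtain ⟨ι, hι⟩ := exists_iota P hP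
  obtain ⟨B, hB⟩ := comp_bound (fun p hp => (hP p hp).1) (h ι hι)
  let R : ℤ := ∑ p ∈ P, (p : ℤ)
  let E : Finset (ℤ × ℤ) := Icc (-R) R ×ˢ Icc (-R) R
  let φ : GaussianInt → ℤ × ℤ := fun z => (z.re, z.im)
  have hφ : Function.Injective φ := fun z w hzw =>
    Zsqrtd.ext (congrArg Prod.fst hzw) (congrArg Prod.snd hzw)
  let T : ℤ × ℤ → Finset (ℤ × ℤ) := fun v => (insert v E).biUnion fun e => (hB e).1.toFinset
  have hT : ∀ v, (T v).card ≤ (E.card + 1) * B := fun v =>
    le_trans (card_biUnion_le_card_mul _ _ B fun e _ => by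
      rw [← Set.ncard_eq_toFinset_card _ (hB e).1]; exact (hB e).2)
      (Nat.mul_le_mul_right _ (card_insert_le _ _))
  have hself : ∀ v, v ∈ T v := fun v =>
    mem_biUnion.2 ⟨v, mem_insert_self _ _, (Set.Finite.mem_toFinset _).2 ReflTransGen.refl⟩
  have hcl : ∀ v z w, φ z ∈ T v → Irreducible w → gdist w z ≤ D → φ w ∈ T v := by
    intro v z w hz hw hd
    by_cases hV : ∀ p ∈ P, ¬ (p : ℤ) ∣ rho ι (φ w)
    · obtain ⟨e, he, h1⟩ := mem_biUnion.1 hz
      exact mem_biUnion.2 ⟨e, he, (Set.Finite.mem_toFinset _).2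
        (ReflTransGen.tail ((Set.Finite.mem_toFinset _).1 h1) ⟨step_of_gdist hd, hV⟩)⟩
    · push Not at hV
      obtain ⟨p, hp, h1⟩ := hV
      have h2 := small_of_dvd hw (hP p hp).1 (hι p hp) h1
      have h3 : (p : ℤ) ≤ R := single_le_sum (f := fun p : ℕ => (p : ℤ))
        (fun _ _ => by positivity) hp
      refine mem_biUnion.2 ⟨φ w, mem_insert_of_mem ?_,
        (Set.Finite.mem_toFinset _).2 ReflTransGen.refl⟩
      exact mem_product.2 ⟨mem_Icc.2 (abs_le.1 (h2.1.trans h3)),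
        mem_Icc.2 (abs_le.1 (h2.2.trans h3))⟩
  constructor
  · refine ⟨(E.card + 1) * B, fun c => ?_⟩
    induction c using SimpleGraph.ConnectedComponent.ind with
    | _ v =>
      have hsub : ∀ w ∈ ((moatGraph D).connectedComponentMk v).supp, φ w.1 ∈ (T (φ v.1) : Set _) := by
        intro w hw
        rw [SimpleGraph.ConnectedComponent.mem_supp_iff, SimpleGraph.ConnectedComponent.eq,
          SimpleGraph.reachable_comm, SimpleGraph.reachable_iff_reflTransGen] at hw
        induction hw with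
        | refl => exact hself _
        | tail _ hbc ih => exact hcl _ _ _ ih (Subtype.property _) hbc.symm.2
      have hinj : Set.InjOn (fun w : {z : GaussianInt // Irreducible z} => φ w.1)
          ((moatGraph D).connectedComponentMk v).supp :=
        fun a _ b _ hab => Subtype.ext (hφ hab)
      refine ⟨Set.Finite.of_injOn hsub hinj (finite_toSet _), le_trans ?_ (hT (φ v.1))⟩
      rw [← Set.ncard_coe_finset]
      exact Set.ncard_le_ncard_of_injOn _ hsub hinj (finite_toSet _)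
  · rintro ⟨z, h1, h2, h3⟩
    have hall : ∀ n, φ (z n) ∈ T (φ (z 0)) := by
      intro n
      induction n with
      | zero => exact hself _
      | succ n ih => exact hcl _ _ _ ih (h2 _) (h3 n)
    exact Set.infinite_of_injective_forall_mem (hφ.comp h1) hall (finite_toSet _)

end Vale.Agent.P015
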