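import Mathlib

/-! The graph of the Gaussian moat problem. -/

namespace Vale.Agent.P015

/-- Euclidean distance between two Gaussian integers. -/
noncomputable def gdist (z w : GaussianInt) : ℝ :=
  Real.sqrt (((z.re : ℝ) - (w.re : ℝ)) ^ 2 + ((z.im : ℝ) - (w.im : ℝ)) ^ 2)

/-- The graph `G_D`: vertices are the Gaussian primes (irreducible elements), and distinct
vertices are adjacent when their Euclidean distance is at most `D`. -/
def moatGraph (D : ℝ) : SimpleGraph {z : GaussianInt // Irreducible z} where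
  Adj z w := z ≠ w ∧ gdist z.1 w.1 ≤ D
  symm := ⟨fun z w h => ⟨h.1.symm, by
    have h2 := h.2
    unfold gdist at h2 ⊢
    rw [← neg_sub (z.1.re : ℝ), ← neg_sub (z.1.im : ℝ), neg_sq, neg_sq]
    exact h2⟩⟩
  loopless := ⟨fun _ h => h.1 rfl⟩

end Vale.Agent.P015
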