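import Vale.Agent.P015.Geo
import Vale.Agent.P015.Graph

/-! The final statement, as a proposition. -/

namespace Vale.Agent.P015

/-- Components of `G_D` are finite of uniformly bounded size, and there is no infinite sequence of
distinct Gaussian primes with bounded steps. -/
def FinalStmt : Prop :=
  ∀ D : ℝ, (∃ B : ℕ, ∀ c : (moatGraph D).ConnectedComponent, c.supp.Finite ∧ c.supp.ncard ≤ B) ∧
    ¬ ∃ z : ℕ → GaussianInt, Function.Injective z ∧ (∀ n, Irreducible (z n)) ∧
      ∀ n, gdist (z (n + 1)) (z n) ≤ D

end Vale.Agent.P015
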