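import Mathlib

/-! Basic definitions and the statements of the geometric and arithmetic ingredients. -/

namespace Vale.Agent.P015

open Finset

/-- The additive map `(x, y) ↦ x + ι y`. -/
def rho (ι : ℤ) (v : ℤ × ℤ) : ℤ := v.1 + ι * v.2

/-- Scalar product. -/
def dot (v u : ℤ × ℤ) : ℤ := v.1 * u.1 + v.2 * u.2

/-- Determinant. -/
def det (u v : ℤ × ℤ) : ℤ := u.1 * v.2 - u.2 * v.1

/-- Consecutive points are at sup-distance at most `D`. -/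
def Steps (D : ℕ) (z : ℕ → ℤ × ℤ) : Prop :=
  ∀ n, |(z (n + 1)).1 - (z n).1| ≤ D ∧ |(z (n + 1)).2 - (z n).2| ≤ D

/-- An injective sequence with steps at most `D`. -/
structure IsPath (D : ℕ) (z : ℕ → ℤ × ℤ) : Prop where
  inj : Function.Injective z
  steps : Steps D z

/-- Lattice points of the rectangle `|dot g u| ≤ A`, `|det u g| ≤ B`. -/
noncomputable def Kset (u : ℤ × ℤ) (A B : ℕ) : Finset (ℤ × ℤ) :=
  ((Icc (-((A : ℤ) + B)) (A + B)) ×ˢ (Icc (-((A : ℤ) + B)) (A + B))).filter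
    fun g => |dot g u| ≤ A ∧ |det u g| ≤ B

lemma mem_Kset {u : ℤ × ℤ} (hu : u ≠ 0) {A B : ℕ} {g : ℤ × ℤ} :
    g ∈ Kset u A B ↔ |dot g u| ≤ A ∧ |det u g| ≤ B := by
  simp only [Kset, mem_filter, mem_product, mem_Icc, ← abs_le, and_iff_right_iff_imp]
  rintro ⟨h1, h2⟩
  obtain ⟨a, b⟩ := u
  obtain ⟨x, y⟩ := g
  simp only [dot, det] at h1 h2 ⊢
  have hN : 0 < a ^ 2 + b ^ 2 := by
    by_contra h
    have ha : a = 0 := by nlinarith [sq_nonneg a, sq_nonneg b]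
    have hb : b = 0 := by nlinarith [sq_nonneg a, sq_nonneg b]
    exact hu (by simp [ha, hb])
  have ha : |a| ≤ a ^ 2 + b ^ 2 := by
    have := Int.le_self_sq |a|
    rw [sq_abs] at this
    nlinarith [sq_nonneg b]
  have hb : |b| ≤ a ^ 2 + b ^ 2 := by
    have := Int.le_self_sq |b|
    rw [sq_abs] at this
    nlinarith [sq_nonneg a]
  have hA : (0 : ℤ) ≤ A := by positivity
  have hB : (0 : ℤ) ≤ B := by positivity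
  have key : ∀ w p q s t : ℤ, (a ^ 2 + b ^ 2) * w = p * s + q * t → |p| ≤ A → |q| ≤ B →
      |s| ≤ a ^ 2 + b ^ 2 → |t| ≤ a ^ 2 + b ^ 2 → |w| ≤ A + B := by
    intro w p q s t h hp hq hs ht
    have h3 : (a ^ 2 + b ^ 2) * |w| ≤ (a ^ 2 + b ^ 2) * (A + B) := by
      calc (a ^ 2 + b ^ 2) * |w| = |(a ^ 2 + b ^ 2) * w| := by rw [abs_mul, abs_of_pos hN]
        _ ≤ |p| * |s| + |q| * |t| := by
          rw [h, ← abs_mul, ← abs_mul]; exact abs_add_le _ _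
        _ ≤ A * (a ^ 2 + b ^ 2) + B * (a ^ 2 + b ^ 2) := by gcongr
        _ = _ := by ring
    exact le_of_mul_le_mul_left h3 hN
  exact ⟨key x (x * a + y * b) (a * y - b * x) a (-b) (by ring) h1 h2 ha (by rwa [abs_neg]),
    key y (x * a + y * b) (a * y - b * x) b a (by ring) h1 h2 hb ha⟩

/-- Crossing lemma: two bounded-step curves with independent displacements. -/
def CrossStmt : Prop :=
  ∀ (D : ℕ) (γ₁ γ₂ : ℕ → ℤ × ℤ) (S₁ S₂ : ℕ), Steps D γ₁ → Steps D γ₂ →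
    det (γ₁ S₁ - γ₁ 0) (γ₂ S₂ - γ₂ 0) ≠ 0 → ∀ g : ℤ × ℤ, ∃ s ≤ S₁, ∃ t ≤ S₂, ∃ a b : ℤ,
      |(γ₁ s - γ₂ t - g - a • (γ₁ S₁ - γ₁ 0) - b • (γ₂ S₂ - γ₂ 0)).1| ≤ 2 * D ∧
      |(γ₁ s - γ₂ t - g - a • (γ₁ S₁ - γ₁ 0) - b • (γ₂ S₂ - γ₂ 0)).2| ≤ 2 * D

/-- Differences of points of a path cover a rectangle up to boundedly many translations. -/
def CoverStmt : Prop :=
  ∀ D : ℕ, ∃ C : ℕ, ∀ (x : ℕ → ℤ × ℤ) (T : ℕ), IsPath D x → 1 ≤ T →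
    ∃ (u : ℤ × ℤ) (A B : ℕ) (F : Finset (ℤ × ℤ)), u ≠ 0 ∧ (A : ℤ) = dot u u ∧ B ≤ A ∧
      A ≤ 2 * D ^ 2 * T ^ 2 ∧ T < (Kset u A B).card ∧ F.card ≤ C ∧
      ∀ g ∈ Kset u A B, ∃ s ≤ T, ∃ t ≤ T, x s - x t - g ∈ F

/-- Equidistribution of the lattice points of a rectangle modulo most moduli. -/
def LatticeStmt : Prop :=
  ∀ (u : ℤ × ℤ) (A B : ℕ) (ι : ℤ), u ≠ 0 → ∃ τ : ℕ, 1 ≤ τ ∧
    (τ = 1 ∨ ∃ v ∈ Kset u (2 * A) (2 * B), (τ : ℤ) = dot v v) ∧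
    ∀ m : ℕ, 0 < m → m ^ 2 < (Kset u A B).card → (m : ℤ) ∣ ι ^ 2 + 1 → Nat.Coprime m τ →
      ∀ r : ℤ, m * ((Kset u A B).filter fun g => (m : ℤ) ∣ rho ι g - r).card
        ≤ 169 * (Kset u A B).card

/-- A random pair of times whose displacement is equidistributed modulo most moduli. -/
def PieceStmt : Prop :=
  ∀ D : ℕ, ∃ C : ℕ, 1 ≤ C ∧ ∀ (ι : ℤ) (x : ℕ → ℤ × ℤ) (T Q : ℕ), IsPath D x → 1 ≤ T →
    (4 * D * T + 1) ^ 2 ≤ Q → ∃ (s₁ s₂ : Fin Q → ℕ) (τ : ℕ),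
      (∀ s, s₁ s ≤ T ∧ s₂ s ≤ T) ∧ 1 ≤ τ ∧ τ ≤ 16 * D ^ 2 * T ^ 2 ∧
      ∀ m : ℕ, 0 < m → m ^ 2 ≤ T → (m : ℤ) ∣ ι ^ 2 + 1 → Nat.Coprime m τ → ∀ r : ℤ,
        m * (univ.filter fun s : Fin Q => (m : ℤ) ∣ rho ι (x (s₁ s) - x (s₂ s)) - r).card ≤ C * Q

/-- Supply of primes congruent to one modulo four in dyadic intervals. -/
def PrimeStmt : Prop :=
  ∃ e₀ : ℕ, ∀ e, e₀ ≤ e →
    2 ^ e ≤ 4 * e * ((Ioc (2 ^ e) (2 ^ (e + 1))).filter fun p => p.Prime ∧ p % 4 = 1).card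

/-- The main sieve statement. -/
def NoPathStmt : Prop :=
  ∀ D : ℕ, ∃ P : Finset ℕ, (∀ p ∈ P, p.Prime ∧ p % 4 = 1) ∧
    ∀ ι : ℤ, (∀ p ∈ P, (p : ℤ) ∣ ι ^ 2 + 1) → ∀ z : ℕ → ℤ × ℤ, IsPath D z →
      ∃ n, ∃ p ∈ P, (p : ℤ) ∣ rho ι (z n)

end Vale.Agent.P015
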