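import Vale.Agent.P015.Geo

/-! Equidistribution of the lattice points of a rectangle modulo most moduli. -/

namespace Vale.Agent.P015

open Finset

lemma lat_dot_add (v w u : ℤ × ℤ) : dot (v + w) u = dot v u + dot w u := by
  simp only [dot, Prod.fst_add, Prod.snd_add]; ring

lemma lat_det_add (u v w : ℤ × ℤ) : det u (v + w) = det u v + det u w := by
  simp only [det, Prod.fst_add, Prod.snd_add]; ring

lemma lat_dot_sub (v w u : ℤ × ℤ) : dot (v - w) u = dot v u - dot w u := by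
  simp only [dot, Prod.fst_sub, Prod.snd_sub]; ring

lemma lat_det_sub (u v w : ℤ × ℤ) : det u (v - w) = det u v - det u w := by
  simp only [det, Prod.fst_sub, Prod.snd_sub]; ring

lemma lat_rho_add (ι : ℤ) (v w : ℤ × ℤ) : rho ι (v + w) = rho ι v + rho ι w := by
  simp only [rho, Prod.fst_add, Prod.snd_add]; ring

lemma lat_rho_sub (ι : ℤ) (v w : ℤ × ℤ) : rho ι (v - w) = rho ι v - rho ι w := by
  simp only [rho, Prod.fst_sub, Prod.snd_sub]; ring

lemma lat_div_close {a b : ℤ} {A : ℕ} (h : a / ((A : ℤ) + 1) = b / ((A : ℤ) + 1)) :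
    |a - b| ≤ A := by
  have hA : (0 : ℤ) < (A : ℤ) + 1 := by positivity
  have h1 := Int.mul_ediv_add_emod a ((A : ℤ) + 1)
  have h2 := Int.mul_ediv_add_emod b ((A : ℤ) + 1)
  have h3 := Int.emod_nonneg a hA.ne'
  have h4 := Int.emod_nonneg b hA.ne'
  have h5 := Int.emod_lt_of_pos a hA
  have h6 := Int.emod_lt_of_pos b hA
  rw [h] at h1
  rw [abs_le]
  constructor <;> linarith

lemma lat_div_mem {a : ℤ} {A : ℕ} (h : |a| ≤ ((6 * A : ℕ) : ℤ)) :
    a / ((A : ℤ) + 1) ∈ Icc (-6 : ℤ) 6 := by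
  have hA : (0 : ℤ) < (A : ℤ) + 1 := by positivity
  rw [abs_le] at h
  push_cast at h
  rw [mem_Icc]
  constructor
  · rw [Int.le_ediv_iff_mul_le hA]; linarith
  · apply Int.ediv_le_of_le_mul hA; linarith

lemma lat_card_six {u : ℤ × ℤ} (hu : u ≠ 0) (A B : ℕ) :
    (Kset u (6 * A) (6 * B)).card ≤ 169 * (Kset u A B).card := by
  have key := Finset.card_le_mul_card_image_of_maps_to
    (s := Kset u (6 * A) (6 * B)) (t := Icc (-6 : ℤ) 6 ×ˢ Icc (-6 : ℤ) 6)
    (f := fun z => (dot z u / ((A : ℤ) + 1), det u z / ((B : ℤ) + 1)))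
    (by
      intro z hz
      rw [mem_Kset hu] at hz
      exact mem_product.2 ⟨lat_div_mem hz.1, lat_div_mem hz.2⟩)
    (Kset u A B).card
    (by
      intro b _
      rcases (((Kset u (6 * A) (6 * B))).filter fun z =>
        (dot z u / ((A : ℤ) + 1), det u z / ((B : ℤ) + 1)) = b).eq_empty_or_nonempty with h | ⟨z0, hz0⟩
      · rw [h]; simp
      · apply Finset.card_le_card_of_injOn (fun z => z - z0)
        · intro z hz
          rw [mem_coe, mem_filter] at hz
          rw [mem_filter] at hz0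
          have h := hz.2.trans hz0.2.symm
          rw [Prod.mk.injEq] at h
          rw [mem_coe, mem_Kset hu, lat_dot_sub, lat_det_sub]
          exact ⟨lat_div_close h.1, lat_div_close h.2⟩
        · intro z _ z' _ h
          exact sub_left_injective h)
  have hc : (Icc (-6 : ℤ) 6 ×ˢ Icc (-6 : ℤ) 6).card = 169 := by
    rw [card_product, Int.card_Icc]; rfl
  rw [hc] at key
  linarith

/-- A full system of residues inside the four times larger rectangle gives the bound. -/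
lemma lat_count {u : ℤ × ℤ} (hu : u ≠ 0) (A B : ℕ) (ι : ℤ) (m : ℕ) (s : ℕ → ℤ × ℤ)
    (hs : ∀ i < m, s i ∈ Kset u (4 * A) (4 * B))
    (hinj : ∀ i < m, ∀ j < m, (m : ℤ) ∣ rho ι (s i) - rho ι (s j) → i = j) (r : ℤ) :
    m * ((Kset u A B).filter fun g => (m : ℤ) ∣ rho ι g - r).card
      ≤ 169 * (Kset u A B).card := by
  refine le_trans ?_ (lat_card_six hu A B)
  have : m * ((Kset u A B).filter fun g => (m : ℤ) ∣ rho ι g - r).card
      = (range m ×ˢ ((Kset u A B).filter fun g => (m : ℤ) ∣ rho ι g - r)).card := by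
    rw [card_product, card_range]
  rw [this]
  apply Finset.card_le_card_of_injOn (fun p => s p.1 + p.2)
  · rintro ⟨i, g⟩ hp
    rw [mem_coe, mem_product, mem_range, mem_filter, mem_Kset hu] at hp
    have h1 := hs i hp.1
    rw [mem_Kset hu] at h1
    rw [mem_coe, mem_Kset hu, lat_dot_add, lat_det_add]
    obtain ⟨_, ⟨h2, h3⟩, _⟩ := hp
    obtain ⟨h4, h5⟩ := h1
    push_cast at h4 h5 ⊢
    have hA : (0 : ℤ) ≤ A := by positivity
    have hB : (0 : ℤ) ≤ B := by positivity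
    constructor
    · exact (abs_add_le _ _).trans (by linarith)
    · exact (abs_add_le _ _).trans (by linarith)
  · rintro ⟨i, g⟩ hp ⟨j, g'⟩ hq h
    rw [mem_coe, mem_product, mem_range, mem_filter] at hp hq
    simp only at h hp hq
    have h1 : rho ι (s i) + rho ι g = rho ι (s j) + rho ι g' := by
      rw [← lat_rho_add, ← lat_rho_add, h]
    have h2 : (m : ℤ) ∣ rho ι (s i) - rho ι (s j) := by
      have := dvd_sub hq.2.2 hp.2.2
      have e : rho ι g' - r - (rho ι g - r) = rho ι (s i) - rho ι (s j) := by linarith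
      rwa [e] at this
    have h3 := hinj i hp.1 j hq.1 h2
    subst h3
    have h4 : g = g' := add_left_cancel h
    rw [h4]

lemma lat_nat_inj {m i j : ℕ} (hi : i < m) (hj : j < m) (h : (m : ℤ) ∣ (i : ℤ) - j) : i = j := by
  have := Int.eq_zero_of_dvd_of_natAbs_lt_natAbs h (by omega)
  omega

/-- Pigeonhole. -/
lemma lat_pigeon {u : ℤ × ℤ} (hu : u ≠ 0) (A B : ℕ) (ι : ℤ) (n : ℕ) (hn : 0 < n)
    (h : n < (Kset u A B).card) :
    ∃ v ∈ Kset u (2 * A) (2 * B), v ≠ 0 ∧ (n : ℤ) ∣ rho ι v := by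
  have hn' : (0 : ℤ) < n := by exact_mod_cast hn
  obtain ⟨x, hx, y, hy, hxy, he⟩ := Finset.exists_ne_map_eq_of_card_lt_of_maps_to
    (s := Kset u A B) (t := Ico (0 : ℤ) n) (f := fun g => rho ι g % n)
    (by simpa using h)
    (by
      intro g _
      rw [mem_coe, mem_Ico]
      exact ⟨Int.emod_nonneg _ hn'.ne', Int.emod_lt_of_pos _ hn'⟩)
  refine ⟨x - y, ?_, sub_ne_zero.2 hxy, ?_⟩
  · rw [mem_Kset hu] at hx hy ⊢
    rw [lat_dot_sub, lat_det_sub]
    push_cast
    constructor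
    · exact (abs_sub _ _).trans (by linarith [hx.1, hy.1])
    · exact (abs_sub _ _).trans (by linarith [hx.2, hy.2])
  · rw [lat_rho_sub]
    exact Int.dvd_of_emod_eq_zero (Int.emod_emod_of_dvd _ dvd_rfl ▸
      (Int.emod_eq_emod_iff_emod_sub_eq_zero.1 he))

lemma lat_red {δ a b p q w : ℤ} {C : ℤ} (hδ : δ ≠ 0) (hp : |p| ≤ C) (hq : |q| ≤ C)
    (h : δ * w = a * p + b * q) : |w - a / δ * p - b / δ * q| ≤ 2 * C := by
  have h1 := Int.mul_ediv_add_emod a δ
  have h2 := Int.mul_ediv_add_emod b δ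
  have h3 := Int.emod_nonneg a hδ
  have h4 := Int.emod_nonneg b hδ
  have h5 := Int.emod_lt_abs a hδ
  have h6 := Int.emod_lt_abs b hδ
  have hpos : 0 < |δ| := abs_pos.2 hδ
  have hC : 0 ≤ C := (abs_nonneg _).trans hp
  have e : δ * (w - a / δ * p - b / δ * q) = a % δ * p + b % δ * q := by
    have e1 : a % δ = a - δ * (a / δ) := by linarith
    have e2 : b % δ = b - δ * (b / δ) := by linarith
    rw [e1, e2]; linear_combination h
  have h7 : |δ| * |w - a / δ * p - b / δ * q| ≤ |δ| * (2 * C) := by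
    rw [← abs_mul, e]
    calc |a % δ * p + b % δ * q| ≤ |a % δ * p| + |b % δ * q| := abs_add_le _ _
      _ = a % δ * |p| + b % δ * |q| := by rw [abs_mul, abs_mul, abs_of_nonneg h3, abs_of_nonneg h4]
      _ ≤ |δ| * C + |δ| * C := by gcongr
      _ = _ := by ring
  exact le_of_mul_le_mul_left h7 hpos

/-- The case of two independent short lattice vectors. -/
lemma lat_good {u : ℤ × ℤ} (hu : u ≠ 0) (A B : ℕ) (ι : ℤ) (m : ℕ) (v₁ v₂ : ℤ × ℤ)
    (h₁ : v₁ ∈ Kset u (2 * A) (2 * B)) (h₂ : v₂ ∈ Kset u (2 * A) (2 * B))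
    (d₁ : (m : ℤ) ∣ rho ι v₁) (d₂ : (m : ℤ) ∣ rho ι v₂) (hd : det v₁ v₂ ≠ 0) (r : ℤ) :
    m * ((Kset u A B).filter fun g => (m : ℤ) ∣ rho ι g - r).card
      ≤ 169 * (Kset u A B).card := by
  have key : ∀ w : ℤ × ℤ, ∃ w' ∈ Kset u (4 * A) (4 * B), (m : ℤ) ∣ rho ι w' - rho ι w := by
    intro w
    refine ⟨w - (det w v₂ / det v₁ v₂) • v₁ - (det v₁ w / det v₁ v₂) • v₂, ?_, ?_⟩
    · rw [mem_Kset hu] at h₁ h₂ ⊢
      have e1 : dot (w - (det w v₂ / det v₁ v₂) • v₁ - (det v₁ w / det v₁ v₂) • v₂) u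
          = dot w u - det w v₂ / det v₁ v₂ * dot v₁ u - det v₁ w / det v₁ v₂ * dot v₂ u := by
        simp only [dot, Prod.fst_sub, Prod.snd_sub, Prod.smul_fst, Prod.smul_snd, smul_eq_mul]; ring
      have e2 : det u (w - (det w v₂ / det v₁ v₂) • v₁ - (det v₁ w / det v₁ v₂) • v₂)
          = det u w - det w v₂ / det v₁ v₂ * det u v₁ - det v₁ w / det v₁ v₂ * det u v₂ := by
        generalize det w v₂ / det v₁ v₂ = a
        generalize det v₁ w / det v₁ v₂ = b
        simp only [det, Prod.fst_sub, Prod.snd_sub, Prod.smul_fst, Prod.smul_snd, smul_eq_mul]; ring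
      rw [e1, e2]
      constructor
      · refine (lat_red hd h₁.1 h₂.1 ?_).trans (by push_cast; linarith)
        simp only [dot, det]; ring
      · refine (lat_red hd h₁.2 h₂.2 ?_).trans (by push_cast; linarith)
        simp only [det]; ring
    · generalize det w v₂ / det v₁ v₂ = a
      generalize det v₁ w / det v₁ v₂ = b
      have e : rho ι (w - a • v₁ - b • v₂) - rho ι w = -a * rho ι v₁ + -b * rho ι v₂ := by
        simp only [rho, Prod.fst_sub, Prod.snd_sub, Prod.smul_fst, Prod.smul_snd, smul_eq_mul]; ring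
      rw [e]
      exact dvd_add (d₁.mul_left _) (d₂.mul_left _)
  choose f hf hf' using key
  refine lat_count hu A B ι m (fun i => f ((i : ℤ), 0)) (fun i _ => hf _) ?_ r
  intro i hi j hj h
  apply lat_nat_inj hi hj
  have h1 := hf' ((i : ℤ), 0)
  have h2 := hf' ((j : ℤ), 0)
  have h3 := dvd_add (dvd_sub h h1) h2
  have e : rho ι (f ((i : ℤ), 0)) - rho ι (f ((j : ℤ), 0))
      - (rho ι (f ((i : ℤ), 0)) - rho ι ((i : ℤ), 0))
      + (rho ι (f ((j : ℤ), 0)) - rho ι ((j : ℤ), 0)) = (i : ℤ) - j := by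
    have a1 : rho ι ((i : ℤ), 0) = i := by simp [rho]
    have a2 : rho ι ((j : ℤ), 0) = j := by simp [rho]
    rw [a1, a2]; ring
  rwa [e] at h3

lemma lat_smul_mem {u : ℤ × ℤ} (hu : u ≠ 0) {A B : ℕ} {v : ℤ × ℤ} {i j : ℤ} (hij : |i| ≤ |j|)
    (h : j • v ∈ Kset u A B) : i • v ∈ Kset u A B := by
  rw [mem_Kset hu] at h ⊢
  have e1 : ∀ k : ℤ, dot (k • v) u = k * dot v u := by
    intro k; simp only [dot, Prod.smul_fst, Prod.smul_snd, smul_eq_mul]; ring
  have e2 : ∀ k : ℤ, det u (k • v) = k * det u v := by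
    intro k; simp only [det, Prod.smul_fst, Prod.smul_snd, smul_eq_mul]; ring
  rw [e1, e2, abs_mul, abs_mul] at h ⊢
  exact ⟨le_trans (by gcongr) h.1, le_trans (by gcongr) h.2⟩

lemma lat_mono {u : ℤ × ℤ} (hu : u ≠ 0) {A B A' B' : ℕ} (hA : A ≤ A') (hB : B ≤ B') {v : ℤ × ℤ}
    (h : v ∈ Kset u A B) : v ∈ Kset u A' B' := by
  rw [mem_Kset hu] at h ⊢
  exact ⟨h.1.trans (by exact_mod_cast hA), h.2.trans (by exact_mod_cast hB)⟩

/-- Every nonzero vector is a positive multiple of a primitive vector. -/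
lemma lat_prim (v : ℤ × ℤ) (hv : v ≠ 0) :
    ∃ (k : ℤ) (v₀ : ℤ × ℤ) (a b : ℤ), 0 < k ∧ v = k • v₀ ∧ a * v₀.1 + b * v₀.2 = 1 := by
  obtain ⟨x, y⟩ := v
  have hg : 0 < Int.gcd x y := by
    rw [Int.gcd_pos_iff]
    by_contra h
    push Not at h
    exact hv (by simp [h.1, h.2])
  obtain ⟨x', y', hc, hx, hy⟩ := Int.exists_gcd_one hg
  obtain ⟨a, b, hab⟩ := Int.isCoprime_iff_gcd_eq_one.2 hc
  refine ⟨Int.gcd x y, (x', y'), a, b, by exact_mod_cast hg, ?_, hab⟩
  ext
  · simp only [Prod.smul_fst, smul_eq_mul]; linarith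
  · simp only [Prod.smul_snd, smul_eq_mul]; linarith

theorem lattice : LatticeStmt := by
  intro u A B ι hu
  by_cases hbad : ∃ m₁ : ℕ, 0 < m₁ ∧ m₁ ^ 2 < (Kset u A B).card ∧
      ∀ v₁ ∈ Kset u (2 * A) (2 * B), ∀ v₂ ∈ Kset u (2 * A) (2 * B),
        (m₁ : ℤ) ∣ rho ι v₁ → (m₁ : ℤ) ∣ rho ι v₂ → det v₁ v₂ = 0
  · obtain ⟨m₁, hm₁, hm₁', hb⟩ := hbad
    obtain ⟨v₁, hv₁, hv₁0, hd₁⟩ := lat_pigeon hu A B ι m₁ hm₁ (by nlinarith)
    obtain ⟨k, v₀, a, b, hk, hv, hab⟩ := lat_prim v₁ hv₁0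
    have hv₀ : v₀ ∈ Kset u (2 * A) (2 * B) := by
      have := lat_smul_mem hu (v := v₀) (i := 1) (j := k)
        (by rw [abs_one, abs_of_pos hk]; omega) (hv ▸ hv₁)
      rwa [one_smul] at this
    have hpos : 0 < dot v₀ v₀ := by
      by_contra h
      simp only [dot] at h
      have h1 : v₀.1 = 0 := by nlinarith [sq_nonneg v₀.1, sq_nonneg v₀.2]
      have h2 : v₀.2 = 0 := by nlinarith [sq_nonneg v₀.1, sq_nonneg v₀.2]
      rw [h1, h2] at hab
      simp at hab
    have hτ : (((dot v₀ v₀).toNat : ℕ) : ℤ) = dot v₀ v₀ := Int.toNat_of_nonneg hpos.le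
    refine ⟨(dot v₀ v₀).toNat, by omega, Or.inr ⟨v₀, hv₀, hτ⟩, ?_⟩
    intro m hm hm' hι hcop r
    have hmm : m * m₁ < (Kset u A B).card := by nlinarith [sq_nonneg ((m : ℤ) - m₁)]
    obtain ⟨v, hv2, hv0, hd⟩ := lat_pigeon hu A B ι (m * m₁) (by positivity) hmm
    push_cast at hd
    have hdet := hb v₁ hv₁ v hv2 hd₁ (dvd_of_mul_left_dvd hd)
    have hdet0 : v₀.1 * v.2 - v₀.2 * v.1 = 0 := by
      rw [hv] at hdet
      simp only [det, Prod.smul_fst, Prod.smul_snd, smul_eq_mul] at hdet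
      have : k * (v₀.1 * v.2 - v₀.2 * v.1) = 0 := by linarith
      exact (mul_eq_zero.1 this).resolve_left hk.ne'
    have hj : v = (a * v.1 + b * v.2) • v₀ := by
      ext
      · simp only [Prod.smul_fst, smul_eq_mul]
        linear_combination (-v.1) * hab - b * hdet0
      · simp only [Prod.smul_snd, smul_eq_mul]
        linear_combination (-v.2) * hab + a * hdet0
    set j := a * v.1 + b * v.2 with hjdef
    have hcop' : IsCoprime (m : ℤ) (rho ι v₀) := by
      have h1 : IsCoprime (m : ℤ) (dot v₀ v₀) := by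
        rw [← hτ]; exact Nat.isCoprime_iff_coprime.2 hcop
      obtain ⟨c, hc⟩ := hι
      have e : dot v₀ v₀ = rho ι v₀ * (v₀.1 - ι * v₀.2) + (m : ℤ) * (c * v₀.2 ^ 2) := by
        simp only [dot, rho]
        linear_combination (v₀.2 ^ 2) * hc
      rw [e] at h1
      exact (IsCoprime.of_add_mul_left_right h1).of_mul_right_left
    have hrho : ∀ i : ℤ, rho ι (i • v₀) = i * rho ι v₀ := by
      intro i; simp only [rho, Prod.smul_fst, Prod.smul_snd, smul_eq_mul]; ring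
    have hmj : (m : ℤ) ∣ j := by
      have h1 : (m : ℤ) ∣ rho ι v := dvd_of_mul_right_dvd hd
      rw [hj, hrho] at h1
      exact hcop'.dvd_of_dvd_mul_right h1
    have hj0 : j ≠ 0 := by
      intro h
      rw [h, zero_smul] at hj
      exact hv0 hj
    have hjm : (m : ℤ) ≤ |j| := Int.le_of_dvd (abs_pos.2 hj0) ((dvd_abs _ _).2 hmj)
    refine lat_count hu A B ι m (fun i => (i : ℤ) • v₀) ?_ ?_ r
    · intro i hi
      refine lat_mono hu (by omega) (by omega) (lat_smul_mem hu (j := j) ?_ (hj ▸ hv2))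
      rw [abs_of_nonneg (by positivity)]
      omega
    · intro i hi i' hi' h
      apply lat_nat_inj hi hi'
      rw [hrho, hrho, ← sub_mul] at h
      exact hcop'.dvd_of_dvd_mul_right h
  · refine ⟨1, le_rfl, Or.inl rfl, ?_⟩
    intro m hm hm' _ _ r
    push Not at hbad
    obtain ⟨v₁, h₁, v₂, h₂, d₁, d₂, hd⟩ := hbad m hm hm'
    exact lat_good hu A B ι m v₁ v₂ h₁ h₂ d₁ d₂ hd r

end Vale.Agent.P015
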