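import Vale.Agent.P015.Core

/-! Assembly of the entropy argument. -/

namespace Vale.Agent.P015

open Finset
open scoped BigOperators

lemma chain_T (E W : ℕ → Move) (i : ℕ) :
    (chain E W i).T = ∑ i' ∈ range i, ((E i').T + (W i').T) := by
  induction i with
  | zero => simp [chain, Move.shift]
  | succ i ih =>
    rw [sum_range_succ, ← ih]
    simp only [chain, Move.comp]; ring

lemma law_chain_succ {Ω : Type} [Fintype Ω] (E W : ℕ → Move) (O : Move) (i : ℕ) (a : Ω → ℕ) :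
    Law (((chain E W (i + 1)).comp O).app a)
      (((chain E W i).comp O).app ((W i).app ((E i).app a))) := by
  refine (law_app_comp _ _ _).trans (Law.trans (Law.app ?_ O) (law_app_comp _ _ _).symm)
  exact (law_app_comp _ _ _).trans (law_app_comp _ _ _)

lemma law_comp_assoc {Ω : Type} [Fintype Ω] (A B C : Move) (a : Ω → ℕ) :
    Law (((A.comp B).comp C).app a) ((A.comp (B.comp C)).app a) :=
  ((law_app_comp _ _ _).trans ((law_app_comp A B a).app C)).trans
    ((law_app_comp _ _ _).trans (law_app_comp _ _ _)).symm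

/-- Rank of an element in a finite set. -/
def rk (P : Finset ℕ) (p : ℕ) : ℕ := (P.filter fun q => q < p).card

lemma rk_lt {P : Finset ℕ} {p : ℕ} (hp : p ∈ P) : rk P p < P.card :=
  card_lt_card (filter_ssubset.2 ⟨p, hp, lt_irrefl p⟩)

lemma rk_lt_rk {P : Finset ℕ} {p q : ℕ} (hp : p ∈ P) (h : p < q) : rk P p < rk P q := by
  refine card_lt_card ⟨fun x hx => ?_, fun h' => ?_⟩
  · exact mem_filter.2 ⟨(mem_filter.1 hx).1, (mem_filter.1 hx).2.trans h⟩
  · exact lt_irrefl p (mem_filter.1 (h' (mem_filter.2 ⟨hp, h⟩))).2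

lemma rk_inj {P : Finset ℕ} {p q : ℕ} (hp : p ∈ P) (hq : q ∈ P) (h : rk P p = rk P q) : p = q := by
  rcases lt_trichotomy p q with h' | h' | h'
  · exact absurd h (rk_lt_rk hp h').ne
  · exact h'
  · exact absurd h (rk_lt_rk hq h').ne'

lemma card_image_rk (P : Finset ℕ) (k : ℕ) :
    ((P.image fun p => rk P p / k).card : ℝ) ≤ (P.card : ℝ) / k + 1 := by
  have h : (P.image fun p => rk P p / k) ⊆ range (P.card / k + 1) := by
    intro j hj
    obtain ⟨p, hp, rfl⟩ := mem_image.1 hj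
    exact mem_range.2 (Nat.lt_succ_of_le (Nat.div_le_div_right (rk_lt hp).le))
  have h2 := card_le_card h
  rw [card_range] at h2
  calc ((P.image fun p => rk P p / k).card : ℝ) ≤ ((P.card / k + 1 : ℕ) : ℝ) := by exact_mod_cast h2
    _ ≤ _ := by push_cast; gcongr; exact Nat.cast_div_le

lemma card_blk_le (P : Finset ℕ) {k : ℕ} (hk : 0 < k) (j : ℕ) :
    (blk P (fun p => rk P p / k) j).card ≤ k := by
  refine le_trans (card_le_card_of_injOn (t := range k) (fun p => rk P p % k)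
    (fun p _ => mem_coe.2 (mem_range.2 (Nat.mod_lt _ hk))) fun p hp q hq h => ?_) (by simp)
  obtain ⟨hp1, hp2⟩ := mem_filter.1 (mem_coe.1 hp)
  obtain ⟨hq1, hq2⟩ := mem_filter.1 (mem_coe.1 hq)
  refine rk_inj hp1 hq1 ?_
  simp only at hp2 hq2
  rw [← Nat.div_add_mod (rk P p) k, ← Nat.div_add_mod (rk P q) k, hp2, hq2]
  exact congrArg _ h

lemma sum_log_le {ι : ℤ} {N : ℕ} {P : Finset ℕ} (hP : PSet ι N P) :
    ∑ p ∈ P, Real.log p ≤ P.card * Real.log (2 * N) := by
  rw [← nsmul_eq_mul]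
  refine sum_le_card_nsmul _ _ _ fun p hp => Real.log_le_log ?_ ?_
  · exact_mod_cast (hP p hp).1.pos
  · exact_mod_cast (hP p hp).2.2.2

/-- The deficiency after the chain of enrichment moves. -/
lemma dfc_chain {D : ℕ} {ι : ℤ} {z : ℕ → ℤ × ℤ} (hz : IsPath D z) {c : ℝ} (hc : 0 ≤ c)
    (E W : ℕ → Move) (hE : ∀ i, Enr D ι (fun n => rho ι (z n)) c (E i)) {N : ℕ} {P : Finset ℕ}
    (hN : 0 < N) (hP : PSet ι N P) (k : ℕ → ℕ) (hk : ∀ i, 0 < k i) {δ : ℝ} (hδ : 0 ≤ δ) (i₀ : ℕ) (O : Move)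
    (h0 : ((P.card : ℝ) / k i₀ + 1) * (2 * lg D ((chain E W i₀).T + O.T)) ≤ δ) (t : ℕ)
    (h : ∀ i, i₀ ≤ i → i < i₀ + t → (2 * N) ^ (2 * k i) ≤ (E i).T ∧ k i ∣ k (i + 1) ∧
      ((P.card : ℝ) / k (i + 1) + 1) * (6 * lg D (E i).T) + ((P.card : ℝ) / k i + 1) * c
        + 2 * lg D (E i).T + ((P.card : ℝ) / k i + 1) * (4 * lg D (W i).T) ≤ 2 * δ) :
    ∀ (Ω : Type) [Fintype Ω] [Nonempty Ω] (a : Ω → ℕ),
      dfc (fun n => rho ι (z n)) P (fun p => rk P p / k i₀) (((chain E W (i₀ + t)).comp O).app a)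
        ≤ dfc (fun n => rho ι (z n)) P (fun p => rk P p / k (i₀ + t)) a / 2 ^ t + (t + 1) * δ := by
  induction t with
  | zero =>
    intro Ω _ _ a
    have h1 := dfc_app_le hz.steps ι P (fun p => rk P p / k i₀) a ((chain E W i₀).comp O)
    have h2 := card_image_rk P (k i₀)
    have h3 := lg_nonneg D ((chain E W i₀).T + O.T)
    have h4 : ((P.image fun p => rk P p / k i₀).card : ℝ) * (2 * lg D ((chain E W i₀).comp O).T)
        ≤ δ := le_trans (by simp only [Move.comp]; gcongr) h0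
    simp only [add_zero, pow_zero, div_one, Nat.cast_zero, zero_add, one_mul]
    exact h1.trans (by linarith)
  | succ t ih =>
    intro Ω _ _ a
    rw [← add_assoc, (law_chain_succ E W O (i₀ + t) a).dfc_eq]
    refine (ih (fun i h1 h2 => h i h1 (by omega)) _ _).trans ?_
    obtain ⟨h1, ⟨q, hq⟩, h3⟩ := h (i₀ + t) (by omega) (by omega)
    set i := i₀ + t
    have h4 := dfc_app_le hz.steps ι P (fun p => rk P p / k i) ((E i).app a) (W i)
    have h5 := hE i Ω a P (fun p => rk P p / k (i + 1)) (fun p => rk P p / k i)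
      (fun p hp => ⟨(hP p hp).1, (hP p hp).2.1⟩)
      (fun p _ p' _ h' => by
        simp only [hq, ← Nat.div_div_eq_div_mul] at h' ⊢
        rw [h'])
      (fun j => by
        refine le_trans ?_ h1
        rw [mul_comm 2 (k i), pow_mul]
        refine Nat.pow_le_pow_left ?_ 2
        refine (prod_le_pow_card _ _ (2 * N) fun p hp => (hP p (mem_filter.1 hp).1).2.2.2).trans ?_
        exact Nat.pow_le_pow_right (by omega) (card_blk_le P (hk i) j))
    have h6 := card_image_rk P (k i)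
    have h7 := card_image_rk P (k (i + 1))
    have h8 := lg_nonneg D (E i).T
    have h9 := lg_nonneg D (W i).T
    have h10 : ((P.image fun p => rk P p / k i).card : ℝ) * (2 * lg D (W i).T) ≤
        ((P.card : ℝ) / k i + 1) * (2 * lg D (W i).T) := by gcongr
    have h11 : ((P.image fun p => rk P p / k i).card : ℝ) * c ≤ ((P.card : ℝ) / k i + 1) * c := by
      gcongr
    have h12 : ((P.image fun p => rk P p / k (i + 1)).card : ℝ) * (6 * lg D (E i).T) ≤
        ((P.card : ℝ) / k (i + 1) + 1) * (6 * lg D (E i).T) := by gcongr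
    have h13 : dfc (fun n => rho ι (z n)) P (fun p => rk P p / k i) ((W i).app ((E i).app a)) ≤
        dfc (fun n => rho ι (z n)) P (fun p => rk P p / k (i + 1)) a / 2 + δ := by linarith
    have h14 : δ / 2 ^ t ≤ δ := div_le_self hδ (one_le_pow₀ (by norm_num))
    calc _ ≤ (dfc (fun n => rho ι (z n)) P (fun p => rk P p / k (i + 1)) a / 2 + δ) / 2 ^ t
          + (t + 1) * δ := by gcongr
      _ = dfc (fun n => rho ι (z n)) P (fun p => rk P p / k (i + 1)) a / 2 ^ (t + 1)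
          + δ / 2 ^ t + (t + 1) * δ := by ring
      _ ≤ _ := by push_cast; linarith

/-- One level of the entropy decrement. -/
lemma level_step (hT : TestStmt) (hD : DecrStmt) {D : ℕ} {ι : ℤ} {z : ℕ → ℤ × ℤ}
    (hz : IsPath D z) {c : ℝ} (hc : 0 ≤ c) (E W : ℕ → Move)
    (hE : ∀ i, Enr D ι (fun n => rho ι (z n)) c (E i)) {e₀ e₁ Θ : ℕ} {Te Tw L : ℕ → ℕ}
    (hET : ∀ i, (E i).T = Te i) (hTw : ∀ i, 0 < Tw i)
    (hW : ∀ i, W i = Move.shift (Tw i) 1 (hTw i))
    (hpr : ∀ e K, e₀ ≤ e → e ≤ e₁ → 0 < e → 4 * e * K ≤ 2 ^ e → ∃ P : Finset ℕ, P.card = K ∧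
      PSet ι (2 ^ e) P ∧ ∀ n, ∀ p ∈ P, ¬ (p : ℤ) ∣ rho ι (z n))
    {j : ℕ} {g G : ℝ} (hL : Level D c e₀ e₁ Θ Te Tw L j g) (hL0 : 0 < L j)
    (ih : ∀ (Ω : Type) [Fintype Ω] [Nonempty Ω] (a : Ω → ℕ) (O : Move), O.T + 2 * L j ≤ Θ →
      (ent fun x => Xb z (L j) (((chain E W j).comp O).app a x)) ≤ L j * G)
    (Ω : Type) [Fintype Ω] [Nonempty Ω] (a : Ω → ℕ) (O : Move) (hO : O.T + 2 * L (j + 1) ≤ Θ) :
    (ent fun x => Xb z (L (j + 1)) (((chain E W (j + 1)).comp O).app a x)) ≤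
      L (j + 1) * (G - g) := by
  obtain ⟨e, K, R, b, I, i₀, r, k, δ, rfl, he0, he1, he, hK, hR, hLR, hb, hI, hδ, hLN, hw, hL3, hk,
    hstep, h0, hbad, hcov, hgain⟩ := hL
  obtain ⟨P, rfl, hP, hav⟩ := hpr e K he0 he1 he hK
  have hR0 : 0 < R := by omega
  have hWT : ∀ i, (W i).T = Tw i := fun i => by rw [hW]; simp [Move.shift]
  have hch : ∀ i, (chain E W i).T = ∑ i' ∈ range i, (Te i' + Tw i') := fun i => by
    rw [chain_T]; simp only [hET, hWT]
  set j := i₀ + r with hj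
  set w : ℕ → ℤ := fun n => rho ι (z n) with hwdef
  set M := (chain E W j).comp O with hM
  set O' := O.comp (Move.shift R (L j) hR0) with hO'
  have hO'T : O'.T = O.T + R * L j := rfl
  have hO'1 : O'.T + 2 * L j ≤ Θ := by rw [hO'T]; nlinarith
  have hN : (0 : ℝ) < 2 ^ e := by positivity
  have hL0' : (0 : ℝ) < L j := by exact_mod_cast hL0
  have hθ : (0 : ℝ) < L j / (16 * 2 ^ e) := by positivity
  have hlog := sum_log_le hP
  have hB : ∀ n₀, ((P.filter fun p => b ^ 2 ≤ low w ((M.comp (Move.shift R (L j) hR0)).f n₀) (L j)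
      p (L j / (16 * 2 ^ e))).card : ℝ) ≤ (P.card : ℝ) / 64 := by
    intro n₀
    have hlaw : Law ((M.comp (Move.shift R (L j) hR0)).f n₀)
        (((chain E W j).comp O').app fun _ : Unit => n₀) :=
      (law_app_unit _ n₀).symm.trans (law_comp_assoc _ _ _ _)
    have h1 := hT D ι z hz _ ((M.comp (Move.shift R (L j) hR0)).f n₀) P (fun p => rk P p / k i₀)
      (2 ^ e) (L j) b (by positivity) hL0 hb hP hL3
    rw [hlaw.dfc_eq] at h1
    have h2 := dfc_chain hz hc E W hE (by positivity) hP k hk hδ i₀ O' (le_trans (by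
      have := lg_mono D (T := (chain E W i₀).T + O'.T) (T' := ∑ i ∈ range i₀, (Te i + Tw i) + Θ)
        (by rw [hch]; omega)
      gcongr) h0) r (fun i h1 h2 => by
        simpa only [hET, hWT] using hstep i h1 h2) Unit fun _ => n₀
    have h3 := dfc_le w P (fun p => rk P p / k (i₀ + r)) fun _ : Unit => n₀
    have h4 : dfc w P (fun p => rk P p / k (i₀ + r)) (fun _ : Unit => n₀) / 2 ^ r ≤
        P.card * Real.log (2 * 2 ^ e) / 2 ^ r := by
      gcongr
      exact h3.trans (by simpa using hlog)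
    have h5 := card_image_rk P (k i₀)
    have h6 := lg_nonneg D (L j)
    have h7 : ((P.image fun p => rk P p / k i₀).card : ℝ) * (4 * L j / b * lg D (L j)) ≤
      ((P.card : ℝ) / k i₀ + 1) * (4 * L j / b * lg D (L j)) := by gcongr
    push_cast at h1
    refine le_of_mul_le_mul_right (h1.trans (le_trans ?_ hbad)) hθ
    linarith
  have hwin := window_bound hz (fun p hp => ⟨(hP p hp).1, (hP p hp).2.1⟩) (hTw j)
    (hw.trans_le (pow_card_le_prod _ _ _ fun p hp => (hP p hp).2.2.1.le)) ((E j).app a)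
  rw [← hW] at hwin
  have hdec := hD D ι z hz.steps _ ((W j).app ((E j).app a)) M P (2 ^ e) (L j) R I (b ^ 2) hR0
    ((P.card : ℝ) / 64) (L j / (16 * 2 ^ e)) hP hav (by
      rw [div_le_one (by positivity)]
      have : (L j : ℝ) ≤ 2 ^ e := by exact_mod_cast hLN
      linarith) (by simpa using hcov) hB
  have h1 := ih _ ((W j).app ((E j).app a)) O' hO'1
  rw [← ((law_comp_assoc (chain E W j) O (Move.shift R (L j) hR0)
    ((W j).app ((E j).app a))).map (Xb z (L j))).ent_eq] at h1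
  rw [((law_chain_succ E W O j a).map (Xb z (L (j + 1)))).ent_eq, hLR]
  have h2 := lg_mono D (T := M.T + R * L j) (T' := ∑ i ∈ range j, (Te i + Tw i) + Θ) (by
    have : M.T = (chain E W j).T + O.T := rfl
    rw [this, hch]; omega)
  push_cast at hdec ⊢
  set X' := ent fun x => Xb z (L j) ((M.comp (Move.shift R (L j) hR0)).app
    ((W j).app ((E j).app a)) x)
  set X := ent fun x => Xb z (R * L j) (M.app ((W j).app ((E j).app a)) x)
  set l := lg D (M.T + R * L j)
  set l' := lg D (∑ i ∈ range j, (Te i + Tw i) + Θ)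
  set A := P.card * Real.log (2 * 2 ^ e)
  have hI' : (0 : ℝ) < I := by exact_mod_cast hI
  have hR' : (0 : ℝ) < R := by exact_mod_cast hR0
  have h3 : (A + I * (2 * l + L j * (2 * lg D 1)) + 2 * l) / R ≤
      (A + I * (2 * l' + L j * (2 * lg D 1)) + 2 * l') / R := by gcongr
  have h4 := le_of_mul_le_mul_left (hgain.trans (le_trans (by linarith) hdec)) hI'
  rw [sub_div] at h4
  have h5 : X / R ≤ L j * (G - g) := by linarith
  rw [div_le_iff₀ hR'] at h5
  linarith

theorem noPath_of (hE : EnrStmt) (hT : TestStmt) (hD : DecrStmt) (hP : ParamStmt)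
    (hpr : PrimeStmt) : NoPathStmt := by
  intro D
  obtain ⟨c, hc, hE⟩ := hE D
  obtain ⟨e₀, hpr⟩ := hpr
  obtain ⟨e₁, Θ, j₀, J, Te, Tw, L, g, hj, hT1, hL0, hΘ, hLev, hsum⟩ := hP D c e₀ hc
  refine ⟨(range (2 ^ (e₁ + 1) + 1)).filter fun p => p.Prime ∧ p % 4 = 1,
    fun p hp => (mem_filter.1 hp).2, fun ι hι z hz => ?_⟩
  by_contra hav
  push Not at hav
  choose E hET hE using fun i => hE ι z (Te i) hz (hT1 i).1
  let W : ℕ → Move := fun i => Move.shift (Tw i) 1 (hT1 i).2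
  have hpr' : ∀ e K, e₀ ≤ e → e ≤ e₁ → 0 < e → 4 * e * K ≤ 2 ^ e → ∃ P : Finset ℕ, P.card = K ∧
      PSet ι (2 ^ e) P ∧ ∀ n, ∀ p ∈ P, ¬ (p : ℤ) ∣ rho ι (z n) := by
    intro e K h0 h1 h2 h3
    obtain ⟨P, hP1, hP2⟩ := exists_subset_card_eq
      (Nat.le_of_mul_le_mul_left (h3.trans (hpr e h0)) (by positivity))
    have hmem : ∀ p ∈ P, p ∈ (range (2 ^ (e₁ + 1) + 1)).filter fun p => p.Prime ∧ p % 4 = 1 := by
      intro p hp
      obtain ⟨h4, h5⟩ := mem_filter.1 (hP1 hp)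
      refine mem_filter.2 ⟨mem_range.2 (Nat.lt_succ_of_le ((mem_Ioc.1 h4).2.trans ?_)), h5⟩
      exact Nat.pow_le_pow_right (by norm_num) (by omega)
    refine ⟨P, hP2, fun p hp => ?_, fun n p hp => hav n p (hmem p hp)⟩
    obtain ⟨h4, h5⟩ := mem_filter.1 (hP1 hp)
    exact ⟨h5.1, hι p (hmem p hp), (mem_Ioc.1 h4).1, by rw [← pow_succ']; exact (mem_Ioc.1 h4).2⟩
  have main : ∀ j, j₀ ≤ j → j ≤ J → 0 < L j ∧ ∀ (Ω : Type) [Fintype Ω] [Nonempty Ω] (a : Ω → ℕ)
      (O : Move), O.T + 2 * L j ≤ Θ → (ent fun x => Xb z (L j) (((chain E W j).comp O).app a x))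
        ≤ L j * (2 * lg D 1 - ∑ i ∈ Ico j₀ j, g i) := by
    intro j h1
    induction j, h1 using Nat.le_induction with
    | base => exact fun _ => ⟨hL0, fun Ω _ _ a O _ => by simpa using ent_Xb_le hz.steps _ _⟩
    | succ j h1 ih =>
      intro h2
      obtain ⟨h3, h4⟩ := ih (by omega)
      have h5 := hLev j h1 (by omega)
      refine ⟨?_, fun Ω _ _ a O hO => ?_⟩
      · obtain ⟨e, K, R, b, I, i₀, r, k, δ, -, -, -, -, -, hR, hLR, -⟩ := h5
        rw [hLR]; positivity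
      · rw [sum_Ico_succ_top h1, ← sub_sub]
        exact level_step hT hD hz hc E W hE hET (fun i => (hT1 i).2) (fun _ => rfl) hpr' h5 h3 h4
          Ω a O hO
  obtain ⟨h1, h2⟩ := main J hj le_rfl
  have h3 := h2 Unit (fun _ => 0) (Move.shift 1 0 Nat.one_pos) (by simpa [Move.shift] using hΘ)
  have h4 := (ent_nonneg _).trans h3
  have h5 : (0 : ℝ) < L J := by exact_mod_cast h1
  nlinarith

end Vale.Agent.P015
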