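import Vale.Agent.P015.Core

/-! Elementary inequalities for the choice of parameters. -/

namespace Vale.Agent.P015.Par

open Finset

lemma pw_le {a b : ℕ} (h : a ≤ b) : (2 : ℝ) ^ a ≤ 2 ^ b := pow_le_pow_right₀ one_le_two h

lemma pw_div {κ q a t : ℕ} {y : ℝ} (hy : y ≤ 2 ^ a) (h1 : κ + a ≤ t + q) :
    (2 : ℝ) ^ κ / 2 ^ q * y ≤ 2 ^ t := by
  have h2 : (2 : ℝ) ^ κ / 2 ^ q * y ≤ 2 ^ κ / 2 ^ q * 2 ^ a := by gcongr
  refine h2.trans ?_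
  rw [div_mul_eq_mul_div, div_le_iff₀ (by positivity), ← pow_add, ← pow_add]
  exact pw_le h1

lemma pw_key {κ q a t : ℕ} {y : ℝ} (hy : y ≤ 2 ^ a) (h1 : κ + a ≤ t + q) (h2 : a ≤ t) :
    ((2 : ℝ) ^ κ / 2 ^ q + 1) * y ≤ 2 * 2 ^ t := by
  have h3 := pw_div hy h1
  have h4 := hy.trans (pw_le h2)
  linarith

lemma pw_mul {a b t : ℕ} {x y : ℝ} (hx : x ≤ 2 ^ a) (hy : y ≤ 2 ^ b) (hy0 : 0 ≤ y)
    (h : a + b ≤ t) : x * y ≤ 2 ^ t := by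
  have h2 : x * y ≤ 2 ^ a * 2 ^ b := mul_le_mul hx hy hy0 (by positivity)
  rw [← pow_add] at h2
  exact h2.trans (pw_le h)

lemma pw_add {a b t : ℕ} {x y : ℝ} (hx : x ≤ 2 ^ a) (hy : y ≤ 2 ^ b) (ha : a + 1 ≤ t)
    (hb : b + 1 ≤ t) : x + y ≤ 2 ^ t := by
  have h1 := pw_le ha
  have h2 := pw_le hb
  rw [pow_succ] at h1 h2
  linarith

lemma pw_nat {x a : ℕ} (h : x ≤ 2 ^ a) : (x : ℝ) ≤ 2 ^ a := by exact_mod_cast h

lemma log_two_le : Real.log 2 ≤ 1 := by have := Real.log_two_lt_d9; linarith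

lemma log_two_ge : 1 / 2 ≤ Real.log 2 := by have := Real.log_two_gt_d9; linarith

lemma lg_le (D : ℕ) {T x : ℕ} (h : T ≤ 2 ^ x) : lg D T ≤ lg D 1 + x := by
  refine (lg_mono D h).trans ?_
  unfold lg
  have h1 : (1 : ℝ) ≤ 2 ^ x := one_le_pow₀ one_le_two
  have h2 : Real.log (4 * D * ((2 ^ x : ℕ) : ℝ) + 1) ≤
      Real.log ((4 * D * ((1 : ℕ) : ℝ) + 1) * 2 ^ x) := by
    refine Real.log_le_log (by positivity) ?_
    push_cast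
    linarith
  refine h2.trans ?_
  rw [Real.log_mul (by positivity) (by positivity), Real.log_pow]
  have h3 : (x : ℝ) * Real.log 2 ≤ x := mul_le_of_le_one_right (by positivity) log_two_le
  linarith

lemma lg_le' (D : ℕ) {T a μ : ℕ} (hd : lg D 1 ≤ 2 ^ μ) (h : T ≤ 2 ^ 2 ^ a) (ha : μ ≤ a) :
    lg D T ≤ 2 ^ (a + 1) :=
  (lg_le D h).trans (pw_add hd (pw_nat le_rfl) (by omega) le_rfl)

lemma log_two_mul (e : ℕ) : Real.log (2 * 2 ^ e) = (e + 1) * Real.log 2 := by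
  rw [← pow_succ', Real.log_pow]; push_cast; ring

lemma log_two_mul_le {e s : ℕ} (h : e < 2 ^ s) : Real.log (2 * 2 ^ e) ≤ 2 ^ s := by
  rw [log_two_mul]
  have h1 : ((e + 1 : ℕ) : ℝ) ≤ 2 ^ s := pw_nat h
  push_cast at h1
  exact (mul_le_of_le_one_right (by positivity) log_two_le).trans h1

lemma cond9 {κ q q' η ε μ t : ℕ} {x y c : ℝ} (hx : x ≤ 2 ^ (η + 1)) (hy : y ≤ 2 ^ (ε + 1))
    (hc : c ≤ 2 ^ μ) (h1 : κ + η + 4 ≤ t + q') (h2 : η + 4 ≤ t) (h3 : κ + μ ≤ t + q)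
    (h4 : μ ≤ t) (h5 : κ + ε + 3 ≤ t + q) (h6 : ε + 3 ≤ t) :
    ((2 : ℝ) ^ κ / 2 ^ q' + 1) * (6 * x) + (2 ^ κ / 2 ^ q + 1) * c + 2 * x
      + (2 ^ κ / 2 ^ q + 1) * (4 * y) ≤ 2 * 2 ^ (t + 3) := by
  have e1 : (2 : ℝ) ^ (η + 4) = 8 * 2 ^ (η + 1) := by ring
  have e2 : (2 : ℝ) ^ (ε + 3) = 4 * 2 ^ (ε + 1) := by ring
  have e3 : (2 : ℝ) ^ (t + 3) = 8 * 2 ^ t := by ring
  have p1 : (0 : ℝ) < 2 ^ (η + 1) := by positivity
  have p2 : (0 : ℝ) < 2 ^ t := by positivity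
  have a1 := pw_key (κ := κ) (q := q') (a := η + 4) (t := t) (y := 6 * x) (by linarith)
    (by omega) h2
  have a2 := pw_key (κ := κ) (q := q) hc h3 h4
  have a3 := pw_key (κ := κ) (q := q) (a := ε + 3) (t := t) (y := 4 * y) (by linarith)
    (by omega) h6
  have a4 := pw_le h2
  linarith

lemma cond11 {e s m κ l f q t w : ℕ} {x : ℝ} (hx : x ≤ 2 ^ (2 * m + 1))
    (hes : e < 2 ^ s) (hκ : e = κ + s + 2) (hl : e = l + s + 16) (hw : e = w + 2 * s + 32)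
    (ht : e = t + s + 4 * m + 5) (hm : 6 * m + 1 ≤ 2 ^ m) (hs : s ≤ 2 * m) (hm' : 30 ≤ m)
    (hf : s + 2 * m + 19 ≤ f) (hfl : f ≤ l) (hq : e + 2 * m + 17 ≤ q + f) :
    3 * ((2 : ℝ) ^ κ * Real.log (2 * 2 ^ e) / 2 ^ (6 * m) + (((6 * m : ℕ) : ℝ) + 1) * 2 ^ (t + 3)
        + (2 ^ κ / 2 ^ q + 1) * (4 * 2 ^ l / 2 ^ f * x)) + 4 * (2 ^ l) ^ 2 / 2 ^ e
      ≤ (2 : ℝ) ^ κ / 64 * (2 ^ l / (16 * 2 ^ e)) := by
  have a1 : (2 : ℝ) ^ κ * Real.log (2 * 2 ^ e) / 2 ^ (6 * m) ≤ 2 ^ w := by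
    rw [mul_div_right_comm]
    exact pw_div (log_two_mul_le hes) (by omega)
  have a2 : (((6 * m : ℕ) : ℝ) + 1) * 2 ^ (t + 3) ≤ 2 ^ w := by
    refine pw_mul (a := m) (b := t + 3) ?_ le_rfl (by positivity) (by omega)
    exact_mod_cast hm
  obtain ⟨a, ha⟩ : ∃ a, l = a + f := ⟨l - f, by omega⟩
  have a3 : (4 : ℝ) * 2 ^ l / 2 ^ f * x ≤ 2 ^ (a + 2 * m + 3) := by
    have : (4 : ℝ) * 2 ^ l = 2 ^ (l + 2) := by ring
    rw [this]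
    exact pw_div hx (by omega)
  have a4 := pw_key (κ := κ) (q := q) (t := w) a3 (by omega) (by omega)
  have a5 : (4 : ℝ) * (2 ^ l) ^ 2 / 2 ^ e = 4 * 2 ^ w := by
    rw [div_eq_iff (by positivity), mul_assoc, ← pow_add, ← pow_mul]
    congr 2; omega
  have a6 : (2 : ℝ) ^ κ / 64 * (2 ^ l / (16 * 2 ^ e)) = 16 * 2 ^ w := by
    have h1 : (2 : ℝ) ^ κ * 2 ^ l = 2 ^ 14 * (2 ^ w * 2 ^ e) := by
      rw [← pow_add, ← pow_add, ← pow_add]; congr 1; omega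
    rw [div_mul_div_comm, div_eq_iff (by positivity), h1]; ring
  rw [a5, a6]
  linarith

lemma cond12 {e s l : ℕ} (hl : e = l + s + 16) :
    2 * 2 ^ e * (1 - (2 : ℝ) ^ l / (16 * 2 ^ e)) ^ ((e + 1) * 2 ^ (s + 20)) ≤ 1 := by
  have h1 : (2 : ℝ) ^ l / (16 * 2 ^ e) = 1 / 2 ^ (s + 20) := by
    rw [div_eq_div_iff (by positivity) (by positivity), ← pow_add, hl]; ring
  rw [h1]
  have h2 : (0 : ℝ) ≤ 1 - 1 / 2 ^ (s + 20) := by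
    rw [sub_nonneg, div_le_one (by positivity)]
    exact one_le_pow₀ one_le_two
  have h3 : (1 - 1 / 2 ^ (s + 20) : ℝ) ≤ Real.exp (-(1 / 2 ^ (s + 20))) := by
    have := Real.add_one_le_exp (-(1 / 2 ^ (s + 20) : ℝ))
    linarith
  have h4 : (1 - 1 / 2 ^ (s + 20) : ℝ) ^ 2 ^ (s + 20) ≤ 1 / 2 := by
    refine (pow_le_pow_left₀ h2 h3 _).trans ?_
    rw [← Real.exp_nat_mul]
    have h5 : ((2 ^ (s + 20) : ℕ) : ℝ) * -(1 / 2 ^ (s + 20)) = -1 := by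
      push_cast; field_simp
    rw [h5, Real.exp_neg, inv_eq_one_div]
    have := Real.add_one_le_exp 1
    exact one_div_le_one_div_of_le two_pos (by linarith)
  rw [mul_comm (e + 1), pow_mul]
  have h5 := pow_le_pow_left₀ (pow_nonneg h2 _) h4 (e + 1)
  have h6 : (2 : ℝ) * 2 ^ e * (1 / 2) ^ (e + 1) = 1 := by
    rw [← pow_succ', ← mul_pow]; norm_num
  calc _ ≤ (2 : ℝ) * 2 ^ e * (1 / 2) ^ (e + 1) := by gcongr
    _ = 1 := h6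

lemma cond13 {e s m κ l f w η ρ : ℕ} {Λ d : ℝ} (hΛ0 : 0 ≤ Λ) (hΛ : Λ ≤ 2 ^ (η + 1))
    (hd0 : 0 ≤ d) (hd : d ≤ 2 ^ m) (hes : e < 2 ^ s) (hse : 2 ^ s ≤ 2 * e) (hκ : e = κ + s + 2)
    (hl : e = l + s + 16) (hw : e = w + 2 * s + 32) (hf : e = 8 * f) (hs : s ≤ 2 * m)
    (hm : 30 ≤ m) (hη : η + 16 * m ≤ e) (hρ : 30 * m ≤ ρ) :
    (((e + 1) * 2 ^ (s + 20) : ℕ) : ℝ) * (2 * Λ + (2 ^ κ * Real.log (2 * 2 ^ e)
        + (((e + 1) * 2 ^ (s + 20) : ℕ) : ℝ) * (2 * Λ + 2 ^ l * (2 * d)) + 2 * Λ) / 2 ^ ρ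
        + 2 ^ l * (1 / (2 ^ 14 * e)))
      ≤ Real.log ((2 ^ (3 * f * 2 ^ κ) : ℕ) : ℝ)
        - (2 ^ κ * Real.log ((2 ^ f) ^ 2 + 1) + (2 : ℝ) ^ κ / 64 * Real.log (2 * 2 ^ e)) := by
  have he0 : (0 : ℝ) < e := by exact_mod_cast (show 0 < e by omega)
  have hI : (((e + 1) * 2 ^ (s + 20) : ℕ) : ℝ) ≤ 2 ^ (2 * s + 20) := by
    refine pw_nat ?_
    calc (e + 1) * 2 ^ (s + 20) ≤ 2 ^ s * 2 ^ (s + 20) := Nat.mul_le_mul_right _ hes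
      _ = 2 ^ (2 * s + 20) := by ring
  have b1 : 2 * Λ ≤ 2 ^ (η + 2) := by rw [pow_succ]; linarith
  have b2 : 2 * d ≤ 2 ^ (m + 1) := by rw [pow_succ]; linarith
  have b3 : (2 : ℝ) ^ l * (2 * d) ≤ 2 ^ (e + m + 1) :=
    pw_mul le_rfl b2 (by positivity) (by omega)
  have b4 : 2 * Λ + 2 ^ l * (2 * d) ≤ 2 ^ (e + m + 2) := pw_add b1 b3 (by omega) (by omega)
  have b5 := pw_mul (t := e + 5 * m + 22) hI b4 (by positivity) (by omega)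
  have b6 : (2 : ℝ) ^ κ * Real.log (2 * 2 ^ e) ≤ 2 ^ e :=
    pw_mul le_rfl (log_two_mul_le hes) (by rw [log_two_mul]; have := log_two_ge; positivity)
      (by omega)
  have b7 := pw_add (t := e + 5 * m + 24) (pw_add (t := e + 5 * m + 23) b6 b5 (by omega) (by omega))
    b1 (by omega) (by omega)
  have b8 : (2 ^ κ * Real.log (2 * 2 ^ e)
        + (((e + 1) * 2 ^ (s + 20) : ℕ) : ℝ) * (2 * Λ + 2 ^ l * (2 * d)) + 2 * Λ) / 2 ^ ρ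
        ≤ 2 ^ w := by
    rw [div_le_iff₀ (by positivity), ← pow_add]
    exact b7.trans (pw_le (by omega))
  have b9 : 2 * Λ ≤ 2 ^ w := b1.trans (pw_le (by omega))
  have b10 : (2 : ℝ) ^ l * (1 / (2 ^ 14 * e)) ≤ 8 * 2 ^ w := by
    rw [mul_one_div, div_le_iff₀ (by positivity)]
    have h1 : (2 : ℝ) ^ s ≤ 2 * e := by exact_mod_cast hse
    have h2 : (2 : ℝ) ^ l = 2 ^ 16 * 2 ^ w * 2 ^ s := by
      rw [← pow_add, ← pow_add]; congr 1; omega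
    calc (2 : ℝ) ^ l = 2 ^ 16 * 2 ^ w * 2 ^ s := h2
      _ ≤ 2 ^ 16 * 2 ^ w * (2 * e) := by gcongr
      _ = 8 * 2 ^ w * (2 ^ 14 * e) := by ring
  have p1 : (0 : ℝ) < 2 ^ w := by positivity
  have c1 : (((e + 1) * 2 ^ (s + 20) : ℕ) : ℝ) * (16 * 2 ^ w) = 2 ^ κ * ((e + 1) / 64) := by
    have h1 : (2 : ℝ) ^ κ = 2 ^ 30 * 2 ^ s * 2 ^ w := by
      rw [← pow_add, ← pow_add]; congr 1; omega
    rw [h1]; push_cast; ring
  have c2 : Real.log ((2 ^ f) ^ 2 + 1) ≤ (2 * f + 1) * Real.log 2 := by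
    have h1 : (1 : ℝ) ≤ (2 ^ f) ^ 2 := one_le_pow₀ (one_le_pow₀ one_le_two)
    have h2 : ((2 : ℝ) ^ f) ^ 2 + 1 ≤ 2 * 2 ^ (2 * f) := by rw [mul_comm 2 f, pow_mul]; linarith
    refine (Real.log_le_log (by positivity) h2).trans ?_
    rw [log_two_mul]; push_cast; exact le_rfl
  have c3 : Real.log ((2 ^ (3 * f * 2 ^ κ) : ℕ) : ℝ) = 2 ^ κ * (3 * f * Real.log 2) := by
    push_cast; rw [Real.log_pow]; push_cast; ring
  have c4 : (e : ℝ) = 8 * f := by exact_mod_cast hf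
  have c5 : (30 : ℝ) ≤ f := by exact_mod_cast (show 30 ≤ f by omega)
  have c6 : ((e : ℝ) + 1) / 64 ≤
      3 * f * Real.log 2 - ((2 * f + 1) * Real.log 2 + 1 / 64 * ((e + 1) * Real.log 2)) := by
    have h1 : 3 * f * Real.log 2 - ((2 * f + 1) * Real.log 2 + 1 / 64 * ((e + 1) * Real.log 2))
        = (7 / 8 * f - 65 / 64) * Real.log 2 := by rw [c4]; ring
    have h2 : (7 / 8 * f - 65 / 64 : ℝ) * (1 / 2) ≤ (7 / 8 * f - 65 / 64) * Real.log 2 :=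
      mul_le_mul_of_nonneg_left log_two_ge (by linarith)
    rw [h1, c4]
    linarith
  have p2 : (0 : ℝ) < 2 ^ κ := by positivity
  calc _ ≤ (((e + 1) * 2 ^ (s + 20) : ℕ) : ℝ) * (16 * 2 ^ w) :=
        mul_le_mul_of_nonneg_left (by linarith) (by positivity)
    _ = 2 ^ κ * ((e + 1) / 64) := c1
    _ ≤ 2 ^ κ * (3 * f * Real.log 2
        - ((2 * f + 1) * Real.log 2 + 1 / 64 * ((e + 1) * Real.log 2))) := by gcongr
    _ ≤ _ := by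
      rw [c3, log_two_mul]
      have := mul_le_mul_of_nonneg_left c2 p2.le
      linarith

end Vale.Agent.P015.Par
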