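import Vale.Agent.P015.Core
import Vale.Agent.P015.ParamAux

/-! Existence of the numerical parameters. -/

namespace Vale.Agent.P015.Par

open Finset

/-- exponent of the size of the primes at level `j` -/
def pe (j : ℕ) : ℕ := 32 * j * j.size

/-- exponent of the number of primes at level `j` -/
def pκ (j : ℕ) : ℕ := pe j - (pe j).size - 2

/-- exponent of the block length at level `j` -/
def pLam (j : ℕ) : ℕ := pe j - (pe j).size - 16

/-- double exponent of the enrichment time -/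
def pη (j : ℕ) : ℕ := pe j + 16 * j.size

/-- window time -/
def pTw (j : ℕ) : ℕ := 2 ^ (3 * (4 * j * j.size) * 2 ^ pκ j)

/-- enrichment time -/
def pTe (j : ℕ) : ℕ := 2 ^ 2 ^ pη j

lemma size_le_self (n : ℕ) : n.size ≤ n := Nat.size_le.mpr Nat.lt_two_pow_self

lemma pe_succ (i : ℕ) : pe i + 32 * (i + 1).size ≤ pe (i + 1) := by
  unfold pe
  have h : i.size ≤ (i + 1).size := Nat.size_le_size (Nat.le_succ i)
  nlinarith

lemma pη_succ (i : ℕ) : pη i + 32 * (i + 1).size ≤ pη (i + 1) := by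
  unfold pη
  have h : i.size ≤ (i + 1).size := Nat.size_le_size (Nat.le_succ i)
  have := pe_succ i
  omega

lemma pe_mono : Monotone pe := monotone_nat_of_le_succ fun i => by have := pe_succ i; omega

lemma pη_mono : Monotone pη := monotone_nat_of_le_succ fun i => by have := pη_succ i; omega

lemma pη_le {i j : ℕ} (h : i < j) : pη i + 16 * j.size ≤ pe j := by
  obtain ⟨n, rfl⟩ : ∃ n, j = n + 1 := ⟨j - 1, by omega⟩
  have h1 : pη i ≤ pη n := pη_mono (by omega)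
  have h2 := pe_succ n
  have h3 : n.size ≤ (n + 1).size := Nat.size_le_size (Nat.le_succ n)
  unfold pη at *
  omega

lemma le_pe (i : ℕ) : i ≤ pe i := by
  unfold pe
  rcases Nat.eq_zero_or_pos i with rfl | h
  · simp
  · have : 0 < i.size := Nat.size_pos.mpr h
    nlinarith

lemma pTw_le (i : ℕ) : pTw i ≤ 2 ^ 2 ^ pe i := by
  unfold pTw
  refine Nat.pow_le_pow_right (by norm_num) ?_
  have h1 : pe i < 2 ^ (pe i).size := Nat.lt_size_self _
  have h2 := size_le_self (pe i)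
  have h3 : 3 * (4 * i * i.size) ≤ pe i := by unfold pe; nlinarith
  calc 3 * (4 * i * i.size) * 2 ^ pκ i ≤ 2 ^ (pe i).size * 2 ^ pκ i :=
        Nat.mul_le_mul_right _ (by omega)
    _ = 2 ^ ((pe i).size + pκ i) := by rw [pow_add]
    _ ≤ 2 ^ pe i := Nat.pow_le_pow_right (by norm_num) (by unfold pκ; omega)

lemma two_pow_pow_le {a b : ℕ} (h : a ≤ b) : 2 ^ 2 ^ a ≤ 2 ^ 2 ^ b :=
  Nat.pow_le_pow_right (by norm_num) (Nat.pow_le_pow_right (by norm_num) h)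

lemma sum_T_le {n m μ Θ : ℕ} (hn : n + 1 ≤ 2 ^ m) (hΘ : Θ ≤ 2 ^ 2 ^ μ) (hμ : μ ≤ pη n) :
    ∑ i ∈ range (n + 1), (pTe i + pTw i) + Θ ≤ 2 ^ (m + 2 + 2 ^ pη n) := by
  have h1 : ∑ i ∈ range (n + 1), (pTe i + pTw i) ≤ (range (n + 1)).card • (2 * 2 ^ 2 ^ pη n) := by
    refine sum_le_card_nsmul _ _ _ fun i hi => ?_
    have h2 : pη i ≤ pη n := pη_mono (by have := mem_range.mp hi; omega)
    have h3 : pTe i ≤ 2 ^ 2 ^ pη n := two_pow_pow_le h2
    have h4 : pTw i ≤ 2 ^ 2 ^ pη n :=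
      (pTw_le i).trans (two_pow_pow_le (le_trans (by unfold pη; omega) h2))
    omega
  rw [card_range, smul_eq_mul] at h1
  have h2 : Θ ≤ 2 ^ 2 ^ pη n := hΘ.trans (two_pow_pow_le hμ)
  have h3 : (n + 1) * (2 * 2 ^ 2 ^ pη n) ≤ 2 ^ m * (2 * 2 ^ 2 ^ pη n) := Nat.mul_le_mul_right _ hn
  have h4 : 1 * 2 ^ 2 ^ pη n ≤ 2 ^ m * 2 ^ 2 ^ pη n :=
    Nat.mul_le_mul_right _ Nat.one_le_two_pow
  have h5 : 2 ^ (m + 2 + 2 ^ pη n) = 4 * (2 ^ m * 2 ^ 2 ^ pη n) := by ring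
  have h6 : 2 ^ m * (2 * 2 ^ 2 ^ pη n) = 2 * (2 ^ m * 2 ^ 2 ^ pη n) := by ring
  omega

lemma lg_sum_le (D : ℕ) {n m μ Θ : ℕ} (hd : lg D 1 ≤ 2 ^ m) (hn : n + 1 ≤ 2 ^ m)
    (hΘ : Θ ≤ 2 ^ 2 ^ μ) (hμ : μ ≤ pη n) (hm : m + 2 ≤ 2 ^ m) (hm' : m + 1 ≤ pη n) :
    lg D (∑ i ∈ range (n + 1), (pTe i + pTw i) + Θ) ≤ 2 ^ (pη n + 1) := by
  refine (lg_le D (sum_T_le hn hΘ hμ)).trans ?_
  rw [Nat.cast_add, ← add_assoc]
  exact pw_add (pw_add hd (pw_nat hm) le_rfl le_rfl) (pw_nat le_rfl) (by omega) le_rfl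

lemma big_pow (n : ℕ) (hn : 40 ≤ n) : 200 * (n + 2) ≤ 2 ^ n := by
  induction n, hn using Nat.le_induction with
  | base => norm_num
  | succ n _ ih => rw [pow_succ]; omega

lemma size_pe_le {j : ℕ} (h : 32 * j.size ≤ 2 ^ j.size) : (pe j).size ≤ 2 * j.size := by
  rw [Nat.size_le, two_mul, pow_add]
  have h1 : j < 2 ^ j.size := Nat.lt_size_self j
  have h2 : pe j = j * (32 * j.size) := by unfold pe; ring
  rw [h2]
  exact Nat.mul_lt_mul_of_lt_of_le h1 h (by positivity)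

lemma two_pow_size_le {e : ℕ} (h : 0 < e) : 2 ^ e.size ≤ 2 * e := by
  obtain ⟨a, ha⟩ : ∃ a, e.size = a + 1 := ⟨e.size - 1, by have := Nat.size_pos.mpr h; omega⟩
  have : 2 ^ a ≤ e := Nat.lt_size.mp (by omega)
  rw [ha, pow_succ]; omega

lemma sq_lt {D μ x e y : ℕ} (hD : D ≤ 2 ^ μ) (h : 2 * μ + 2 + 2 * x ≤ e * y) :
    2 * D ^ 2 * (2 ^ x) ^ 2 < (2 ^ e) ^ y := by
  have h1 : D ^ 2 ≤ (2 ^ μ) ^ 2 := Nat.pow_le_pow_left hD 2
  calc 2 * D ^ 2 * (2 ^ x) ^ 2 ≤ 2 * (2 ^ μ) ^ 2 * (2 ^ x) ^ 2 := by gcongr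
    _ = 2 ^ (2 * μ + 1 + 2 * x) := by ring
    _ < 2 ^ (e * y) := Nat.pow_lt_pow_right (by norm_num) (by omega)
    _ = (2 ^ e) ^ y := by rw [pow_mul]

lemma gap_le {j i n : ℕ} (hn : j.size = n + 2) (hi : j = i + 1 + 6 * (n + 2))
    (h6 : n + 1 ≤ (i + 1).size) (hj : 200 * (n + 2) ≤ j) (hn' : 40 ≤ n) :
    pe j + 4 * (n + 2) + 18 ≤ pe (i + 1) + 4 * j * j.size := by
  have h7 : 32 * (i + 1) * (n + 1) ≤ pe (i + 1) := Nat.mul_le_mul_left _ h6
  have h8 : 200 * (n + 2) * (n + 2) ≤ j * (n + 2) := Nat.mul_le_mul_right _ hj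
  have h9 : j * 42 ≤ j * (n + 2) := Nat.mul_le_mul_left _ (by omega)
  have h10 : (i + 1) * (n + 2) + 6 * (n + 2) * (n + 2) = j * (n + 2) := by rw [hi]; ring
  have h11 : 1 * (n + 2) ≤ (n + 2) * (n + 2) := Nat.mul_le_mul_right _ (by omega)
  have hf : pe j = 32 * j * (n + 2) := by rw [← hn]; rfl
  rw [hf, hn]
  linarith

lemma level (D : ℕ) (c : ℝ) (e₀ e₁ Θ μ j : ℕ) (hμ : 40 ≤ μ) (hd : lg D 1 ≤ 2 ^ μ)
    (hc : c ≤ 2 ^ μ) (hD : D ≤ 2 ^ μ) (he₀ : e₀ ≤ 2 ^ μ) (hΘ : Θ ≤ 2 ^ 2 ^ 2 ^ μ)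
    (hj : 2 ^ (μ + 1) ≤ j) (he₁ : pe j ≤ e₁) :
    Level D c e₀ e₁ Θ pTe pTw (fun i => 2 ^ pLam i) j (1 / (2 ^ 14 * pe j)) := by
  have hm1 : μ + 1 < j.size := Nat.lt_size.mpr hj
  obtain ⟨n, hn⟩ : ∃ n, j.size = n + 2 := ⟨j.size - 2, by omega⟩
  have hn1 : 2 ^ (n + 1) ≤ j := Nat.lt_size.mp (by omega)
  have hn2 : j < 2 ^ (n + 2) := hn ▸ Nat.lt_size_self j
  have hn3 := big_pow n (by omega)
  have hn4 : 2 ^ μ ≤ 2 ^ n := Nat.pow_le_pow_right (by norm_num) (by omega)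
  have hn5 : 2 ^ (n + 1) = 2 * 2 ^ n := by ring
  have hn6 : 2 ^ (n + 2) = 4 * 2 ^ n := by ring
  have hsz : ∀ i, 2 ^ n ≤ i → n + 1 ≤ i.size := fun i hi => Nat.lt_size.mpr hi
  have hs : (pe j).size ≤ 2 * (n + 2) := hn ▸ size_pe_le (by rw [hn]; omega)
  have hes : pe j < 2 ^ (pe j).size := Nat.lt_size_self _
  have hje := le_pe j
  have hse := two_pow_size_le (e := pe j) (by omega)
  have hf : pe j = 8 * (4 * j * j.size) := by unfold pe; ring
  have hf2 : 4 * j ≤ 4 * j * j.size := Nat.le_mul_of_pos_right _ (by omega)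
  have hκ : pe j = pκ j + (pe j).size + 2 := by unfold pκ; omega
  have hl : pe j = pLam j + (pe j).size + 16 := by unfold pLam; omega
  obtain ⟨w, hw⟩ : ∃ w, pe j = w + 2 * (pe j).size + 32 := ⟨pe j - 2 * (pe j).size - 32, by omega⟩
  obtain ⟨t, ht⟩ : ∃ t, pe j = t + (pe j).size + 4 * (n + 2) + 5 :=
    ⟨pe j - (pe j).size - 4 * (n + 2) - 5, by omega⟩
  obtain ⟨i₁, hi₁⟩ : ∃ i₁, j = i₁ + 1 + 6 * (n + 2) := ⟨j - 1 - 6 * (n + 2), by omega⟩
  have hi₂ : 2 ^ n ≤ i₁ := by omega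
  obtain ⟨ρ, hρ1, hρ2⟩ : ∃ ρ, pLam (j + 1) = ρ + pLam j ∧ 30 * (n + 2) ≤ ρ := by
    have h1 := pe_succ j
    have h2 : j.size ≤ (j + 1).size := Nat.size_le_size (Nat.le_succ j)
    have h3 : (pe (j + 1)).size ≤ 2 * (j + 1).size := by
      refine size_pe_le ?_
      obtain ⟨n', hn'⟩ : ∃ n', (j + 1).size = n' + 2 := ⟨(j + 1).size - 2, by omega⟩
      have := big_pow n' (by omega)
      rw [hn', pow_add]; omega
    refine ⟨pLam (j + 1) - pLam j, ?_, ?_⟩ <;> unfold pLam <;> omega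
  have hdm : lg D 1 ≤ 2 ^ (n + 2) := hd.trans (pw_le (by omega))
  have hlow : ∀ i, i₁ ≤ i → 200 * (n + 2) ≤ pe i ∧ pe i + 16 * (n + 1) ≤ pη i ∧
      pη i + 32 * (n + 1) ≤ pη (i + 1) := fun i hi => by
    have h1 := le_pe i
    have h2 := hsz i (by omega)
    have h3 := hsz (i + 1) (by omega)
    have h4 := pη_succ i
    refine ⟨by omega, by unfold pη; omega, by omega⟩
  have hΛ : ∀ i, i₁ ≤ i → i < j →
      lg D (∑ i ∈ range (i + 1), (pTe i + pTw i) + Θ) ≤ 2 ^ (pη i + 1) := fun i h1 h2 => by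
    have h3 := hlow i h1
    have h4 := le_pe i
    exact lg_sum_le D hdm (by omega) hΘ (by omega) (by omega) (by omega)
  refine ⟨pe j, 2 ^ pκ j, 2 ^ ρ, 2 ^ (4 * j * j.size), (pe j + 1) * 2 ^ ((pe j).size + 20),
    i₁ + 1, 6 * (n + 2), fun i => 2 ^ (pη i - (pe j).size - 1), 2 ^ (t + 3), hi₁, by omega, he₁,
    by omega, ?_, ?_, ?_, by positivity, by positivity, by positivity, ?_, ?_, ?_,
    fun i => by positivity, fun i h1 h2 => ⟨?_, ?_, ?_⟩, ?_, ?_, ?_, ?_⟩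
  · calc 4 * pe j * 2 ^ pκ j ≤ 4 * 2 ^ (pe j).size * 2 ^ pκ j := by gcongr
      _ = 2 ^ (pκ j + (pe j).size + 2) := by ring
      _ = 2 ^ pe j := by rw [← hκ]
  · exact (Nat.pow_le_pow_right (by norm_num) (show 1 ≤ ρ by omega) : 2 ^ 1 ≤ 2 ^ ρ)
  · simp only [hρ1, pow_add]
  · exact Nat.pow_le_pow_right (by norm_num) (by omega)
  · refine sq_lt hD ?_
    have h1 : 1 ≤ 2 ^ pκ j := Nat.one_le_two_pow
    have h2 : 4 * j * j.size * 1 ≤ 4 * j * j.size * 2 ^ pκ j := Nat.mul_le_mul_left _ h1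
    rw [hf, mul_assoc 8, mul_assoc 3]
    omega
  · exact sq_lt hD (by omega)
  · have h3 := hlow i (by omega)
    rw [← pow_succ', ← pow_mul]
    refine Nat.pow_le_pow_right (by norm_num) ?_
    calc (pe j + 1) * (2 * 2 ^ (pη i - (pe j).size - 1))
        ≤ 2 ^ (pe j).size * (2 * 2 ^ (pη i - (pe j).size - 1)) := Nat.mul_le_mul_right _ hes
      _ = 2 ^ ((pe j).size + (pη i - (pe j).size - 1) + 1) := by ring
      _ ≤ 2 ^ pη i := Nat.pow_le_pow_right (by norm_num) (by omega)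
  · have h3 := hlow i (by omega)
    exact pow_dvd_pow 2 (by omega)
  · have h3 := hlow i (by omega)
    have h4 := pη_le h2
    push_cast
    exact cond9 (η := pη i) (ε := pe i) (μ := μ) (lg_le' D hd le_rfl (by omega))
      (lg_le' D hd (pTw_le i) (by omega)) hc (by omega) (by omega) (by omega) (by omega)
      (by omega) (by omega)
  · have h3 := hlow i₁ le_rfl
    have h4 := pη_le (show i₁ < j by omega)
    have h5 := hΛ i₁ le_rfl (by omega)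
    have h6 := pw_key (κ := pκ j) (q := pη (i₁ + 1) - (pe j).size - 1) (a := pη i₁ + 2) (t := t)
      (y := 2 * lg D (∑ i ∈ range (i₁ + 1), (pTe i + pTw i) + Θ)) (by rw [pow_succ]; linarith)
      (by omega) (by omega)
    have h7 : (2 : ℝ) ^ (t + 3) = 8 * 2 ^ t := by ring
    have h8 : (0 : ℝ) < 2 ^ t := by positivity
    push_cast
    linarith
  · have h3 := hlow (i₁ + 1) (by omega)
    have h4 : lg D (2 ^ pLam j) ≤ 2 ^ (2 * (n + 2) + 1) := by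
      refine (lg_le D le_rfl).trans (pw_add hd (pw_nat (a := (pe j).size) (by omega))
        (by omega) (by omega))
    have h5 : pe j + 4 * (n + 2) + 18 ≤ pe (i₁ + 1) + 4 * j * j.size :=
      gap_le hn hi₁ (hsz (i₁ + 1) (by omega)) (by omega) (by omega)
    have h6 := cond11 (q := pη (i₁ + 1) - (pe j).size - 1) (f := 4 * j * j.size) h4 hes hκ hl hw
      ht (by omega) hs (by omega) (by omega) (by omega) (by omega)
    push_cast at h6 ⊢
    exact h6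
  · have h6 := cond12 hl
    push_cast
    exact h6
  · obtain ⟨i, hi⟩ : ∃ i, j = i + 1 := ⟨j - 1, by omega⟩
    have h4 := pη_le (show i < j by omega)
    have h5 := hΛ i (by omega) (by omega)
    rw [← hi] at h5
    have h6 := cond13 (lg_nonneg _ _) h5 (lg_nonneg D 1) hdm hes hse hκ hl hw hf hs (by omega)
      (by omega) hρ2
    unfold pTw
    push_cast at h6 ⊢
    exact h6

lemma diverge (a : ℕ) (M : ℕ) (hM : a ≤ M) :
    (Real.log (M + 1) - Real.log (a + 1)) / 2 ^ 20 ≤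
      ∑ j ∈ Ico (2 ^ a) (2 ^ M), (1 : ℝ) / (2 ^ 14 * pe j) := by
  induction M, hM using Nat.le_induction with
  | base => simp
  | succ M hM ih =>
    have h1 : 2 ^ a ≤ 2 ^ M := Nat.pow_le_pow_right (by norm_num) hM
    have h2 : 2 ^ M ≤ 2 ^ (M + 1) := Nat.pow_le_pow_right (by norm_num) (by omega)
    rw [← sum_Ico_consecutive _ h1 h2]
    have h3 : (Ico (2 ^ M) (2 ^ (M + 1))).card • ((1 : ℝ) / (2 ^ 20 * 2 ^ M * (M + 1))) ≤
        ∑ j ∈ Ico (2 ^ M) (2 ^ (M + 1)), (1 : ℝ) / (2 ^ 14 * pe j) := by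
      refine card_nsmul_le_sum _ _ _ fun j hj => ?_
      obtain ⟨h4, h5⟩ := mem_Ico.mp hj
      have h6 : j.size ≤ M + 1 := Nat.size_le.mpr h5
      have h7 : pe j ≤ 32 * 2 ^ (M + 1) * (M + 1) := by
        unfold pe; gcongr
      have h8 : (pe j : ℝ) ≤ 32 * 2 ^ (M + 1) * (M + 1) := by exact_mod_cast h7
      have h9 : (0 : ℝ) < pe j := by
        have := le_pe j
        have : 0 < 2 ^ M := by positivity
        exact_mod_cast (show 0 < pe j by omega)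
      refine one_div_le_one_div_of_le (by positivity) ?_
      rw [pow_succ] at h8
      linarith
    have h4 : (Ico (2 ^ M) (2 ^ (M + 1))).card = 2 ^ M := by
      rw [Nat.card_Ico, pow_succ]; omega
    rw [h4, nsmul_eq_mul] at h3
    have h5 : ((2 ^ M : ℕ) : ℝ) * (1 / (2 ^ 20 * 2 ^ M * (M + 1))) = 1 / (M + 1) / 2 ^ 20 := by
      push_cast; field_simp
    have h6 : Real.log ((M + 1 : ℕ) + 1) - Real.log (M + 1) ≤ 1 / (M + 1) := by
      rw [← Real.log_div (by positivity) (by positivity)]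
      refine (Real.log_le_sub_one_of_pos (by positivity)).trans (le_of_eq ?_)
      push_cast; field_simp; ring
    rw [h5] at h3
    have h7 : (Real.log ((M + 1 : ℕ) + 1) - Real.log (a + 1)) / 2 ^ 20 ≤
        (Real.log (M + 1) - Real.log (a + 1)) / 2 ^ 20 + 1 / (M + 1) / 2 ^ 20 := by
      rw [← add_div]; gcongr; linarith
    linarith

lemma exists_mu (B : ℕ) : ∃ μ₀, ∀ μ, μ₀ ≤ μ → B * (μ + 2) ≤ 2 ^ μ := by
  refine ⟨2 * B + 4, fun μ hμ => ?_⟩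
  have h1 : ∀ n, 2 ≤ n → n * n ≤ 2 * 2 ^ n := by
    intro n hn
    induction n, hn using Nat.le_induction with
    | base => norm_num
    | succ n hn ih =>
      have h2 : n < 2 ^ n := Nat.lt_two_pow_self
      rw [pow_succ]
      nlinarith
  have h2 := h1 μ (by omega)
  nlinarith

end Vale.Agent.P015.Par

namespace Vale.Agent.P015

open Finset Par

theorem param : ParamStmt := by
  intro D c e₀ _
  obtain ⟨A, hA⟩ := exists_nat_gt (2 ^ 22 * lg D 1)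
  obtain ⟨μ₀, hμ₀⟩ := exists_mu (2 * 2 ^ A + 2)
  obtain ⟨μ₁, hμ₁⟩ := exists_nat_gt (max (lg D 1) c)
  obtain ⟨μ, h1, h2, h3, h4, h5⟩ : ∃ μ, μ₀ ≤ μ ∧ μ₁ ≤ μ ∧ 40 ≤ μ ∧ D ≤ μ ∧ e₀ ≤ μ :=
    ⟨μ₀ + μ₁ + 40 + D + e₀, by omega, by omega, by omega, by omega, by omega⟩
  have h6 : μ < 2 ^ μ := Nat.lt_two_pow_self
  have h7 : (μ₁ : ℝ) ≤ 2 ^ μ := pw_nat (by omega)
  have h8 : 1 * (μ + 2) ≤ 2 ^ A * (μ + 2) := Nat.mul_le_mul_right _ Nat.one_le_two_pow
  obtain ⟨M, hM⟩ : ∃ M, M + 1 = 2 ^ A * (μ + 2) := ⟨2 ^ A * (μ + 2) - 1, by omega⟩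
  have h9 : 2 ^ (μ + 1) ≤ 2 ^ M := Nat.pow_le_pow_right (by norm_num) (by omega)
  have hΘ : 2 * 2 ^ pLam (2 ^ M) ≤ 2 ^ 2 ^ 2 ^ μ := by
    rw [← pow_succ']
    refine Nat.pow_le_pow_right (by norm_num) ?_
    have h10 : (2 ^ M).size = M + 1 := Nat.size_pow
    have h11 : (pe (2 ^ M)).size ≤ 2 * (2 ^ M).size := by
      refine size_pe_le ?_
      have := big_pow (M + 1) (by omega)
      rw [h10]; omega
    have h12 : pe (2 ^ M) < 2 ^ (pe (2 ^ M)).size := Nat.lt_size_self _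
    have h13 := hμ₀ μ h1
    have h14 : 2 ^ (pe (2 ^ M)).size ≤ 2 ^ 2 ^ μ := by
      refine Nat.pow_le_pow_right (by norm_num) ?_
      rw [add_mul, mul_assoc, ← hM] at h13
      omega
    unfold pLam
    omega
  refine ⟨pe (2 ^ M), 2 * 2 ^ pLam (2 ^ M), 2 ^ (μ + 1), 2 ^ M, pTe, pTw, fun i => 2 ^ pLam i,
    fun j => 1 / (2 ^ 14 * pe j), h9, fun i => ⟨Nat.one_le_two_pow, Nat.one_le_two_pow⟩,
    by positivity, le_rfl, fun j hj1 hj2 => ?_, ?_⟩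
  · exact level D c e₀ _ _ μ j h3 (((le_max_left _ _).trans hμ₁.le).trans h7)
      (((le_max_right _ _).trans hμ₁.le).trans h7) (by omega) (by omega) hΘ hj1 (pe_mono hj2.le)
  · refine lt_of_lt_of_le ?_ (diverge (μ + 1) M (by omega))
    have h10 : (M : ℝ) + 1 = 2 ^ A * (((μ + 1 : ℕ) : ℝ) + 1) := by
      have : ((M + 1 : ℕ) : ℝ) = ((2 ^ A * (μ + 2) : ℕ) : ℝ) := by rw [hM]
      push_cast at this ⊢
      linarith
    rw [h10, Real.log_mul (by positivity) (by positivity), add_sub_cancel_right, Real.log_pow,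
      lt_div_iff₀ (by positivity)]
    have h11 : (A : ℝ) * (1 / 2) ≤ A * Real.log 2 :=
      mul_le_mul_of_nonneg_left log_two_ge (by positivity)
    linarith

end Vale.Agent.P015
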