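import Vale.Agent.P015.Geo

/-! A random pair of times from the covering and the lattice statements. -/

namespace Vale.Agent.P015

open Finset

lemma piece_dot_le {u : ℤ × ℤ} (hu : u ≠ 0) {A B : ℕ} (hBA : B ≤ A) {g : ℤ × ℤ}
    (hg : g ∈ Kset u A B) : dot u u * dot g g ≤ 2 * (A : ℤ) ^ 2 := by
  obtain ⟨h1, h2⟩ := (mem_Kset hu).1 hg
  have h3 : dot u u * dot g g = dot g u ^ 2 + det u g ^ 2 := by
    simp only [dot, det]; ring
  have h4 : dot g u ^ 2 ≤ (A : ℤ) ^ 2 := by
    rw [← sq_abs]; exact pow_le_pow_left₀ (abs_nonneg _) h1 2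
  have h5 : det u g ^ 2 ≤ (A : ℤ) ^ 2 := by
    rw [← sq_abs]
    exact pow_le_pow_left₀ (abs_nonneg _) (h2.trans (by exact_mod_cast hBA)) 2
  linarith

lemma piece_dot_pos {u : ℤ × ℤ} (hu : u ≠ 0) : 0 < dot u u := by
  obtain ⟨a, b⟩ := u
  simp only [dot]
  by_contra h
  have ha : a = 0 := by nlinarith [sq_nonneg a, sq_nonneg b]
  have hb : b = 0 := by nlinarith [sq_nonneg a, sq_nonneg b]
  exact hu (by simp [ha, hb])

lemma piece_enum {α : Type} [DecidableEq α] (K : Finset α) (hK : 0 < K.card) (Q : ℕ) :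
    ∃ g : Fin Q → α, (∀ s, g s ∈ K) ∧ ∀ S : Finset α,
      (univ.filter fun s => g s ∈ S).card ≤ (Q / K.card + 1) * S.card := by
  refine ⟨fun s => (K.equivFin.symm ⟨s % K.card, Nat.mod_lt _ hK⟩).1,
    fun s => (K.equivFin.symm _).2, fun S => ?_⟩
  refine card_le_mul_card_image_of_maps_to (fun s hs => (mem_filter.1 hs).2) _ fun a _ => ?_
  rw [← card_range (Q / K.card + 1)]
  refine card_le_card_of_injOn (fun s => (s : ℕ) / K.card) (fun s _ => ?_) ?_
  · exact mem_coe.2 (mem_range.2 (Nat.lt_succ_of_le (Nat.div_le_div_right s.2.le)))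
  · intro s hs t ht hst
    have h1 := (mem_filter.1 (mem_coe.1 hs)).2
    have h2 := (mem_filter.1 (mem_coe.1 ht)).2
    have h3 := K.equivFin.symm.injective (Subtype.ext (h1.trans h2.symm))
    have h4 : (s : ℕ) % K.card = t % K.card := congrArg Fin.val h3
    refine Fin.ext ?_
    rw [← Nat.div_add_mod s K.card, ← Nat.div_add_mod t K.card, h4]
    exact congrArg (fun y => K.card * y + (t : ℕ) % K.card) hst

theorem piece_of (hc : CoverStmt) (hl : LatticeStmt) : PieceStmt := by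
  intro D
  obtain ⟨C0, hC0⟩ := hc D
  refine ⟨338 * C0 + 1, by omega, fun ι x T Q hx hT hQ => ?_⟩
  obtain ⟨u, A, B, F, hu, hA, hBA, hAT, hk, hF, hcov⟩ := hC0 x T hx hT
  obtain ⟨τ, hτ1, hτ2, hτ3⟩ := hl u A B ι hu
  have hA0 : (0 : ℤ) < A := hA ▸ piece_dot_pos hu
  have hAT' : (A : ℤ) ≤ 2 * (D : ℤ) ^ 2 * (T : ℤ) ^ 2 := by exact_mod_cast hAT
  have hkQ : (Kset u A B).card ≤ Q := by
    refine le_trans ?_ hQ
    have hsub : Kset u A B ⊆ Icc (-(2 * D * T : ℤ)) (2 * D * T) ×ˢ
        Icc (-(2 * D * T : ℤ)) (2 * D * T) := by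
      intro g hg
      have h1 := piece_dot_le hu hBA hg
      rw [← hA] at h1
      have h2 : dot g g ≤ 2 * A := by
        refine le_of_mul_le_mul_left ?_ hA0
        linarith
      simp only [dot] at h2
      have h0 : (0 : ℤ) ≤ 2 * D * T := by positivity
      rw [mem_product, mem_Icc, mem_Icc, ← abs_le, ← abs_le]
      constructor
      · refine abs_le_of_sq_le_sq' ?_ h0 |> abs_le.2
        nlinarith [mul_self_nonneg g.2]
      · refine abs_le_of_sq_le_sq' ?_ h0 |> abs_le.2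
        nlinarith [mul_self_nonneg g.1]
    refine (card_le_card hsub).trans (le_of_eq ?_)
    rw [card_product, Int.card_Icc]
    have : (2 * (D : ℤ) * T + 1 - -(2 * D * T)).toNat = 4 * D * T + 1 := by
      have h : 2 * (D : ℤ) * T + 1 - -(2 * D * T) = ((4 * D * T + 1 : ℕ) : ℤ) := by
        push_cast; ring
      rw [h, Int.toNat_natCast]
    rw [this, sq]
  have hk0 : 0 < (Kset u A B).card := by omega
  obtain ⟨g, hg, hgS⟩ := piece_enum (Kset u A B) hk0 Q
  choose s₁ hs₁ s₂ hs₂ hsF using fun s => hcov (g s) (hg s)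
  refine ⟨s₁, s₂, τ, fun s => ⟨hs₁ s, hs₂ s⟩, hτ1, ?_, fun m hm hmT hmι hmτ r => ?_⟩
  · rcases hτ2 with h | ⟨v, hv, h⟩
    · have h1 : 1 ≤ A := by exact_mod_cast hA0
      have h2 : 2 * D ^ 2 * T ^ 2 ≤ 16 * D ^ 2 * T ^ 2 := by gcongr; norm_num
      omega
    · have h1 := piece_dot_le hu (by omega) hv
      rw [← hA, ← h] at h1
      push_cast at h1
      have h2 : (τ : ℤ) ≤ 8 * A := by
        refine le_of_mul_le_mul_left ?_ hA0
        linarith
      have h3 : (τ : ℤ) ≤ 16 * (D : ℤ) ^ 2 * (T : ℤ) ^ 2 := by linarith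
      exact_mod_cast h3
  · have hsub : (univ.filter fun s : Fin Q => (m : ℤ) ∣ rho ι (x (s₁ s) - x (s₂ s)) - r) ⊆
        F.biUnion fun f => univ.filter fun s =>
          g s ∈ (Kset u A B).filter fun y => (m : ℤ) ∣ rho ι y - (r - rho ι f) := by
      intro s hs
      refine mem_biUnion.2 ⟨_, hsF s, mem_filter.2 ⟨mem_univ _, mem_filter.2 ⟨hg s, ?_⟩⟩⟩
      have h := (mem_filter.1 hs).2
      have e : rho ι (g s) - (r - rho ι (x (s₁ s) - x (s₂ s) - g s)) =
          rho ι (x (s₁ s) - x (s₂ s)) - r := by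
        simp only [rho, Prod.fst_sub, Prod.snd_sub]; ring
      rw [e]; exact h
    have h1 := (card_le_card hsub).trans card_biUnion_le
    have h2 : (Kset u A B).card * (Q / (Kset u A B).card + 1) ≤ 2 * Q := by
      have := Nat.mul_div_le Q (Kset u A B).card
      rw [mul_add]; omega
    refine (Nat.mul_le_mul_left m h1).trans ?_
    rw [mul_sum]
    refine (sum_le_card_nsmul F _ (338 * Q) fun f _ => ?_).trans ?_
    · refine (Nat.mul_le_mul_left m (hgS _)).trans ?_
      have h3 := hτ3 m hm (by omega) hmι hmτ (r - rho ι f)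
      calc _ = (Q / (Kset u A B).card + 1) * (m * ((Kset u A B).filter
              fun y => (m : ℤ) ∣ rho ι y - (r - rho ι f)).card) := by ring
        _ ≤ (Q / (Kset u A B).card + 1) * (169 * (Kset u A B).card) := Nat.mul_le_mul_left _ h3
        _ = 169 * ((Kset u A B).card * (Q / (Kset u A B).card + 1)) := by ring
        _ ≤ 338 * Q := by omega
    · rw [smul_eq_mul]
      calc F.card * (338 * Q) ≤ C0 * (338 * Q) := Nat.mul_le_mul_right _ hF
        _ ≤ (338 * C0 + 1) * Q := by nlinarith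

end Vale.Agent.P015
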