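import Vale.Agent.P015.Geo
import Vale.Agent.P031.WI

/-! Primes congruent to one modulo four in dyadic intervals. -/

namespace Vale.Agent.P015

open Finset Filter Topology ArithmeticFunction

lemma dyadic_sum_le (e : ℕ) :
    (∑ k ∈ Icc 1 (2 ^ (e + 1)), vonMangoldt.residueClass (1 : ZMod 4) k)
      - (∑ k ∈ Icc 1 (2 ^ e), vonMangoldt.residueClass (1 : ZMod 4) k)
      - (∑ n ∈ Ioc 0 (2 ^ (e + 1)) with ¬ n.Prime, vonMangoldt n)
      ≤ ((e : ℝ) + 1) *
        (((Ioc (2 ^ e) (2 ^ (e + 1))).filter fun p => p.Prime ∧ p % 4 = 1).card : ℝ) := by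
  have hle : 2 ^ e ≤ 2 ^ (e + 1) := Nat.pow_le_pow_right (by norm_num) (by omega)
  have h1 : ∀ n : ℕ, Icc 1 n = Ioc 0 n := fun n => by ext k; simp; omega
  rw [h1, h1, ← sum_Ioc_consecutive _ (Nat.zero_le (2 ^ e)) hle, add_sub_cancel_left,
    sub_le_iff_le_add]
  have h2 : (∑ n ∈ Ioc (2 ^ e) (2 ^ (e + 1)) with ¬ n.Prime, vonMangoldt n)
      ≤ ∑ n ∈ Ioc 0 (2 ^ (e + 1)) with ¬ n.Prime, vonMangoldt n :=
    sum_le_sum_of_subset_of_nonneg
      (filter_subset_filter _ (Ioc_subset_Ioc_left (Nat.zero_le _)))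
      fun _ _ _ => vonMangoldt_nonneg
  refine le_trans ?_ (add_le_add_right h2 _)
  rw [card_eq_sum_ones, Nat.cast_sum, mul_sum, sum_filter, sum_filter, ← sum_add_distrib]
  refine sum_le_sum fun k hk => ?_
  have hk' := mem_Ioc.mp hk
  by_cases hp : k.Prime
  · by_cases h4 : k % 4 = 1
    · rw [if_pos ⟨hp, h4⟩, if_neg (not_not.mpr hp), add_zero, Nat.cast_one, mul_one]
      refine (vonMangoldt.residueClass_le _ _).trans ?_
      rw [vonMangoldt_apply_prime hp]
      have h5 : (k : ℝ) ≤ 2 ^ (e + 1) := by exact_mod_cast hk'.2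
      have h6 : (0 : ℝ) < k := by exact_mod_cast hp.pos
      have h7 : Real.log 2 ≤ 1 := by
        have := Real.log_le_sub_one_of_pos (show (0 : ℝ) < 2 by norm_num)
        linarith
      calc Real.log k ≤ Real.log (2 ^ (e + 1)) := Real.log_le_log h6 h5
        _ = ((e : ℝ) + 1) * Real.log 2 := by rw [Real.log_pow]; push_cast; ring
        _ ≤ ((e : ℝ) + 1) * 1 := by gcongr
        _ = _ := mul_one _
    · rw [if_neg (fun h => h4 h.2), if_neg (not_not.mpr hp), add_zero]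
      refine le_of_eq (Set.indicator_of_notMem ?_ _)
      intro h
      apply h4
      have h8 : ((k : ℕ) : ZMod 4) = ((1 : ℕ) : ZMod 4) := by simpa using h
      simpa [Nat.ModEq] using (ZMod.natCast_eq_natCast_iff k 1 4).mp h8
  · rw [if_neg (fun h => hp h.1), if_pos hp, zero_add]
    exact vonMangoldt.residueClass_le _ _

theorem primes : PrimeStmt := by
  set S : ℝ → ℝ := fun x => ∑ k ∈ Icc 1 ⌊x⌋₊, vonMangoldt.residueClass (1 : ZMod 4) k with hS
  have hA : Tendsto (fun x : ℝ => S x / x) atTop (𝓝 (1 / 2)) := by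
    have h := Vale.Agent.P031.pnt_residueClass (q := 4) (a := 1) isUnit_one
    have h4 : Nat.totient 4 = 2 := by decide
    rw [h4] at h
    simpa [hS] using h
  have hR : Tendsto (fun x : ℝ => (Chebyshev.psi x - Chebyshev.theta x) / x) atTop (𝓝 0) := by
    have h := Vale.Agent.P031.pnt_psi.sub Vale.Agent.P031.pnt_theta
    rw [sub_self] at h
    exact h.congr fun x => (sub_div _ _ _).symm
  have h2 : Tendsto (fun x : ℝ => 2 * x) atTop atTop := tendsto_id.const_mul_atTop two_pos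
  have hG := (((hA.comp h2).const_mul 2).sub hA).sub ((hR.comp h2).const_mul 2)
  have hp : Tendsto (fun e : ℕ => (2 : ℝ) ^ e) atTop atTop :=
    tendsto_pow_atTop_atTop_of_one_lt one_lt_two
  have hE := (hG.comp hp).eventually (lt_mem_nhds (show (2 / 5 : ℝ) < _ by norm_num))
  obtain ⟨e₀, he₀⟩ := eventually_atTop.mp hE
  refine ⟨e₀ + 2, fun e he => ?_⟩
  have h := he₀ e (by omega)
  simp only [Function.comp] at h
  have hN : (0 : ℝ) < 2 ^ e := by positivity
  have hf1 : ⌊(2 : ℝ) ^ e⌋₊ = 2 ^ e := by exact_mod_cast Nat.floor_natCast (R := ℝ) (2 ^ e)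
  have hf2 : ⌊(2 : ℝ) * 2 ^ e⌋₊ = 2 ^ (e + 1) := by
    rw [← pow_succ']
    exact_mod_cast Nat.floor_natCast (R := ℝ) (2 ^ (e + 1))
  have hd := dyadic_sum_le e
  rw [Chebyshev.psi_sub_theta_eq_sum_not_prime, hS] at h
  simp only [hf1, hf2] at h
  set a := ∑ k ∈ Icc 1 (2 ^ (e + 1)), vonMangoldt.residueClass (1 : ZMod 4) k
  set b := ∑ k ∈ Icc 1 (2 ^ e), vonMangoldt.residueClass (1 : ZMod 4) k
  set c := ∑ n ∈ Ioc 0 (2 ^ (e + 1)) with ¬ n.Prime, vonMangoldt n
  set m := ((Ioc (2 ^ e) (2 ^ (e + 1))).filter fun p => p.Prime ∧ p % 4 = 1).card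
  have h3 : 2 * (a / (2 * 2 ^ e)) - b / 2 ^ e - 2 * (c / (2 * 2 ^ e)) = (a - b - c) / 2 ^ e := by
    field_simp
  rw [h3, lt_div_iff₀ hN] at h
  have he2 : (2 : ℝ) ≤ e := by exact_mod_cast (show 2 ≤ e by omega)
  have hm : (0 : ℝ) ≤ m := by positivity
  have : (2 : ℝ) ^ e ≤ 4 * e * m := by nlinarith
  exact_mod_cast this

end Vale.Agent.P015
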