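import Vale.Agent.P015.Ent

/-! Combinatorial estimates for random labels, used in the coverage test. -/

namespace Vale.Agent.P015

open Finset
open scoped BigOperators

variable {ι S G B Ω β : Type} [Fintype ι] [DecidableEq ι] [Fintype S] [Fintype B] [Fintype Ω]

lemma test_E_one [Nonempty S] (t : ι) (f : S → ℝ) : 𝔼 l : ι → S, f (l t) = 𝔼 s, f s := by
  have h1 := E_pi (ι := ι) fun i s => if i = t then f s else 1
  have h2 : ∀ i, 𝔼 s, (if i = t then f s else 1) = if i = t then 𝔼 s, f s else 1 := fun i => by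
    split_ifs
    · rfl
    · exact E_const 1
  simpa only [h2, prod_ite_eq', mem_univ, if_true] using h1

lemma test_E_two [Nonempty S] {t t' : ι} (h : t ≠ t') (f g : S → ℝ) :
    𝔼 l : ι → S, f (l t) * g (l t') = (𝔼 s, f s) * 𝔼 s, g s := by
  have h1 := E_pi (ι := ι) fun i s => (if i = t then f s else 1) * if i = t' then g s else 1
  have h2 : ∀ i, 𝔼 s, ((if i = t then f s else 1) * if i = t' then g s else 1) =
      (if i = t then 𝔼 s, f s else 1) * if i = t' then 𝔼 s, g s else 1 := fun i => by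
    split_ifs with h3 h4
    · exact absurd (h3.symm.trans h4) h
    · simp only [mul_one]
    · simp only [one_mul]
    · exact E_const _
  simpa only [h2, prod_mul_distrib, prod_ite_eq', mem_univ, if_true] using h1

lemma test_E_pt (s₀ : S) : 𝔼 s, ind (s = s₀) = (Fintype.card S : ℝ)⁻¹ := by
  have := sum_ind_eq (mem_univ s₀) fun _ => (1 : ℝ)
  simp only [mul_one, eq_comm (a := s₀)] at this
  rw [E_eq, this, one_div]

lemma test_E_fst (o : B) : 𝔼 s : B × B, ind (s.1 = o) = (Fintype.card B : ℝ)⁻¹ :=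
  have : Nonempty B := ⟨o⟩
  (law_fst (Ω' := B) (id : B → B) fun x => ind (x = o)).trans (test_E_pt o)

lemma test_E_snd (o : B) : 𝔼 s : B × B, ind (s.2 = o) = (Fintype.card B : ℝ)⁻¹ :=
  have : Nonempty B := ⟨o⟩
  (law_snd (Ω := B) (id : B → B) fun x => ind (x = o)).trans (test_E_pt o)

lemma test_E_oo (o : B) : 𝔼 s : B × B, ind (s = (o, o)) = ((Fintype.card B : ℝ) ^ 2)⁻¹ := by
  rw [test_E_pt, Fintype.card_prod, Nat.cast_mul, sq]

/-- Bonferroni inequality. -/
lemma test_bonf (p : ι → Prop) :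
    ∑ t, ind (p t) - (∑ t, ∑ t', ind (t ≠ t') * (ind (p t) * ind (p t'))) / 2 ≤ ind (∃ t, p t) := by
  classical
  have h1 : ∑ t, ∑ t', ind (t ≠ t') * (ind (p t) * ind (p t')) =
      (∑ t, ind (p t)) * (∑ t, ind (p t)) - ∑ t, ind (p t) := by
    rw [sum_mul_sum, ← sum_sub_distrib]
    refine sum_congr rfl fun t _ => ?_
    simp only [ne_eq, ind_not, sub_mul, one_mul, sum_sub_distrib]
    rw [sum_ind_eq (mem_univ t) fun t' => ind (p t) * ind (p t'), ind_mul_self]
  rw [h1, sum_ind]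
  rcases Nat.eq_zero_or_pos (univ.filter p).card with h | h
  · rw [h]
    simpa using ind_nonneg _
  · obtain ⟨t, ht⟩ := card_pos.1 h
    rw [ind_pos ⟨t, (mem_filter.1 ht).2⟩]
    generalize (univ.filter p).card = k at h
    rcases (by omega : k = 1 ∨ 2 ≤ k) with rfl | h2
    · norm_num
    · have : (2 : ℝ) ≤ k := by exact_mod_cast h2
      nlinarith

lemma test_ind_exists (p : ι → Prop) : ind (∃ t, p t) ≤ ∑ t, ind (p t) := by
  simpa only [mem_univ, true_and] using ind_exists_le univ p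

/-- A permutation preserving the fibres of a map whose fixed points are alone in their fibre. -/
lemma test_perm (x : ι → G) :
    ∃ φ : Equiv.Perm ι, (∀ t, x (φ t) = x t) ∧ ∀ t, φ t = t → ∀ t', x t' = x t → t' = t := by
  classical
  have h : ∀ c, ∃ e : {a // x a = c} ≃ {a // x a = c}, ∀ a, e a = a → ∀ a', a' = a := fun c => by
    obtain ⟨e, he, -⟩ := (univ : Finset {a // x a = c}).exists_cycleOn
    refine ⟨e, fun a ha a' => ?_⟩
    by_contra hne
    exact he.apply_ne ⟨a', by simp, a, by simp, hne⟩ (by simp) ha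
  choose e he using h
  refine ⟨Equiv.ofFiberEquiv e, Equiv.ofFiberEquiv_map e, fun t ht t' ht' => ?_⟩
  exact congrArg Subtype.val (he (x t) ⟨t, rfl⟩ (Subtype.ext ht) ⟨t', ht'⟩)

/-- Number of ordered pairs of distinct times with the same value. -/
noncomputable def tPairs (x : ι → G) : ℝ := ∑ t, ∑ t', ind (t ≠ t' ∧ x t = x t')

lemma tPairs_nonneg (x : ι → G) : 0 ≤ tPairs x :=
  sum_nonneg fun _ _ => sum_nonneg fun _ _ => ind_nonneg _

variable [Fintype G] [AddCommGroup G]

/-- A doubly marked time visits `R`. -/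
def tA (o : B) (R : Finset G) (l : ι → B × B) (x : ι → G) (y : G) : Prop :=
  ∃ t, l t = (o, o) ∧ y + x t ∈ R

/-- Two marked times visit the same element of `R`. -/
def tB (o : B) (R : Finset G) (l : ι → B × B) (x : ι → G) (y : G) : Prop :=
  ∃ t t', (t ≠ t' ∧ x t = x t') ∧ ((l t).1 = o ∧ (l t').2 = o) ∧ y + x t ∈ R

lemma test_count (R : Finset G) (a : G) : ∑ y, ind (y + a ∈ R) = R.card := by
  classical
  refine (Equiv.sum_comp (Equiv.addRight a) fun y => ind (y ∈ R)).trans ?_
  rw [sum_ind, filter_univ_mem]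

lemma test_sq (R : Finset G) (x : ι → G) :
    ∑ y, (∑ t, ind (y + x t ∈ R)) ^ 2 ≤ (R.card : ℝ) ^ 2 * (Fintype.card ι + tPairs x) := by
  have h1 : ∀ v : G, ind (v ∈ R) = ∑ r ∈ R, ind (v = r) := fun v => by
    by_cases hv : v ∈ R
    · simpa only [mul_one, ind_pos hv] using (sum_ind_eq hv fun _ => (1 : ℝ)).symm
    · rw [ind_neg hv, sum_eq_zero fun r hr => ind_neg fun h : v = r => hv (h ▸ hr)]
  have h2 : ∀ r : G, ∑ y, (∑ t, ind (y + x t = r)) ^ 2 = Fintype.card ι + tPairs x := fun r => by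
    simp only [sq, sum_mul_sum]
    rw [sum_comm, tPairs, ← card_univ, cast_card, ← sum_add_distrib]
    refine sum_congr rfl fun t _ => ?_
    rw [sum_comm, ← sum_ind_eq (mem_univ t) fun _ => (1 : ℝ), ← sum_add_distrib]
    refine sum_congr rfl fun t' _ => ?_
    have h3 := sum_ind_eq (mem_univ (r - x t)) fun y => ind (y + x t' = r)
    simp only [sub_eq_iff_eq_add, eq_comm (a := r)] at h3
    rw [h3, ind_congr (q := x t = x t') (by rw [sub_add, sub_eq_self, sub_eq_zero])]
    by_cases h : t = t'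
    · simp [h]
    · simp [ind_neg h, h]
  calc ∑ y, (∑ t, ind (y + x t ∈ R)) ^ 2 ≤ ∑ y, R.card * ∑ r ∈ R, (∑ t, ind (y + x t = r)) ^ 2 := by
        refine sum_le_sum fun y _ => ?_
        simp only [h1]
        rw [sum_comm]
        exact sq_sum_le_card_mul_sum_sq
    _ = _ := by
        rw [← mul_sum, sum_comm]
        simp only [h2, sum_const, nsmul_eq_mul]
        ring

lemma test_a (o : B) {R : Finset G} (hR : R.card = Fintype.card B ^ 2) (x : ι → G) :
    (Fintype.card ι - tPairs x) / 2 ≤ 𝔼 l, ∑ y, ind (tA o R l x y) := by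
  have : Nonempty B := ⟨o⟩
  have hu : (0 : ℝ) < (Fintype.card B : ℝ) ^ 2 := by positivity
  have hR' : (R.card : ℝ) = (Fintype.card B : ℝ) ^ 2 := by exact_mod_cast hR
  set u : ℝ := (Fintype.card B : ℝ) ^ 2 with hudef
  have h0 : ∀ P : Prop, 𝔼 s : B × B, ind (s = (o, o) ∧ P) = u⁻¹ * ind P := fun P => by
    simp only [ind_and]
    rw [E_mul_right, test_E_oo]
  have h1 : ∀ y, u⁻¹ * ∑ t, ind (y + x t ∈ R) - u⁻¹ ^ 2 * (∑ t, ind (y + x t ∈ R)) ^ 2 / 2 ≤
      𝔼 l, ind (tA o R l x y) := fun y => by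
    refine le_trans ?_ (E_mono fun l => test_bonf fun t => l t = (o, o) ∧ y + x t ∈ R)
    rw [E_sub, E_div, E_sum, E_sum, mul_sum]
    refine sub_le_sub (le_of_eq (sum_congr rfl fun t _ => ?_)) ?_
    · rw [test_E_one t fun s => ind (s = (o, o) ∧ y + x t ∈ R), h0]
    · rw [← mul_pow, sq, mul_sum, sum_mul_sum]
      refine div_le_div_of_nonneg_right (sum_le_sum fun t _ => ?_) zero_le_two
      rw [E_sum]
      refine sum_le_sum fun t' _ => ?_
      rw [E_mul_left]
      by_cases h : t = t'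
      · rw [ind_neg (not_not.2 h), zero_mul]
        exact mul_nonneg (mul_nonneg (by positivity) (ind_nonneg _))
          (mul_nonneg (by positivity) (ind_nonneg _))
      · rw [ind_pos h, one_mul, test_E_two h (fun s => ind (s = (o, o) ∧ y + x t ∈ R))
          fun s => ind (s = (o, o) ∧ y + x t' ∈ R), h0, h0]
  rw [E_sum]
  refine le_trans ?_ (sum_le_sum fun y _ => h1 y)
  rw [sum_sub_distrib, ← mul_sum, sum_comm, ← sum_div, ← mul_sum]
  simp only [test_count, sum_const, card_univ, nsmul_eq_mul]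
  have h2 := mul_le_mul_of_nonneg_left (test_sq R x) (show 0 ≤ u⁻¹ ^ 2 by positivity)
  rw [hR', ← mul_assoc, ← mul_pow, inv_mul_cancel₀ hu.ne', one_pow, one_mul] at h2
  rw [hR', mul_left_comm, inv_mul_cancel₀ hu.ne']
  linarith

lemma test_b (o : B) {R : Finset G} (hR : R.card = Fintype.card B ^ 2) (x : ι → G) :
    𝔼 l, ∑ y, ind (tB o R l x y) ≤ tPairs x := by
  have : Nonempty B := ⟨o⟩
  have hu : (0 : ℝ) < (Fintype.card B : ℝ) := by positivity
  have hR' : (R.card : ℝ) = (Fintype.card B : ℝ) ^ 2 := by exact_mod_cast hR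
  calc 𝔼 l, ∑ y, ind (tB o R l x y) ≤ 𝔼 l : ι → B × B, ∑ t, ∑ t', ind (t ≠ t' ∧ x t = x t') *
        (ind ((l t).1 = o) * ind ((l t').2 = o)) * R.card := by
        refine E_mono fun l => ?_
        refine (sum_le_sum fun y _ => (test_ind_exists _).trans
          (sum_le_sum fun t _ => test_ind_exists _)).trans (le_of_eq ?_)
        rw [sum_comm]
        refine sum_congr rfl fun t _ => ?_
        rw [sum_comm]
        refine sum_congr rfl fun t' _ => ?_
        simp only [ind_and (t ≠ t' ∧ _), ind_and (_ ∧ _), ind_and ((l t).1 = o), ← mul_assoc]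
        rw [← mul_sum, test_count]
    _ ≤ _ := by
        rw [E_sum]
        refine sum_le_sum fun t _ => ?_
        rw [E_sum]
        refine sum_le_sum fun t' _ => ?_
        rw [E_mul_right, E_mul_left]
        by_cases h : t = t'
        · rw [ind_neg fun h' => h'.1 h, zero_mul, zero_mul]
        · rw [test_E_two h (fun s : B × B => ind (s.1 = o)) fun s : B × B => ind (s.2 = o),
            test_E_fst, test_E_snd, hR']
          refine le_of_eq ?_
          field_simp

lemma test_c (o : B) (R : Finset G) (x : ι → G) (y : G) :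
    𝔼 l, ind (tA o R l x y) ≤ (∑ r ∈ R, ind (∃ t, y + x t = r)) / (Fintype.card B : ℝ) ^ 2
      + 𝔼 l, ind (tB o R l x y) := by
  classical
  have : Nonempty B := ⟨o⟩
  obtain ⟨φ, h1, h2⟩ := test_perm x
  have h3 : ∀ l, ind (tA o R l x y) ≤ ∑ t, ind (φ t = t ∧ y + x t ∈ R) * ind (l t = (o, o)) +
      ind (∃ t, φ t ≠ t ∧ l t = (o, o) ∧ y + x t ∈ R) := fun l => by
    simp only [← ind_and]
    refine le_trans (ind_mono ?_) ((ind_or_le _ _).trans (add_le_add (test_ind_exists _) le_rfl))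
    rintro ⟨t, h4, h5⟩
    by_cases h : φ t = t
    · exact Or.inl ⟨t, ⟨h, h5⟩, h4⟩
    · exact Or.inr ⟨t, h, h4, h5⟩
  refine (E_mono h3).trans ?_
  rw [E_add, E_sum]
  refine add_le_add ?_ ?_
  · have h4 : ∀ t, 𝔼 l : ι → B × B, ind (φ t = t ∧ y + x t ∈ R) * ind (l t = (o, o)) =
        ind (φ t = t ∧ y + x t ∈ R) / (Fintype.card B : ℝ) ^ 2 := fun t => by
      rw [E_mul_left, test_E_one t fun s => ind (s = (o, o)), test_E_oo, div_eq_mul_inv]
    simp only [h4]
    rw [← sum_div, sum_ind, sum_ind]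
    refine div_le_div_of_nonneg_right (Nat.cast_le.2 ?_) (by positivity)
    refine card_le_card_of_injOn (fun t => y + x t) (fun t ht => ?_) fun t ht t' _ h => ?_
    · exact mem_coe.2 (mem_filter.2 ⟨(mem_filter.1 (mem_coe.1 ht)).2.2, t, rfl⟩)
    · exact (h2 t (mem_filter.1 (mem_coe.1 ht)).2.1 t' (add_left_cancel h).symm).symm
  · let e : (ι → B × B) ≃ (ι → B × B) :=
      ⟨fun l t => ((l t).1, (l (φ t)).2), fun l t => ((l t).1, (l (φ.symm t)).2),
        fun l => by simp, fun l => by simp⟩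
    rw [← law_equiv e (fun l => l) fun l => ind (∃ t, φ t ≠ t ∧ l t = (o, o) ∧ y + x t ∈ R)]
    refine E_mono fun l => ind_mono ?_
    rintro ⟨t, h4, h5, h6⟩
    exact ⟨t, φ t, ⟨h4.symm, (h1 t).symm⟩, Prod.mk.inj h5, h6⟩

omit [AddCommGroup G] in
lemma test_gibbs1 [Nonempty Ω] (X : Ω → G) (σ : Ω → β) (A : G → β → Prop) :
    (𝔼 ω, ∑ y, ind (A y (σ ω))) / Fintype.card G / 2 - (Real.log (Fintype.card G) - cent X σ) ≤
      𝔼 ω, ind (A (X ω) (σ ω)) := by
  have : Nonempty G := ⟨X (Classical.arbitrary Ω)⟩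
  have hp : (0 : ℝ) < Fintype.card G := by positivity
  have h0 : ∀ y s, 0 < (1 - ind (A y s) / 2) / Fintype.card G := fun y s =>
    div_pos (by linarith [ind_le_one (A y s)]) hp
  have h1 := gibbs (X := X) (Y := σ) univ (fun _ => mem_univ _)
    (fun y s => (1 - ind (A y s) / 2) / Fintype.card G) (fun y s => (h0 y s).le) fun _ => h0 _ _
  have h2 : ∀ P : Prop, -Real.log ((1 - ind P / 2) / Fintype.card G) ≤
      ind P + Real.log (Fintype.card G) := fun P => by
    rw [Real.log_div (by linarith [ind_le_one P]) hp.ne']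
    by_cases h : P
    · have := Real.log_two_lt_d9
      rw [ind_pos h, show (1 : ℝ) - 1 / 2 = 2⁻¹ by norm_num, Real.log_inv]
      linarith
    · simp [ind_neg h]
  have h3 := E_mono fun ω => h2 (A (X ω) (σ ω))
  have h4 : ∀ ω, ∑ y, (1 - ind (A y (σ ω)) / 2) / Fintype.card G =
      1 - (∑ y, ind (A y (σ ω))) / Fintype.card G / 2 := fun ω => by
    rw [← sum_div, sum_sub_distrib, ← sum_div, sum_const, card_univ, nsmul_eq_mul]
    field_simp
  rw [E_add, E_const] at h3
  rw [E_congr h4, E_sub, E_const, E_div, E_div] at h1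
  linarith

omit [AddCommGroup G] in
lemma test_gibbs2 [Nonempty Ω] (X : Ω → G) (σ : Ω → β) (A : G → β → Prop) :
    𝔼 ω, ind (A (X ω) (σ ω)) ≤ 3 / 2 * (Real.log (Fintype.card G) - cent X σ +
      (𝔼 ω, ∑ y, ind (A y (σ ω))) / Fintype.card G) := by
  have : Nonempty G := ⟨X (Classical.arbitrary Ω)⟩
  have hp : (0 : ℝ) < Fintype.card G := by positivity
  have h0 : ∀ y s, 0 < (1 + ind (A y s)) / Fintype.card G := fun y s =>
    div_pos (by linarith [ind_nonneg (A y s)]) hp
  have h1 := gibbs (X := X) (Y := σ) univ (fun _ => mem_univ _)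
    (fun y s => (1 + ind (A y s)) / Fintype.card G) (fun y s => (h0 y s).le) fun _ => h0 _ _
  have h2 : ∀ P : Prop, -Real.log ((1 + ind P) / Fintype.card G) ≤
      Real.log (Fintype.card G) - 2 / 3 * ind P := fun P => by
    rw [Real.log_div (by linarith [ind_nonneg P]) hp.ne']
    by_cases h : P
    · have := Real.log_two_gt_d9
      rw [ind_pos h, one_add_one_eq_two]
      linarith
    · simp [ind_neg h]
  have h3 := E_mono fun ω => h2 (A (X ω) (σ ω))
  have h4 : ∀ ω, ∑ y, (1 + ind (A y (σ ω))) / Fintype.card G =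
      1 + (∑ y, ind (A y (σ ω))) / Fintype.card G := fun ω => by
    rw [← sum_div, sum_add_distrib, sum_const, card_univ, nsmul_eq_mul]
    field_simp
  rw [E_sub, E_const, E_mul_left] at h3
  rw [E_congr h4, E_add, E_const, E_div] at h1
  linarith

/-- The estimate for one modulus. -/
lemma test_one [Nonempty Ω] (o : B) {R : Finset G} (hR : R.card = Fintype.card B ^ 2)
    (X : Ω → G) (x : Ω → ι → G) (σ : (ι → B × B) → Ω → β) (ρ : β → ι → G)
    (hρ : ∀ l ω t, (l t).1 = o ∨ (l t).2 = o → ρ (σ l ω) t = x ω t) {c : ℝ}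
    (hc : ∀ r ∈ R, (pr fun ω => ∃ t, X ω + x ω t = r) ≤ c) :
    (Fintype.card ι : ℝ) / Fintype.card G / 4 ≤ c +
      5 / 2 * (𝔼 l, (Real.log (Fintype.card G) - cent X (σ l))) +
        7 / 4 * ((𝔼 ω, tPairs (x ω)) / Fintype.card G) := by
  have : Nonempty B := ⟨o⟩
  have : Nonempty G := ⟨0⟩
  have hp : (0 : ℝ) < Fintype.card G := by positivity
  have hA : ∀ l ω y, ind (tA o R l (ρ (σ l ω)) y) = ind (tA o R l (x ω) y) := fun l ω y =>
    ind_congr (exists_congr fun t => and_congr_right fun h => by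
      rw [hρ l ω t (Or.inl (by rw [h]))])
  have hB : ∀ l ω y, ind (tB o R l (ρ (σ l ω)) y) = ind (tB o R l (x ω) y) := fun l ω y =>
    ind_congr (exists_congr fun t => exists_congr fun t' => by
      by_cases h : (l t).1 = o ∧ (l t').2 = o
      · rw [hρ l ω t (Or.inl h.1), hρ l ω t' (Or.inr h.2)]
      · simp only [h, false_and, and_false])
  have h1 := E_mono fun l => test_gibbs1 X (σ l) fun y s => tA o R l (ρ s) y
  have h2 := E_mono fun l => test_gibbs2 X (σ l) fun y s => tB o R l (ρ s) y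
  simp only [hA, hB] at h1 h2
  rw [E_sub, E_div, E_div, E_comm, E_comm fun l ω => ind (tA o R l (x ω) (X ω))] at h1
  rw [E_mul_left, E_add, E_div, E_comm, E_comm fun l ω => ∑ y, ind (tB o R l (x ω) y)] at h2
  have h3 := div_le_div_of_nonneg_right (E_mono fun ω => test_a o hR (x ω)) hp.le
  have h4 := div_le_div_of_nonneg_right (E_mono fun ω => test_b o hR (x ω)) hp.le
  have h5 := E_mono fun ω => test_c o R (x ω) (X ω)
  rw [E_div, E_sub, E_const, div_right_comm, sub_div] at h3
  rw [E_add, E_div, E_sum] at h5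
  have h6 : (∑ r ∈ R, 𝔼 ω, ind (∃ t, X ω + x ω t = r)) / (Fintype.card B : ℝ) ^ 2 ≤ c := by
    rw [div_le_iff₀' (by positivity)]
    refine (sum_le_card_nsmul _ _ c hc).trans (le_of_eq ?_)
    rw [nsmul_eq_mul, hR, Nat.cast_pow]
  linarith

end Vale.Agent.P015
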