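import Vale.Agent.P015.Core
import Vale.Agent.P015.TestAux

/-! Small deficiency forces most residues to be covered. -/

namespace Vale.Agent.P015

open Finset
open scoped BigOperators

variable {Ω : Type} [Fintype Ω]

/-- The displacements at the marked times. -/
def tSig {L b : ℕ} (o : Fin b) (z : ℕ → ℤ × ℤ) (n : Ω → ℕ) (l : Fin L → Fin b × Fin b) (ω : Ω) :
    Fin L → ℤ × ℤ :=
  fun t => if (l t).1 = o ∨ (l t).2 = o then z (n ω + t) - z (n ω) else 0

lemma test_ent {D L b : ℕ} {z : ℕ → ℤ × ℤ} (h : Steps D z) (o : Fin b) (n : Ω → ℕ) :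
    𝔼 l : Fin L → Fin b × Fin b, ent (tSig o z n l) ≤ 4 * L / b * lg D L := by
  have : Nonempty (Fin b) := ⟨o⟩
  have h1 : ∀ l : Fin L → Fin b × Fin b, ent (tSig o z n l) ≤
      ∑ t, (ind ((l t).1 = o) + ind ((l t).2 = o)) * (2 * lg D L) := fun l => by
    refine (ent_le_sum univ (fun t ω => tSig o z n l ω t) _ fun ω ω' h' =>
      funext fun t => h' t (mem_univ t)).trans (sum_le_sum fun t _ => ?_)
    have h2 := lg_nonneg D L
    refine le_trans ?_ (mul_le_mul_of_nonneg_right (ind_or_le _ _) (by positivity))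
    by_cases ht : (l t).1 = o ∨ (l t).2 = o
    · simp only [tSig, if_pos ht, ind_pos ht, one_mul]
      exact ent_disp_le h (fun _ => Nat.le_add_right _ _) fun _ => Nat.add_le_add_left t.2.le _
    · simp only [tSig, if_neg ht, ind_neg ht, zero_mul]
      exact (ent_const fun _ _ => rfl).le
  refine (E_mono h1).trans (le_of_eq ?_)
  have h3 : ∀ t : Fin L, 𝔼 l : Fin L → Fin b × Fin b,
      (ind ((l t).1 = o) + ind ((l t).2 = o)) * (2 * lg D L) = 4 / b * lg D L := fun t => by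
    rw [E_mul_right, E_add, test_E_one t fun s : Fin b × Fin b => ind (s.1 = o),
      test_E_one t fun s : Fin b × Fin b => ind (s.2 = o), test_E_fst, test_E_snd, Fintype.card_fin]
    ring
  rw [E_sum]
  simp only [h3, sum_const, card_univ, Fintype.card_fin, nsmul_eq_mul]
  ring

lemma test_pairs {D : ℕ} {ι : ℤ} {z : ℕ → ℤ × ℤ} (h : IsPath D z) {P : Finset ℕ} {N L : ℕ}
    (hN : 0 < N) (hP : PSet ι N P) (hL : 2 * D ^ 2 * L ^ 2 < N ^ 3) (a : ℕ) :
    ∑ p ∈ P, tPairs (fun t : Fin L => ((rho ι (z (a + t) - z a) : ℤ) : ZMod p)) ≤ 2 * L ^ 2 := by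
  classical
  unfold tPairs
  rw [sum_comm]
  refine (sum_le_card_nsmul _ _ (2 * L : ℝ) fun t _ => ?_).trans (by simp [sq, mul_left_comm])
  rw [sum_comm]
  refine (sum_le_card_nsmul _ _ (2 : ℝ) fun t' _ => ?_).trans (by simp [mul_comm])
  rw [sum_ind]
  set Q := P.filter fun p => t ≠ t' ∧ ((rho ι (z (a + t) - z a) : ℤ) : ZMod p) =
    ((rho ι (z (a + t') - z a) : ℤ) : ZMod p)
  by_contra hQ
  have h3 : 3 ≤ Q.card := by
    have : (2 : ℝ) < Q.card := not_le.1 hQ
    exact_mod_cast this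
  obtain ⟨q, hq⟩ := card_pos.1 (show 0 < Q.card by omega)
  have hne : t.1 ≠ t'.1 := fun h' => (mem_filter.1 hq).2.1 (Fin.ext h')
  obtain ⟨h1, h2⟩ := h.dot_bounds (a := a) t.2.le t'.2.le hne
  have h4 : ((∏ p ∈ Q, p : ℕ) : ℤ) ∣ dot (z (a + t) - z (a + t')) (z (a + t) - z (a + t')) := by
    rw [Nat.cast_prod]
    refine prod_dvd_of_coprime (fun p hp q hq hpq => ?_) fun p hp => ?_
    · exact Nat.isCoprime_iff_coprime.2 ((Nat.coprime_primes (hP p (mem_filter.1 hp).1).1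
        (hP q (mem_filter.1 hq).1).1).2 hpq)
    · refine dvd_dot_of_dvd_rho (hP p (mem_filter.1 hp).1).2.1 ?_
      have h5 := (mem_filter.1 hp).2.2
      rw [← ZMod.intCast_zmod_eq_zero_iff_dvd]
      simp only [rho_sub, Int.cast_sub] at h5 ⊢
      linear_combination h5
  have h5 : N ^ 3 ≤ ∏ p ∈ Q, p := (Nat.pow_le_pow_right hN h3).trans
    (pow_card_le_prod _ _ _ fun p hp => (hP p (mem_filter.1 hp).1).2.2.1.le)
  have h6 := Int.le_of_dvd h1 h4
  have h7 : ((2 * D ^ 2 * L ^ 2 : ℕ) : ℤ) < ((∏ p ∈ Q, p : ℕ) : ℤ) := by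
    exact_mod_cast hL.trans_le h5
  push_cast at h6 h7
  linarith

lemma test_dfc_nonneg {L b p : ℕ} (hp : 0 < p) (o : Fin b) (ι : ℤ) (z : ℕ → ℤ × ℤ) (n : Ω → ℕ) :
    0 ≤ 𝔼 l : Fin L → Fin b × Fin b,
      (Real.log p - cent (fun ω => (rho ι (z (n ω)) : ZMod p)) (tSig o z n l)) :=
  E_nonneg fun _ => sub_nonneg.2 (cent_res_le _ hp _)

lemma test_prime [Nonempty Ω] {L b N p : ℕ} (hN : 0 < N) (h1 : N < p) (h2 : p ≤ 2 * N) (o : Fin b)
    (ι : ℤ) (z : ℕ → ℤ × ℤ) (n : Ω → ℕ)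
    (hb : b ^ 2 ≤ low (fun n => rho ι (z n)) n L p (L / (16 * N))) :
    (L / (16 * N) : ℝ) ≤ 3 * (𝔼 l : Fin L → Fin b × Fin b,
      (Real.log p - cent (fun ω => (rho ι (z (n ω)) : ZMod p)) (tSig o z n l))) +
      2 / N * 𝔼 ω, tPairs fun t : Fin L => ((rho ι (z (n ω + t) - z (n ω)) : ℤ) : ZMod p) := by
  classical
  have hp : 0 < p := by omega
  have : NeZero p := ⟨hp.ne'⟩
  rw [low, Set.ncard_eq_toFinset_card', Set.toFinset_ofPred] at hb
  obtain ⟨R, hR, hR'⟩ := exists_subset_card_eq hb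
  have h3 := test_one o (R := R) (by rw [hR', Fintype.card_fin])
    (fun ω => (rho ι (z (n ω)) : ZMod p))
    (fun ω (t : Fin L) => ((rho ι (z (n ω + t) - z (n ω)) : ℤ) : ZMod p)) (tSig o z n)
    (fun s t => (rho ι (s t) : ZMod p)) (fun l ω t ht => by simp only [tSig, if_pos ht])
    (c := L / (16 * N)) fun r hr => le_trans (pr_mono fun ω ⟨t, ht⟩ => ⟨t, t.2, by
      rw [← ht, rho_sub, Int.cast_sub, add_sub_cancel]⟩) (mem_filter.1 (hR hr)).2.le
  rw [ZMod.card, Fintype.card_fin] at h3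
  have h4 := test_dfc_nonneg (L := L) hp o ι z n
  have h5 : 0 ≤ 𝔼 ω, tPairs fun t : Fin L => ((rho ι (z (n ω + t) - z (n ω)) : ℤ) : ZMod p) :=
    E_nonneg fun _ => tPairs_nonneg _
  have hN' : (0 : ℝ) < N := by exact_mod_cast hN
  have h6 := div_le_div_of_nonneg_left h5 hN' (show (N : ℝ) ≤ p by exact_mod_cast h1.le)
  have h7 := div_le_div_of_nonneg_left (Nat.cast_nonneg (α := ℝ) L) (by positivity : (0 : ℝ) < p)
    (show (p : ℝ) ≤ 2 * N by exact_mod_cast h2)
  have h8 : (L : ℝ) / (2 * N) = 8 * (L / (16 * N)) := by ring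
  have h9 := div_nonneg h5 hN'.le
  rw [div_mul_eq_mul_div, mul_div_assoc]
  linarith

theorem test : TestStmt := by
  intro D ι z hz Ω _ _ n P β N L b hN _ hb hP hL
  set o : Fin b := ⟨0, hb⟩
  have : Nonempty (Fin b) := ⟨o⟩
  have hN' : (0 : ℝ) < N := by exact_mod_cast hN
  have h1 := card_nsmul_le_sum (P.filter fun p =>
    b ^ 2 ≤ low (fun n => rho ι (z n)) n L p (L / (16 * N))) _ _ fun p hp =>
      test_prime hN (hP p (mem_filter.1 hp).1).2.2.1 (hP p (mem_filter.1 hp).1).2.2.2 o ι z n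
        (mem_filter.1 hp).2
  rw [nsmul_eq_mul] at h1
  refine h1.trans ((sum_le_sum_of_subset_of_nonneg (filter_subset _ _) fun p hp _ =>
    add_nonneg (mul_nonneg (by norm_num) (test_dfc_nonneg (hP p hp).1.pos o ι z n))
      (mul_nonneg (by positivity) (E_nonneg fun _ => tPairs_nonneg _))).trans ?_)
  rw [sum_add_distrib, ← mul_sum, ← mul_sum, ← E_sum, ← E_sum]
  refine add_le_add (mul_le_mul_of_nonneg_left ?_ (by norm_num)) ?_
  · refine (E_mono fun l => dfc_side_prime (fun n => rho ι (z n)) P β n (tSig o z n l)).trans ?_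
    rw [E_add, E_const, E_mul_left]
    exact add_le_add le_rfl (mul_le_mul_of_nonneg_left (test_ent hz.steps o n) (by positivity))
  · refine (mul_le_mul_of_nonneg_left (E_le fun ω => test_pairs hz hN hP hL (n ω))
      (by positivity)).trans (le_of_eq ?_)
    ring

end Vale.Agent.P015
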